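import Claimed.Agent.R252.S3b.AsmKit
import Claimed.Agent.R252.S3e3.Hub

/-!
# ROW 252 (S0492), unit S3b (L3.5), file 9: THE ASSEMBLY `K3bCmpStmt v → K3bHubStmt v`      CONTRACT (architect helper70)   -- KEEP
PAPER-FREE.  The `sorry`s are the leaves `L-252-S3b-A*`.  Prove IN PLACE, statement verbatim, helpers (prefix `k3b_`) directly above.  Earlier statements of this file and of `AsmKit` may be cited even if they are still sorried.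
Definitions: `S3b/{Defs,Sh,Cmp,AsmDefs}.lean`, `S3e2/Alg.lean`, `S3e3/Defs.lean`.   API: `S2s/Api.lean` (`k2s_*`), `S3e2/{Alg,Transfer,Meas,Contract}.lean` (`k3e2_*`), `S3e3/{Contract,Hub}.lean` (`k3e3_*`).

`X : K3bCmp Y` exit of part 1, `Z : K3bAn X` numbers and frozen anchors.  STANDING HYPOTHESES  `hP : P.WF`, `hY : Y.WF`, `hX : X.Ok K A₀ A₂ r Z.ρ Z.δ Q`, `hZ : Z.Num A₀ r`.
RADII: `ρ = 1/(12A)` (net), `hs = hn = 1/(40A)` (grids), `r = 1/(8A) = 5 hs` (comparison cube), `A ≥ 8 A₀²`.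
* s1 pairs (times, blocks, disjointness)          * s2 calculus of the pair mass `k3bPM`          * s3 measurability of the events
* s4 ONE PAIR: discriminants near the net point, the continued branch, list membership, eligibility, fit, translation into the table
* s5 masses: anchors (M2), discriminant charge (M3), freezing (M4)          * s6 the table          * s7 numerics          * s8 the theorem `k3b_hub_of_cmp`.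
-/

set_option autoImplicit false

namespace Claimed.Agent.R252

open MeasureTheory
open scoped ENNReal BigOperators

noncomputable section

variable {v : KbVer} {P : KbPb v} {Y : KbSys P}

/-- **the numerical requirements on the numbers and anchors** -/
structure K3bAn.Num {X : K3bCmp Y} (Z : K3bAn X) (A₀ r : ℝ) : Prop where
  A0_ge : 2 ≤ A₀
  A_ge : 8 * A₀ ^ 2 ≤ Z.A
  ρ_eq : Z.ρ = 1 / (12 * Z.A)
  hs_eq : Z.hs = 1 / (40 * Z.A)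
  hn_eq : Z.hn = 1 / (40 * Z.A)
  r_eq : r = 1 / (8 * Z.A)
  δ_pos : 0 < Z.δ
  h_pos : 0 < Z.h
  an_cube : ∀ φ, (Z.an φ).1 ∈ k3bCube (v.j + 1) 1
  an_sg : ∀ φ, ‖(Z.an φ).2‖ ≤ 2

/-! ## 1. Pairs: times, blocks, disjointness -/

/-- **LEAF L-252-S3b-A1a** (nested dyadic intervals).  `i = (i / 2^d) 2^d + i % 2^d`, `kbQ n₁ = 2^d kbQ n`, `d = n - n₁`. -/
theorem k3b_I_sub (n n₁ i : ℕ) (h : n₁ ≤ n) : kbI n i ⊆ kbI n₁ (i / 2 ^ (n - n₁)) := by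
  obtain ⟨d, rfl⟩ := Nat.exists_eq_add_of_le h
  rw [Nat.add_sub_cancel_left]
  have hq : 0 < kbQ (n₁ + d) := by unfold kbQ; positivity
  have e : kbQ n₁ = (2 : ℝ) ^ d * kbQ (n₁ + d) := by
    unfold kbQ
    rw [pow_add]
    have : (2 : ℝ) ^ d * (1 / 2 : ℝ) ^ d = 1 := by rw [← mul_pow]; norm_num
    calc (1 / 2 : ℝ) ^ n₁ = (1 / 2 : ℝ) ^ n₁ * ((2 : ℝ) ^ d * (1 / 2 : ℝ) ^ d) := by rw [this, mul_one]
      _ = _ := by ring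
  have h1 : ((i / 2 ^ d : ℕ) : ℝ) * (2 : ℝ) ^ d ≤ (i : ℝ) := by
    exact_mod_cast Nat.div_mul_le_self i (2 ^ d)
  have h2 : (i : ℝ) + 1 ≤ (((i / 2 ^ d : ℕ) : ℝ) + 1) * (2 : ℝ) ^ d := by
    have := Nat.lt_mul_div_succ i (Nat.pos_of_ne_zero (pow_ne_zero d two_ne_zero) : 0 < 2 ^ d)
    have h3 : i + 1 ≤ (i / 2 ^ d + 1) * 2 ^ d := by rw [mul_comm]; exact this
    exact_mod_cast h3
  intro t ht
  unfold kbI at ht ⊢
  rw [e]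
  constructor
  · calc ((i / 2 ^ d : ℕ) : ℝ) * ((2 : ℝ) ^ d * kbQ (n₁ + d)) = (((i / 2 ^ d : ℕ) : ℝ) * (2 : ℝ) ^ d) * kbQ (n₁ + d) := by ring
      _ ≤ (i : ℝ) * kbQ (n₁ + d) := mul_le_mul_of_nonneg_right h1 hq.le
      _ ≤ t := ht.1
  · calc t < ((i : ℝ) + 1) * kbQ (n₁ + d) := ht.2
      _ ≤ ((((i / 2 ^ d : ℕ) : ℝ) + 1) * (2 : ℝ) ^ d) * kbQ (n₁ + d) := mul_le_mul_of_nonneg_right h2 hq.le
      _ = _ := by ring

/-- **LEAF L-252-S3b-A1a.**  `Nat.div_lt_of_lt_mul`, `2^(n - n₁) * 2^n₁ = 2^n`. -/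
theorem k3b_bk_lt (hY : Y.WF) (n₁ : ℕ) (h : n₁ ≤ Y.n) (c : Y.C) : Y.k3bBk n₁ c < 2 ^ n₁ := by
  unfold KbSys.k3bBk
  refine Nat.div_lt_of_lt_mul ?_
  rw [← pow_add, Nat.sub_add_cancel h]
  exact hY.iv_lt c

/-- **LEAF L-252-S3b-A1b** (the pairs of one world are disjoint).  `k2s_S_disj` twice. -/
theorem k3b_pr_disj (hY : Y.WF) (c c' d d' : Y.C) (h : (c, c') ≠ (d, d')) (hw : Y.wd c = Y.wd d) (hw' : Y.wd c' = Y.wd d') : Disjoint (Y.k3bPr c c') (Y.k3bPr d d') := by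
  rw [Set.disjoint_left]
  intro x hx hx'
  by_cases h1 : c = d
  · have h2 : c' ≠ d' := fun h2 => h (by rw [h1, h2])
    exact Set.disjoint_left.1 (k2s_S_disj Y hY h2 hw') hx.2 hx'.2
  · exact Set.disjoint_left.1 (k2s_S_disj Y hY h1 hw) hx.1 hx'.1

section std

variable {X : K3bCmp Y} {Z : K3bAn X} {K A₀ A₂ r ρ δ Q : ℝ}

/-- **LEAF L-252-S3b-A1c** (a selected incidence in the frame of its label).  `hY.S_sub`; `k3b_I_sub`, `hX.of_iv`; `k3b_tm_mem`; `hX.box`. -/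
theorem k3b_src_time (hY : Y.WF) (hX : X.Ok K A₀ A₂ r ρ δ Q) (c : Y.C) (y : P.Lam × ℝ) (hy : y ∈ Y.S c) :
    y.1 ∈ Y.A c ∧ y.2 ∈ Y.I c ∧ y.2 ∈ kbI X.n₁ (X.iv (X.of c)) ∧ ∃ τ ∈ Set.Icc (0 : ℝ) 1, y.2 = X.tm (X.of c) τ ∧ ‖X.zl (X.of c) y.1 y.2‖ ≤ 1 := by
  have h1 := (hY.S_sub c hy).2
  have h2 : y.2 ∈ kbI X.n₁ (X.iv (X.of c)) := by
    rw [hX.of_iv]
    exact k3b_I_sub Y.n X.n₁ (Y.iv c) hX.n_le h1.2
  obtain ⟨τ, hτ, e⟩ := k3b_tm_mem X (X.of c) y.2 h2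
  refine ⟨h1.1, h1.2, h2, τ, hτ, e, ?_⟩
  rw [e]
  exact hX.box c y.1 h1.1 τ hτ

end std

/-! ## 2. Calculus of the pair mass -/

theorem k3b_PM_mono (n₁ : ℕ) (F G : Y.C → Y.C → Set (P.Lam × ℝ × ℝ)) (h : ∀ c c', F c c' ⊆ G c c') : Y.k3bPM n₁ F ≤ Y.k3bPM n₁ G := by
  unfold KbSys.k3bPM
  exact Finset.sum_le_sum fun c _ => Finset.sum_le_sum fun c' _ => by gcongr; exact h c c'

theorem k3b_PM_union (n₁ : ℕ) (F G : Y.C → Y.C → Set (P.Lam × ℝ × ℝ)) : Y.k3bPM n₁ (fun c c' => F c c' ∪ G c c') ≤ Y.k3bPM n₁ F + Y.k3bPM n₁ G := by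
  unfold KbSys.k3bPM
  rw [← Finset.sum_add_distrib]
  refine Finset.sum_le_sum fun c _ => ?_
  rw [← Finset.sum_add_distrib]
  refine Finset.sum_le_sum fun c' _ => ?_
  rw [← mul_add]
  gcongr
  exact measure_union_le _ _

/-- **LEAF L-252-S3b-A2a** (the uniform law of a block).  `volume (kbI n₁ i) = ofReal (kbQ n₁)` (`Real.volume_Ico`), `2^n₁ * kbQ n₁ = 1`. -/
theorem k3b_un_prob (n₁ i : ℕ) : IsProbabilityMeasure (k3bUn n₁ i) := by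
  constructor
  unfold k3bUn
  rw [Measure.smul_apply, Measure.restrict_apply MeasurableSet.univ, Set.univ_inter]
  unfold kbI
  rw [Real.volume_Ico, smul_eq_mul, ← ENNReal.ofReal_mul (by positivity)]
  have : (2 : ℝ) ^ n₁ * (((i : ℝ) + 1) * kbQ n₁ - (i : ℝ) * kbQ n₁) = 1 := by
    unfold kbQ
    have : (2 : ℝ) ^ n₁ * (1 / 2 : ℝ) ^ n₁ = 1 := by rw [← mul_pow]; norm_num
    calc _ = (2 : ℝ) ^ n₁ * (1 / 2 : ℝ) ^ n₁ := by ring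
      _ = 1 := this
  rw [this, ENNReal.ofReal_one]

/-- **LEAF L-252-S3b-A2a.** -/
theorem k3b_un_compl (n₁ i : ℕ) : k3bUn n₁ i (kbI n₁ i)ᶜ = 0 := by
  unfold k3bUn
  have hm : MeasurableSet (kbI n₁ i) := by unfold kbI; exact measurableSet_Ico
  rw [Measure.smul_apply, Measure.restrict_apply hm.compl, Set.compl_inter_self, measure_empty, smul_zero]

/-- **LEAF L-252-S3b-A2b** (Tonelli for the pair law).  `Measure.prod_apply`, `lintegral_prod`, `lintegral_lintegral_swap`; `ofReal (kbQ n₁) • k3bUn n₁ i = volume.restrict (kbI n₁ i)`.   All measures are s-finite (`hP.prob γ`). -/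
theorem k3b_law_fub (hP : P.WF) (γ : P.W) (n₁ i : ℕ) (G : Set (P.Lam × ℝ × ℝ)) (hG : MeasurableSet G) :
    ENNReal.ofReal (kbQ n₁) * P.k3bLaw γ n₁ i G = ∫⁻ t₀, ((P.nu γ).prod (volume.restrict (kbI n₁ i))) {y | (y.1, t₀, y.2) ∈ G} ∂(k3bUn n₁ i) := by
  have := hP.prob γ
  have := k3b_un_prob n₁ i
  have hsec : ∀ t₀ : ℝ, MeasurableSet {y : P.Lam × ℝ | (y.1, t₀, y.2) ∈ G} := fun t₀ =>
    hG.preimage (measurable_fst.prodMk (measurable_const.prodMk measurable_snd))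
  have e1 : P.k3bLaw γ n₁ i G = ∫⁻ t₀, ((P.nu γ).prod (k3bUn n₁ i)) {y | (y.1, t₀, y.2) ∈ G} ∂(k3bUn n₁ i) := by
    unfold KbPb.k3bLaw
    rw [Measure.prod_apply hG]
    have h1 : ∀ l, ((k3bUn n₁ i).prod (k3bUn n₁ i)) (Prod.mk l ⁻¹' G) = ∫⁻ t₀, k3bUn n₁ i (Prod.mk t₀ ⁻¹' (Prod.mk l ⁻¹' G)) ∂(k3bUn n₁ i) :=
      fun l => Measure.prod_apply (measurable_prodMk_left hG)
    simp only [h1]
    rw [lintegral_lintegral_swap]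
    · refine lintegral_congr fun t₀ => ?_
      rw [Measure.prod_apply (hsec t₀)]
      rfl
    · have hG' : MeasurableSet {z : (P.Lam × ℝ) × ℝ | (z.1.1, z.1.2, z.2) ∈ G} :=
        hG.preimage ((measurable_fst.comp measurable_fst).prodMk ((measurable_snd.comp measurable_fst).prodMk measurable_snd))
      exact (measurable_measure_prodMk_left (ν := k3bUn n₁ i) hG').aemeasurable
  have e2 : ∀ S : Set (P.Lam × ℝ), ENNReal.ofReal (kbQ n₁) * ((P.nu γ).prod (k3bUn n₁ i)) S = ((P.nu γ).prod (volume.restrict (kbI n₁ i))) S := by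
    intro S
    unfold k3bUn
    rw [Measure.prod_smul_right, Measure.smul_apply, smul_eq_mul, ← mul_assoc, ← ENNReal.ofReal_mul (by unfold kbQ; positivity)]
    have : kbQ n₁ * (2 : ℝ) ^ n₁ = 1 := by
      unfold kbQ
      rw [← mul_pow]
      norm_num
    rw [this, ENNReal.ofReal_one, one_mul]
  rw [e1, ← lintegral_const_mul' _ _ ENNReal.ofReal_ne_top]
  exact lintegral_congr fun t₀ => e2 _

/-- **LEAF L-252-S3b-A2c** (the weights; 03 (3.10)).  Group the labels by `(γ, i) = (wd c, Bk c)` (`Finset.sum_fiberwise`), `i < 2^n₁` (`k3b_bk_lt`): `∑_c ω q₁ ϱ = ∑_γ ω_γ ∑_{i < 2^n₁} q₁ (# labels) ϱ ≤ ∑_γ ω_γ ∑_{i < 2^n₁} q₁ A = A` (`hP.om_sum`, `2^n₁ q₁ = 1`). -/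
theorem k3b_wt_sum (hP : P.WF) (hY : Y.WF) (n₁ : ℕ) (hn : n₁ ≤ Y.n) (ϱ A : ℝ) (hϱ : 0 ≤ ϱ)
    (h : ∀ (γ : P.W) (i : ℕ), (Set.ncard {c : Y.C | Y.wd c = γ ∧ Y.k3bBk n₁ c = i} : ℝ) * ϱ ≤ A) :
    ∑ c, P.om (Y.wd c) * ENNReal.ofReal (kbQ n₁) * ENNReal.ofReal ϱ ≤ ENNReal.ofReal A := by
  classical
  have hmap : ∀ c ∈ (Finset.univ : Finset Y.C), ((Y.wd c, Y.k3bBk n₁ c) : P.W × ℕ) ∈ (Finset.univ : Finset P.W) ×ˢ Finset.range (2 ^ n₁) := by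
    intro c _
    exact Finset.mem_product.mpr ⟨Finset.mem_univ _, Finset.mem_range.mpr (k3b_bk_lt hY n₁ hn c)⟩
  rw [← Finset.sum_fiberwise_of_maps_to hmap]
  have hfib : ∀ p ∈ (Finset.univ : Finset P.W) ×ˢ Finset.range (2 ^ n₁),
      ∑ c ∈ Finset.univ.filter (fun c : Y.C => ((Y.wd c, Y.k3bBk n₁ c) : P.W × ℕ) = p), P.om (Y.wd c) * ENNReal.ofReal (kbQ n₁) * ENNReal.ofReal ϱ
        ≤ P.om p.1 * ENNReal.ofReal (kbQ n₁) * ENNReal.ofReal A := by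
    intro p _
    have e1 : ∑ c ∈ Finset.univ.filter (fun c : Y.C => ((Y.wd c, Y.k3bBk n₁ c) : P.W × ℕ) = p), P.om (Y.wd c) * ENNReal.ofReal (kbQ n₁) * ENNReal.ofReal ϱ
        = ∑ _c ∈ Finset.univ.filter (fun c : Y.C => ((Y.wd c, Y.k3bBk n₁ c) : P.W × ℕ) = p), P.om p.1 * ENNReal.ofReal (kbQ n₁) * ENNReal.ofReal ϱ := by
      refine Finset.sum_congr rfl fun c hc => ?_
      have := (Finset.mem_filter.mp hc).2
      rw [← this]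
    rw [e1, Finset.sum_const, nsmul_eq_mul]
    have e2 : Set.ncard {c : Y.C | Y.wd c = p.1 ∧ Y.k3bBk n₁ c = p.2} = (Finset.univ.filter (fun c : Y.C => ((Y.wd c, Y.k3bBk n₁ c) : P.W × ℕ) = p)).card := by
      rw [← Set.ncard_coe_finset]
      congr 1
      ext c
      simp [Prod.ext_iff]
    have h1 := h p.1 p.2
    rw [e2] at h1
    have h2 : ((Finset.univ.filter (fun c : Y.C => ((Y.wd c, Y.k3bBk n₁ c) : P.W × ℕ) = p)).card : ℝ≥0∞) * ENNReal.ofReal ϱ ≤ ENNReal.ofReal A := by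
      rw [← ENNReal.ofReal_natCast, ← ENNReal.ofReal_mul (Nat.cast_nonneg _)]
      exact ENNReal.ofReal_le_ofReal h1
    calc _ = P.om p.1 * ENNReal.ofReal (kbQ n₁) * (((Finset.univ.filter (fun c : Y.C => ((Y.wd c, Y.k3bBk n₁ c) : P.W × ℕ) = p)).card : ℝ≥0∞) * ENNReal.ofReal ϱ) := by ring
      _ ≤ _ := mul_le_mul' le_rfl h2
  refine le_trans (Finset.sum_le_sum hfib) ?_
  rw [Finset.sum_product]
  simp only [Finset.sum_const, Finset.card_range, nsmul_eq_mul]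
  have e3 : ∀ γ : P.W, ((2 ^ n₁ : ℕ) : ℝ≥0∞) * (P.om γ * ENNReal.ofReal (kbQ n₁) * ENNReal.ofReal A) = P.om γ * ENNReal.ofReal A := by
    intro γ
    have : ((2 ^ n₁ : ℕ) : ℝ≥0∞) * ENNReal.ofReal (kbQ n₁) = 1 := by
      rw [← ENNReal.ofReal_natCast, ← ENNReal.ofReal_mul (Nat.cast_nonneg _)]
      have : (((2 ^ n₁ : ℕ) : ℝ)) * kbQ n₁ = 1 := by
        unfold kbQ
        push_cast
        rw [← mul_pow]
        norm_num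
      rw [this, ENNReal.ofReal_one]
    calc _ = (((2 ^ n₁ : ℕ) : ℝ≥0∞) * ENNReal.ofReal (kbQ n₁)) * (P.om γ * ENNReal.ofReal A) := by ring
      _ = _ := by rw [this, one_mul]
  simp only [e3]
  rw [← Finset.sum_mul, hP.om_sum, one_mul]

/-! ## 3. Measurability of the events -/

/-- **LEAF L-252-S3b-A3a** (events indexed by the net point).  `= ⋃_{k : Fin n → ℤ} ({x | κ (f x) = k} ∩ T (ρ k))`, `κ` as in `k3b_net_meas`: or `⋃_{k} (f ⁻¹' (k3bNet ρ ⁻¹' {u_k}) ∩ T u_k)`, `u_k = fun i => ρ * k i`; every value of `k3bNet ρ` is some `u_k`. -/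
theorem k3b_net_meas2 {n : ℕ} {Ω : Type*} [MeasurableSpace Ω] (ρ : ℝ) (f : Ω → Fin n → ℝ) (hf : Measurable f) (T : (Fin n → ℝ) → Set Ω) (hT : ∀ u, MeasurableSet (T u)) :
    MeasurableSet {x | x ∈ T (k3bNet ρ (f x))} := by
  have e : {x | x ∈ T (k3bNet ρ (f x))} = ⋃ k : Fin n → ℤ, (f ⁻¹' (k3bNet (n := n) ρ ⁻¹' {fun i => ρ * (k i : ℝ)}) ∩ T (fun i => ρ * (k i : ℝ))) := by
    ext x
    simp only [Set.mem_ofPred_eq, Set.mem_iUnion, Set.mem_inter_iff, Set.mem_preimage, Set.mem_singleton_iff]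
    constructor
    · intro hx
      have h1 : k3bNet ρ (f x) = fun i => ρ * ((k3bKap ρ (f x i) : ℤ) : ℝ) := funext fun i => k3b_net_kap ρ (f x) i
      exact ⟨fun i => k3bKap ρ (f x i), h1, by rw [← h1]; exact hx⟩
    · rintro ⟨k, h1, h2⟩
      rw [h1]
      exact h2
  rw [e]
  exact MeasurableSet.iUnion fun k => (hf (k3b_net_meas ρ _)).inter (hT _)

section std

variable {X : K3bCmp Y} (Z : K3bAn X)

/-- **LEAF L-252-S3b-A3b** (events indexed by the discrete source index `(u, s)`).  `X.sn c y.1 y.2 = 1` iff `0 ≤ dwR (zl) (om)` : measurable (`k3b_zl_meas`, `k3b_om_meas`; `dwR` is a polynomial: `unfold K3bEq.dwR`, `Measurable` of finite sums);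
else `= -1`.   Split in the two cases and use `k3b_net_meas2` with `f y = X.zl (X.of c) y.1 y.2`. -/
theorem k3b_idx_meas (hP : P.WF) (c : Y.C) (T : (Fin (v.j + 1) → ℝ) → ℝ → Set (P.Lam × ℝ)) (hT : ∀ u s, MeasurableSet (T u s)) :
    MeasurableSet {y : P.Lam × ℝ | y ∈ T (Z.un c y.1 y.2) (X.sn c y.1 y.2)} := by
  have hzl := k3b_zl_meas X hP (X.of c)
  have hom := k3b_om_meas X hP (X.of c)
  have hD : Measurable fun y : P.Lam × ℝ => (X.eq c (X.of c)).dwR (X.zl (X.of c) y.1 y.2) (X.om (X.of c) y.1 y.2) := by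
    unfold K3bEq.dwR
    exact (measurable_const.add (Finset.measurable_sum _ fun i _ => measurable_const.mul ((measurable_pi_apply i).comp hzl))).add
      (measurable_const.mul hom)
  have hs : ∀ s : ℝ, MeasurableSet {y : P.Lam × ℝ | y ∈ T (Z.un c y.1 y.2) s} := fun s =>
    k3b_net_meas2 Z.ρ (fun y : P.Lam × ℝ => X.zl (X.of c) y.1 y.2) hzl (fun u => T u s) (fun u => hT u s)
  have hpos : MeasurableSet {y : P.Lam × ℝ | 0 ≤ (X.eq c (X.of c)).dwR (X.zl (X.of c) y.1 y.2) (X.om (X.of c) y.1 y.2)} :=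
    measurableSet_le measurable_const hD
  have e : {y : P.Lam × ℝ | y ∈ T (Z.un c y.1 y.2) (X.sn c y.1 y.2)}
      = ({y : P.Lam × ℝ | 0 ≤ (X.eq c (X.of c)).dwR (X.zl (X.of c) y.1 y.2) (X.om (X.of c) y.1 y.2)} ∩ {y : P.Lam × ℝ | y ∈ T (Z.un c y.1 y.2) 1})
        ∪ ({y : P.Lam × ℝ | 0 ≤ (X.eq c (X.of c)).dwR (X.zl (X.of c) y.1 y.2) (X.om (X.of c) y.1 y.2)}ᶜ ∩ {y : P.Lam × ℝ | y ∈ T (Z.un c y.1 y.2) (-1)}) := by
    ext y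
    simp only [Set.mem_ofPred_eq, Set.mem_union, Set.mem_inter_iff, Set.mem_compl_iff]
    unfold K3bCmp.sn k3bSg
    by_cases h : 0 ≤ (X.eq c (X.of c)).dwR (X.zl (X.of c) y.1 y.2) (X.om (X.of c) y.1 y.2)
    · simp [h]
    · simp [h]
  rw [e]
  exact (hpos.inter (hs 1)).union (hpos.compl.inter (hs (-1)))

/-- **LEAF L-252-S3b-A3c.**  `k3b_idx_meas` with constant sets (`T u s = univ` or `∅`), preimage under `x ↦ (x.1, x.2.1)`. -/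
theorem k3b_Sf_meas (hP : P.WF) (c c' : Y.C) : MeasurableSet (Z.Sf c c') := by
  have h := k3b_idx_meas Z hP c (fun u _ => {_y | K3bSafe (X.eq c (X.of c)).dsc (k3bC u) (Z.al (X.of c)) (Z.sg (X.of c)) Z.A ∧ K3e2Low (X.eq c' (X.of c)).dsc (Z.al (X.of c)) Z.A}) (fun u s => MeasurableSet.const _)
  exact (measurable_fst.prodMk (measurable_fst.comp measurable_snd)) h

/-- **LEAF L-252-S3b-A3c.**  `k3b_idx_meas` with `T u s = {y | 1/U3 ≤ |(Z.eqh (X.of c, Z.tup c u s)).dsc.evR (X.zl (X.of c) y.1 y.2)|}` (`K3bQd.evR` is a polynomial). -/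
theorem k3b_Dl_meas (hP : P.WF) (U3 : ℝ) (c : Y.C) : MeasurableSet (Z.Dl U3 c) := by
  have h := k3b_idx_meas Z hP c (fun u s => {y | 1 / U3 ≤ |(Z.eqh (X.of c, Z.tup c u s)).dsc.evR (X.zl (X.of c) y.1 y.2)|})
    (fun u s => measurableSet_le measurable_const ((k3b_qd_contR _).measurable.comp (k3b_zl_meas X hP (X.of c))).abs)
  exact (measurable_fst.prodMk (measurable_fst.comp measurable_snd)) h

/-- **LEAF L-252-S3b-A3c.** -/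
theorem k3b_z0_meas (hP : P.WF) (c : Y.C) : Measurable (X.z0 c) := by
  exact (k3b_zl_meas X hP (X.of c)).comp (measurable_fst.prodMk (measurable_fst.comp measurable_snd))

end std

/-! ## 4. One pair -/

section std

variable {X : K3bCmp Y} {Z : K3bAn X} {K A₀ A₂ r Q : ℝ}

/-- **LEAF L-252-S3b-A4a** (the net point).  `k3b_src_time` (with `hX.Gd_sub`), `k3b_net_le`, `k3b_net_dist`, `k3b_net_mem`, `k3b_sg`; `Finset.mem_image`. -/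
theorem k3b_pt_net (hY : Y.WF) (hX : X.Ok K A₀ A₂ r Z.ρ Z.δ Q) (hZ : Z.Num A₀ r) (c c' : Y.C) (x : P.Lam × ℝ × ℝ) (hx : x ∈ X.Gd c c') :
    ‖X.z0 c x‖ ≤ 1 ∧ ‖Z.un c x.1 x.2.1‖ ≤ 1 ∧ ‖Z.un c x.1 x.2.1 - X.z0 c x‖ ≤ 1 / (12 * Z.A) ∧ Z.lb c x.1 x.2.1 ∈ Z.lab := by
  have hpr := hX.Gd_sub c c' hx
  obtain ⟨_, _, _, τ, hτ, hτe, hz⟩ := k3b_src_time hY hX c (x.1, x.2.1) hpr.1
  have hA : 0 < Z.A := by
    have h1 := hZ.A_ge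
    have h2 := hZ.A0_ge
    nlinarith
  have hρ : 0 < Z.ρ := by rw [hZ.ρ_eq]; positivity
  have hz0 : ‖X.z0 c x‖ ≤ 1 := hz
  have hun : ‖Z.un c x.1 x.2.1‖ ≤ 1 := (k3b_net_le Z.ρ hρ _).trans hz0
  refine ⟨hz0, hun, ?_, ?_⟩
  · rw [← hZ.ρ_eq]
    exact k3b_net_dist Z.ρ hρ _
  · unfold K3bAn.lab K3bAn.lb
    rw [Finset.mem_image]
    refine ⟨(c, Z.un c x.1 x.2.1, X.sn c x.1 x.2.1), ?_, rfl⟩
    simp only [Finset.mem_product, Finset.mem_univ, true_and]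
    refine ⟨k3b_net_mem Z.ρ hρ _ hz0, ?_⟩
    unfold K3bCmp.sn
    rcases k3b_sg ((X.eq c (X.of c)).dwR (X.zl (X.of c) x.1 x.2.1) (X.om (X.of c) x.1 x.2.1)) with h | h <;> simp [h]

theorem k3b_disc_low45 {n : ℕ} (D : K3bQd n) (A₀ A : ℝ) (hA0 : 2 ≤ A₀) (hA : 8 * A₀ ^ 2 ≤ A) (hb : K3e2Bd D A₀) (z y : Fin n → ℝ) (hz : ‖z‖ ≤ 1)
    (hyz : ‖y - z‖ ≤ 1 / (8 * A) + 1 / (12 * A)) (hl : 1 / A₀ ≤ D.evR z) : 1 / (2 * A₀) ≤ D.evR y := by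
  have hA' : 0 < A := by nlinarith
  have hA0' : 0 < A₀ := by linarith
  have e1 : k3bC y = k3bC z + k3bC (y - z) := by
    funext i
    simp [k3bC]
  have e0 : k3bC (0 : Fin n → ℝ) = 0 := by
    funext i
    simp [k3bC]
  have e2 : ∀ u : Fin n → ℝ, ‖k3bC u‖ = ‖u‖ := by
    intro u
    have := k3e2_C_sub_norm u 0
    rwa [e0, sub_zero, sub_zero] at this
  have h5 : 1 / (8 * A) + 1 / (12 * A) = 5 / (24 * A) := by
    field_simp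
    norm_num
  rw [h5] at hyz
  have h6 : 3 * A₀ * (5 / (24 * A)) ≤ 1 / (2 * A₀) := by
    rw [mul_div_assoc', div_le_div_iff₀ (by positivity) (by positivity)]
    nlinarith
  have hu1 : ‖y - z‖ ≤ 1 := by
    refine hyz.trans ?_
    rw [div_le_one (by positivity)]
    nlinarith
  have h := k3e2_bd_lip D A₀ hb (k3bC z) (k3bC (y - z)) (by rw [e2]; linarith) (by rw [e2]; exact hu1)
  rw [← e1, k3e2_qd_real, k3e2_qd_real, ← Complex.ofReal_sub, Complex.norm_real, Real.norm_eq_abs, e2] at h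
  have h7 : 3 * A₀ * ‖y - z‖ ≤ 3 * A₀ * (5 / (24 * A)) := mul_le_mul_of_nonneg_left hyz (by positivity)
  have h8 := (abs_le.mp h).1
  have h9 : 1 / A₀ = 1 / (2 * A₀) + 1 / (2 * A₀) := by
    field_simp
    norm_num
  linarith

/-- **LEAF L-252-S3b-A4b** (both discriminants near the net point).  `‖y - z0‖ ≤ 1/(8A) + 1/(12A)`; `k3e2_bd_lip` (`hX.Gd_bd`, `K3bQd.Bd = K3e2Bd` by `Iff.rfl`; `k3e2_qd_real`; `k3bC y = k3bC z0 + k3bC (y - z0)`, `‖k3bC u‖ = ‖u‖`): `|D y - D z0| ≤ 3 A₀ * 5/(24 A) ≤ 5/(64 A₀)`; `hX.Gd_low`. -/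
theorem k3b_pt_disc (hY : Y.WF) (hX : X.Ok K A₀ A₂ r Z.ρ Z.δ Q) (hZ : Z.Num A₀ r) (c c' : Y.C) (x : P.Lam × ℝ × ℝ) (hx : x ∈ X.Gd c c') (y : Fin (v.j + 1) → ℝ)
    (hy : ‖y - Z.un c x.1 x.2.1‖ ≤ 1 / (8 * Z.A)) : 1 / (2 * A₀) ≤ (X.eq c (X.of c)).dsc.evR y ∧ 1 / (2 * A₀) ≤ (X.eq c' (X.of c)).dsc.evR y := by
  obtain ⟨hz0, _, hd, _⟩ := k3b_pt_net hY hX hZ c c' x hx
  have hyz : ‖y - X.z0 c x‖ ≤ 1 / (8 * Z.A) + 1 / (12 * Z.A) := by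
    have e : y - X.z0 c x = (y - Z.un c x.1 x.2.1) + (Z.un c x.1 x.2.1 - X.z0 c x) := by abel
    rw [e]
    exact (norm_add_le _ _).trans (add_le_add hy hd)
  obtain ⟨b1, b2⟩ := hX.Gd_bd c c' ⟨x, hx⟩
  obtain ⟨l1, l2⟩ := hX.Gd_low c c' x hx
  exact ⟨k3b_disc_low45 _ A₀ Z.A hZ.A0_ge hZ.A_ge b1 _ y hz0 hyz l1, k3b_disc_low45 _ A₀ Z.A hZ.A0_ge hZ.A_ge b2 _ y hz0 hyz l2⟩

/-- **LEAF L-252-S3b-A4c** (the continued branch).  Existence: `k3e2_branch` at `z0 = k3bC u`, `w0 = (sheet u : ℂ)` (`k3b_sh_root`, `k3e2_ev_real`, `k3b_pt_disc` at `y = u`, `k3b_sg`); then `Z.br` is `dif_pos .. choose_spec`.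
Real ball: `k3b_br_real` with `ϱ = 1/(2A)`, `Ω` the tube (`k3e2_ball_tube0`), positivity by `k3b_low_pos` (`(k3e2_safe_low ..).1`, `y0 = u`). -/
theorem k3b_pt_br (hY : Y.WF) (hX : X.Ok K A₀ A₂ r Z.ρ Z.δ Q) (hZ : Z.Num A₀ r) (c c' : Y.C) (x : P.Lam × ℝ × ℝ) (hx : x ∈ X.Gd c c' ∩ Z.Sf c c') :
    K3e2Root (X.eq c (X.of c)) (Z.tube (X.of c) (Z.un c x.1 x.2.1)) (Z.br c (Z.un c x.1 x.2.1) (X.sn c x.1 x.2.1)) ∧
    ∀ y : Fin (v.j + 1) → ℝ, ‖y - Z.un c x.1 x.2.1‖ ≤ 1 / (2 * Z.A) →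
      Z.br c (Z.un c x.1 x.2.1) (X.sn c x.1 x.2.1) (k3bC y) = (((⟨X.eq c (X.of c), X.sn c x.1 x.2.1⟩ : K3bSh (v.j + 1)).f y : ℝ) : ℂ) := by
  have hA0 : 0 < Z.A := by
    have h1 := hZ.A_ge
    have h2 := hZ.A0_ge
    nlinarith
  have hs : X.sn c x.1 x.2.1 = 1 ∨ X.sn c x.1 x.2.1 = -1 := k3b_sg _
  have hDu : 0 < (X.eq c (X.of c)).dsc.evR (Z.un c x.1 x.2.1) := by
    have h1 := (k3b_pt_disc hY hX hZ c c' x hx.1 (Z.un c x.1 x.2.1) (by rw [sub_self, norm_zero]; positivity)).1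
    have h2 : 0 < 1 / (2 * A₀) := by
      have := hZ.A0_ge
      positivity
    linarith
  have hroot : (X.eq c (X.of c)).ev (k3bC (Z.un c x.1 x.2.1))
      (((⟨X.eq c (X.of c), X.sn c x.1 x.2.1⟩ : K3bSh (v.j + 1)).f (Z.un c x.1 x.2.1) : ℝ) : ℂ) = 0 := by
    rw [k3e2_ev_real]
    have h1 := k3b_sh_root (⟨X.eq c (X.of c), X.sn c x.1 x.2.1⟩ : K3bSh (v.j + 1)) hs (Z.un c x.1 x.2.1) hDu
    exact_mod_cast h1
  have hex : ∃ f, K3e2Root (X.eq c (X.of c)) (Z.tube (X.of c) (Z.un c x.1 x.2.1)) f ∧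
      f (k3bC (Z.un c x.1 x.2.1)) = (((⟨X.eq c (X.of c), X.sn c x.1 x.2.1⟩ : K3bSh (v.j + 1)).f (Z.un c x.1 x.2.1) : ℝ) : ℂ) :=
    k3e2_branch (X.eq c (X.of c)) (k3bC (Z.un c x.1 x.2.1)) (Z.al (X.of c)) (Z.sg (X.of c)) Z.A hA0 hx.2.1 _ hroot
  have hbr : Z.br c (Z.un c x.1 x.2.1) (X.sn c x.1 x.2.1) = hex.choose := by
    unfold K3bAn.br
    rw [dif_pos hex]
  obtain ⟨hr1, hr2⟩ := hex.choose_spec
  rw [← hbr] at hr1 hr2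
  refine ⟨hr1, ?_⟩
  have hhalf : 1 / (2 * Z.A) < 1 / Z.A := by
    rw [div_lt_div_iff₀ (by positivity) hA0]
    linarith
  refine k3b_br_real (⟨X.eq c (X.of c), X.sn c x.1 x.2.1⟩ : K3bSh (v.j + 1)) hs (Z.un c x.1 x.2.1) (1 / (2 * Z.A)) (by positivity)
    (Z.tube (X.of c) (Z.un c x.1 x.2.1)) _ hr1 (fun y hy => ?_) (fun y hy => ?_) hr2
  · refine k3e2_ball_tube0 _ _ _ _ ?_
    rw [Metric.mem_ball, dist_eq_norm, k3e2_C_sub_norm]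
    exact lt_of_le_of_lt hy hhalf
  · exact k3b_low_pos (X.eq c (X.of c)).dsc (Z.un c x.1 x.2.1) Z.A hA0 (k3e2_safe_low _ _ _ _ _ hx.2.1).1 (Z.un c x.1 x.2.1)
      (by rw [sub_self, norm_zero]; positivity) hDu y (hy.trans hhalf.le)

/-- **LEAF L-252-S3b-A4d** (eligibility of the source).  `k3e2_src_elig` (`k3b_pt_br`, `hX.Gd_bd` + `k3e2_bd_mono`, `hX.curv`, `5 hn = 1/(8A) < 1/A`). -/
theorem k3b_pt_elig (hY : Y.WF) (hX : X.Ok K A₀ A₂ r Z.ρ Z.δ Q) (hZ : Z.Num A₀ r) (c c' : Y.C) (x : P.Lam × ℝ × ℝ) (hx : x ∈ X.Gd c c' ∩ Z.Sf c c') : Z.El (Z.lb c x.1 x.2.1) c := by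
  have hA0 := hZ.A0_ge
  have hAge := hZ.A_ge
  have hA1 : 1 ≤ Z.A := by nlinarith
  have hApos : 0 < Z.A := by linarith
  have hAA : A₀ ≤ Z.A := by nlinarith
  refine ⟨rfl, ?_⟩
  have hbr := (k3b_pt_br hY hX hZ c c' x hx).1
  refine k3e2_src_elig (X.eq c (X.of c)) (k3bC (Z.un c x.1 x.2.1)) (Z.al (X.of c)) (Z.sg (X.of c)) Z.A Z.δ Z.hn Z.h hA1 ?_ ?_
    (k3e2_bd_mono _ A₀ Z.A hAA (hX.Gd_bd c c' ⟨x, hx.1⟩).1) (hX.curv c (X.of c)) hx.2.1 _ hbr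
  · rw [hZ.hn_eq]
    positivity
  · rw [hZ.hn_eq, mul_one_div, div_lt_div_iff₀ (by positivity) hApos]
    nlinarith

theorem k3b_eqh_spec (p : X.Φ × K3bTp (v.j + 1)) (h : ∃ c, Z.El p c) : ∃ c, Z.El p c ∧ Z.eqh p = X.eq c p.1 := by
  refine ⟨h.choose, h.choose_spec, ?_⟩
  unfold K3bAn.eqh
  rw [dif_pos h]

theorem k3b_eqh_cases (p : X.Φ × K3bTp (v.j + 1)) : (∃ c, Z.El p c ∧ Z.eqh p = X.eq c p.1) ∨ Z.eqh p = k3bEq0 (v.j + 1) := by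
  by_cases h : ∃ c, Z.El p c
  · exact Or.inl (k3b_eqh_spec p h)
  · right
    unfold K3bAn.eqh
    rw [dif_neg h]

theorem k3b_eqh_v1 (hX : X.Ok K A₀ A₂ r Z.ρ Z.δ Q) (p : X.Φ × K3bTp (v.j + 1)) (hv : v = KbVer.one) : (Z.eqh p).c = 0 ∧ (Z.eqh p).a0 = 1 ∧ ∀ i, (Z.eqh p).a1 i = 0 := by
  rcases k3b_eqh_cases (Z := Z) p with ⟨c, _, h⟩ | h
  · rw [h]
    exact hX.v1 hv c p.1
  · rw [h]
    exact ⟨rfl, rfl, fun _ => rfl⟩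

/-- **LEAF L-252-S3b-A4e** (the discriminant of a representative at the anchor).  `k3b_eqh_cases`: `K3e2Elig.low`, or `(k3bEq0 n).dsc.ev z = 1` (`simp [k3bEq0, K3bEq.dsc, K3bQd.ev]`) and `1/A ≤ 1`. -/
theorem k3b_eqh_low (hZ : Z.Num A₀ r) (p : X.Φ × K3bTp (v.j + 1)) : 1 / Z.A ≤ ‖(Z.eqh p).dsc.ev (Z.al p.1)‖ := by
  have hA0 := hZ.A0_ge
  have hAge := hZ.A_ge
  have hA1 : 1 ≤ Z.A := by nlinarith
  rcases k3b_eqh_cases (Z := Z) p with ⟨c, hc, h⟩ | h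
  · rw [h]
    exact hc.2.low
  · rw [h]
    have e : (k3bEq0 (v.j + 1)).dsc.ev (Z.al p.1) = 1 := by
      simp [k3bEq0, K3bEq.dsc, K3bQd.ev]
    rw [e, norm_one, div_le_one (by linarith)]
    exact hA1

end std

/-- **LEAF L-252-S3b-A4f** (list knowledge on a retained pair; 03 l.1385-1411).  `C` of `k3e2_pair_list (v.j + 1)` with `Λ = A₂`, `P = eq c φ`, `P' = eq c' φ`, `z0 = k3bC u`, `α = Z.al φ`, `σ = Z.sg φ`, `f = Z.br c u s`.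
The node `k3e2Node (k3bC u) hs κ = k3bC y`, `y = k3bNode u hs κ`, `‖y - u‖ ≤ 5 hs = 1/(8A) = r`.   `f (k3bC y) = sheet_c y` (`k3b_pt_br`), `ω = (sheet_{c'} y : ℂ)`, `sheet_{c'} = X.sh c' φ (z0) (w0)`: a root (`k3b_sh_root`, `k3b_pt_disc`, `k3e2_ev_real`),
distance `≤ δ A₂` by `hX.Gd_match` (`X.sh c φ (X.z0 c x) (X.w0 c x) = ⟨eq c φ, X.sn c x.1 x.2.1⟩` by `rfl`). -/
theorem k3b_pt_list (v : KbVer) : ∃ C : ℝ, 1 ≤ C ∧ ∀ (P : KbPb v) (Y : KbSys P) (X : K3bCmp Y) (Z : K3bAn X) (K A₀ A₂ r Q : ℝ), Y.WF → X.Ok K A₀ A₂ r Z.ρ Z.δ Q → Z.Num A₀ r → 1 ≤ A₂ →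
    Z.δ * (C * (1 / Z.hs) ^ C * A₂ ^ 2) ≤ Z.h → ∀ (c c' : Y.C) (x : P.Lam × ℝ × ℝ), x ∈ X.Gd c c' ∩ Z.Sf c c' →
    (Z.lb c x.1 x.2.1).2 ∈ k3e2List (X.eq c' (X.of c)) (Z.al (X.of c)) Z.hn Z.h := by
  obtain ⟨C, hC, H⟩ := k3e2_pair_list (v.j + 1)
  refine ⟨C, hC, ?_⟩
  intro P Y X Z K A₀ A₂ r Q hY hX hZ hA₂ hh c c' x hx
  have hA32 : 32 ≤ Z.A := by
    have := hZ.A_ge
    have := hZ.A0_ge
    nlinarith
  have hA0 : 0 < Z.A := by linarith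
  have hAA : A₀ ≤ Z.A := by
    have := hZ.A_ge
    have := hZ.A0_ge
    nlinarith
  have hnet := k3b_pt_net hY hX hZ c c' x hx.1
  have hbr := k3b_pt_br hY hX hZ c c' x hx
  have hbd := hX.Gd_bd c c' ⟨x, hx.1⟩
  have hu1 : ‖k3bC (Z.un c x.1 x.2.1)‖ ≤ 1 := by
    have := k3e2_C_sub_norm (Z.un c x.1 x.2.1) 0
    have e0 : k3bC (0 : Fin (v.j + 1) → ℝ) = 0 := by
      funext i
      simp [k3bC]
    rw [e0, sub_zero, sub_zero] at this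
    rw [this]
    exact hnet.2.1
  have hal : ‖Z.al (X.of c)‖ ≤ 2 := (k3e2_C_norm _ (hZ.an_cube (X.of c))).trans (by norm_num)
  have hs0 : 0 < Z.hs := by rw [hZ.hs_eq]; positivity
  refine H Z.A A₂ Z.δ Z.hs Z.hn Z.h (by linarith) hA₂ hZ.δ_pos hs0 hZ.hs_eq.le (by rw [hZ.hn_eq]; positivity) hZ.hn_eq.le hh
    (X.eq c (X.of c)) (X.eq c' (X.of c)) (k3bC (Z.un c x.1 x.2.1)) (Z.al (X.of c)) (Z.sg (X.of c)) hu1 hal (hZ.an_sg (X.of c))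
    (k3e2_bd_mono _ _ _ hAA hbd.1) (k3e2_bd_mono _ _ _ hAA hbd.2) (hX.curv c' (X.of c)) hx.2.1 hx.2.2 (Z.br c (Z.un c x.1 x.2.1) (X.sn c x.1 x.2.1)) hbr.1 ?_
  intro κ
  have hnode : k3e2Node (k3bC (Z.un c x.1 x.2.1)) Z.hs κ = k3bC (k3bNode (Z.un c x.1 x.2.1) Z.hs κ) := by
    funext i
    simp [k3e2Node, k3bC, k3bNode]
  have hdist : ‖k3bNode (Z.un c x.1 x.2.1) Z.hs κ - Z.un c x.1 x.2.1‖ ≤ 1 / (8 * Z.A) := by
    rw [← k3e2_C_sub_norm, ← hnode]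
    refine (k3e2_node_dist _ _ hs0.le κ).trans (le_of_eq ?_)
    rw [hZ.hs_eq]
    field_simp
    norm_num
  have hdisc := k3b_pt_disc hY hX hZ c c' x hx.1 _ hdist
  have hA₀ : 0 < A₀ := by
    have := hZ.A0_ge
    linarith
  have hpos : 0 < (X.eq c' (X.of c)).dsc.evR (k3bNode (Z.un c x.1 x.2.1) Z.hs κ) := lt_of_lt_of_le (by positivity) hdisc.2
  refine ⟨(((X.sh c' (X.of c) (X.z0 c x) (X.w0 c x)).f (k3bNode (Z.un c x.1 x.2.1) Z.hs κ) : ℝ) : ℂ), ?_, ?_⟩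
  · rw [hnode, k3e2_ev_real]
    have := k3b_sh_root (X.sh c' (X.of c) (X.z0 c x) (X.w0 c x)) (k3b_sg _) (k3bNode (Z.un c x.1 x.2.1) Z.hs κ) hpos
    have e : (X.eq c' (X.of c)).evR (k3bNode (Z.un c x.1 x.2.1) Z.hs κ) ((X.sh c' (X.of c) (X.z0 c x) (X.w0 c x)).f (k3bNode (Z.un c x.1 x.2.1) Z.hs κ)) = 0 := this
    rw [e]
    simp
  · rw [hnode, hbr.2 _ (hdist.trans (by
      rw [div_le_div_iff₀ (by positivity) (by positivity)]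
      linarith)), ← Complex.ofReal_sub, Complex.norm_real, Real.norm_eq_abs]
    exact hX.Gd_match c c' x hx.1 _ (by rw [hZ.r_eq]; exact hdist)

/-- **LEAF L-252-S3b-A4g** (the representative fits the trajectory on the whole new block; 03 (3.27)).  `C` of `k3e2_exit (v.j + 1)` with `A₀ := Ae` of `hX.early c`, `P = eq c φ`, `Ph = Z.eqh p`, `p = Z.lb c x.1 x.2.1`, `z0 = k3bC u`, `t0 = τ₀` (`k3b_src_time`),
`x τ = X.zl φ l (X.tm φ τ)`, `w τ = X.om φ l (X.tm φ τ)`.   Speed `2 ≤ Ae` (`k3b_zl_speed`, `hX.box`); `k3b_zl_cont`, `k3b_om_cont`; `k3b_dw_affine`, `k3b_ev_poly` (`hX.v1`, `k3b_eqh_v1`);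
branch pinned: `f (k3bC (x τ₀)) = sheet (x τ₀)` (`k3b_pt_br`, `1/(12A) ≤ 1/(2A)`), `k3b_sh_near` with `b = 1/Ae`, `ε = δ Ae`: `|c| |w - sheet| ≤ 2 |c| δ Ae² ≤ 1/(8 Ae)`;   eligibility: `k3b_pt_elig`, `k3b_eqh_spec`. -/
theorem k3b_pt_fit (v : KbVer) : ∃ C : ℝ, 1 ≤ C ∧ ∀ (P : KbPb v) (Y : KbSys P) (X : K3bCmp Y) (Z : K3bAn X) (K A₀ A₂ r Q Λ : ℝ), Y.WF → X.Ok K A₀ A₂ r Z.ρ Z.δ Q → Z.Num A₀ r → 1 ≤ Λ →
    2 * Z.h ≤ Z.δ * Λ → ∀ (c c' : Y.C) (x : P.Lam × ℝ × ℝ), x ∈ X.Gd c c' ∩ Z.Sf c c' → ∀ τ ∈ Set.Icc (0 : ℝ) 1,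
    |(Z.eqh (Z.lb c x.1 x.2.1)).evR (X.zl (X.of c) x.1 (X.tm (X.of c) τ)) (X.om (X.of c) x.1 (X.tm (X.of c) τ))| ≤ Z.δ * (C * (1 / Z.hn) ^ C * Λ ^ 2) ∧
    |(Z.eqh (Z.lb c x.1 x.2.1)).dwR (X.zl (X.of c) x.1 (X.tm (X.of c) τ)) (X.om (X.of c) x.1 (X.tm (X.of c) τ))| ≤ C * (1 / Z.hn) ^ C * Λ := by
  obtain ⟨C, hC, H⟩ := k3e2_exit (v.j + 1)
  refine ⟨C, hC, ?_⟩
  intro P Y X Z K A₀ A₂ r Q Λ hY hX hZ hΛ hh c c' x hx τ hτ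
  have hA32 : 32 ≤ Z.A := by
    have := hZ.A_ge
    have := hZ.A0_ge
    nlinarith
  have hA0 : 0 < Z.A := by linarith
  have hAA : A₀ ≤ Z.A := by
    have := hZ.A_ge
    have := hZ.A0_ge
    nlinarith
  have hnet := k3b_pt_net hY hX hZ c c' x hx.1
  have hbr := k3b_pt_br hY hX hZ c c' x hx
  have hbd := hX.Gd_bd c c' ⟨x, hx.1⟩
  have hS : (x.1, x.2.1) ∈ Y.S c := (hX.Gd_sub c c' hx.1).1
  obtain ⟨hlA, -, -, τ₀, hτ₀, hτe, -⟩ := k3b_src_time hY hX c (x.1, x.2.1) hS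
  have hτe' : x.2.1 = X.tm (X.of c) τ₀ := hτe
  have hlA' : x.1 ∈ Y.A c := hlA
  obtain ⟨Ae, hAe2, hAeA, hcur, hearly, hlow⟩ := hX.early c
  have hAe0 : 0 < Ae := by linarith
  have hδ := hZ.δ_pos
  have hu1 : ‖k3bC (Z.un c x.1 x.2.1)‖ ≤ 1 := by
    have := k3e2_C_sub_norm (Z.un c x.1 x.2.1) 0
    have e0 : k3bC (0 : Fin (v.j + 1) → ℝ) = 0 := by
      funext i
      simp [k3bC]
    rw [e0, sub_zero, sub_zero] at this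
    rw [this]
    exact hnet.2.1
  have hal : ‖Z.al (X.of c)‖ ≤ 2 := (k3e2_C_norm _ (hZ.an_cube (X.of c))).trans (by norm_num)
  have hd0 : ‖X.zl (X.of c) x.1 (X.tm (X.of c) τ₀) - Z.un c x.1 x.2.1‖ ≤ 1 / (12 * Z.A) := by
    rw [← hτe', norm_sub_rev]
    exact hnet.2.2.1
  have hlow0 : 1 / Ae ≤ |(X.eq c (X.of c)).dwR (X.zl (X.of c) x.1 (X.tm (X.of c) τ₀)) (X.om (X.of c) x.1 (X.tm (X.of c) τ₀))| := by
    rw [← hτe']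
    exact hlow (x.1, x.2.1) hS
  obtain ⟨β0, β1, hβ⟩ := k3b_dw_affine X (X.of c) x.1 (X.eq c (X.of c)) (fun hv => hX.v1 hv c (X.of c))
  obtain ⟨γ0, γ1, γ2, hγ⟩ := k3b_ev_poly X (X.of c) x.1 (Z.eqh (Z.lb c x.1 x.2.1)) (fun hv => k3b_eqh_v1 hX (Z.lb c x.1 x.2.1) hv)
  obtain ⟨η0, η1, hη⟩ := k3b_dw_affine X (X.of c) x.1 (Z.eqh (Z.lb c x.1 x.2.1)) (fun hv => k3b_eqh_v1 hX (Z.lb c x.1 x.2.1) hv)
  have hcabs : 0 ≤ |(X.eq c (X.of c)).c| := abs_nonneg _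
  have hpin : |(X.eq c (X.of c)).c| * ‖Z.br c (Z.un c x.1 x.2.1) (X.sn c x.1 x.2.1) (k3bC (X.zl (X.of c) x.1 (X.tm (X.of c) τ₀))) - ((X.om (X.of c) x.1 (X.tm (X.of c) τ₀) : ℝ) : ℂ)‖
      ≤ 1 / (2 * Ae) := by
    rw [hbr.2 _ (hd0.trans (by
      rw [div_le_div_iff₀ (by positivity) (by positivity)]
      linarith)), ← Complex.ofReal_sub, Complex.norm_real, Real.norm_eq_abs, abs_sub_comm]
    have hnear := (k3b_sh_near (X.eq c (X.of c)) (X.zl (X.of c) x.1 (X.tm (X.of c) τ₀)) (X.om (X.of c) x.1 (X.tm (X.of c) τ₀)) (1 / Ae) (Z.δ * Ae) (by positivity) hlow0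
      ((hearly x.1 hlA' τ₀ hτ₀).1) (by
        rw [div_pow, one_pow, le_div_iff₀ (by positivity)]
        nlinarith [mul_nonneg (mul_nonneg hcabs hδ.le) (pow_nonneg hAe0.le 3)])).2
    have hsn : X.sn c x.1 x.2.1 = k3bSg ((X.eq c (X.of c)).dwR (X.zl (X.of c) x.1 (X.tm (X.of c) τ₀)) (X.om (X.of c) x.1 (X.tm (X.of c) τ₀))) := by
      rw [← hτe']
      rfl
    rw [hsn]
    have e1 : 2 * (Z.δ * Ae) / (1 / Ae) = 2 * Z.δ * Ae ^ 2 := by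
      field_simp
    rw [e1] at hnear
    calc |(X.eq c (X.of c)).c| * _ ≤ |(X.eq c (X.of c)).c| * (2 * Z.δ * Ae ^ 2) := by gcongr
      _ ≤ 1 / (2 * Ae) := by
          rw [le_div_iff₀ (by positivity)]
          nlinarith
  have helig : K3e2Elig (Z.eqh (Z.lb c x.1 x.2.1)) (Z.al (X.of c)) Z.hn Z.h Z.A Z.δ (k3e2Tup (Z.al (X.of c)) Z.hn Z.h (Z.br c (Z.un c x.1 x.2.1) (X.sn c x.1 x.2.1))) := by
    obtain ⟨c₁, hc₁, he⟩ := k3b_eqh_spec (Z.lb c x.1 x.2.1) ⟨c, k3b_pt_elig hY hX hZ c c' x hx⟩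
    rw [he]
    exact hc₁.2
  exact H Ae Z.A Λ Z.δ Z.hn Z.h (by linarith) (hAeA.trans hAA) (by linarith) hΛ hδ (by rw [hZ.hn_eq]; positivity) hZ.hn_eq.le hZ.h_pos hh
    (X.eq c (X.of c)) (Z.eqh (Z.lb c x.1 x.2.1)) (k3bC (Z.un c x.1 x.2.1)) (Z.al (X.of c)) (Z.sg (X.of c)) τ₀ hτ₀
    (fun τ => X.zl (X.of c) x.1 (X.tm (X.of c) τ)) (fun τ => X.om (X.of c) x.1 (X.tm (X.of c) τ)) hu1 hal (hZ.an_sg (X.of c))
    (by rw [k3e2_C_sub_norm]; exact hd0) (k3b_zl_cont X (X.of c) x.1).continuousOn (k3b_om_cont X (X.of c) x.1).continuousOn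
    (fun t _ => (k3b_zl_speed X (X.of c) x.1 (hX.box c x.1 hlA') t τ₀).trans (by gcongr))
    (fun t ht => (hearly x.1 hlA' t ht).1) ⟨β0, β1, fun t _ => hβ t⟩ (fun t ht => (hearly x.1 hlA' t ht).2) hlow0 hcur
    ⟨γ0, γ1, γ2, fun t _ => hγ t⟩ ⟨η0, η1, 0, fun t _ => (hη t).trans (by ring)⟩ (k3e2_bd_mono _ _ _ hAA hbd.1) hx.2.1
    (Z.br c (Z.un c x.1 x.2.1) (X.sn c x.1 x.2.1)) hbr.1 hpin helig τ hτ

section std

variable {X : K3bCmp Y} {Z : K3bAn X} {K A₀ A₂ r Q : ℝ}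

/-- **LEAF L-252-S3b-A4h** (the tests of the table along a trajectory).  `rfl`/`unfold` + `k3e3_ret_dw`, `k3e3_ret_dsc`, `k3b_Z_eq`. -/
theorem k3b_tab_val (ts : P.W → ℕ → ℝ) (Kt U U3 : ℝ) (m : ℕ) (p : (Z.tab ts Kt U U3 m).L) (l : P.Lam) (t : ℝ) :
    (Z.tab ts Kt U U3 m).val p l t = (Z.eqh p.1).evR (X.zl p.1.1 l t) (X.om p.1.1 l t) ∧
    (Z.tab ts Kt U U3 m).der p l t = P.B (X.wd p.1.1) * (Z.eqh p.1).dwR (X.zl p.1.1 l t) (X.om p.1.1 l t) ∧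
    (Z.tab ts Kt U U3 m).dsc p l = P.B (X.wd p.1.1) ^ 2 * (Z.eqh p.1).dsc.evR (X.zl p.1.1 l (ts (X.wd p.1.1) (X.iv p.1.1))) := by
  refine ⟨rfl, ?_, ?_⟩
  · exact k3e3_ret_dw (Z.eqh p.1) ((X.fr p.1.1).ch fun _ _ w => w) ((X.iv p.1.1 : ℝ) * kbQ X.n₁) (kbQ X.n₁) (P.B (X.wd p.1.1)) t (kbY (P.co (X.wd p.1.1) l) t) (kbW (P.co (X.wd p.1.1) l) t)
  · exact k3e3_ret_dsc (Z.eqh p.1) ((X.fr p.1.1).ch fun _ _ w => w) ((X.iv p.1.1 : ℝ) * kbQ X.n₁) (kbQ X.n₁) (P.B (X.wd p.1.1)) (ts (X.wd p.1.1) (X.iv p.1.1)) (kbY (P.co (X.wd p.1.1) l) (ts (X.wd p.1.1) (X.iv p.1.1))) (kbW (P.co (X.wd p.1.1) l) (ts (X.wd p.1.1) (X.iv p.1.1)))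

/-- **LEAF L-252-S3b-A4i** (a frozen success is selected by the table).  `y = (l, t)`, `(l, t₀, t) ∈ Go c c'`, `t₀ = ts γ (Bk c)`, `p = ⟨Z.lb c l t₀, k3b_pt_net⟩`.   `wd p = X.wd (X.of c) = Y.wd c` (`hX.of_wd`), `iv p = Bk c` (`hX.of_iv`).
`asg`: `src` with `A = c` (`k3b_src_time`); box: the last `v.j` coordinates of `X.zl` (`Fin.cons`; `‖·‖ ≤ ‖zl‖ ≤ 1 ≤ Kt`, `hX.box`, `k3b_tm_mem`); `val`, `der` : `k3b_tab_val`, `hfit`, `hP.B_pos`; `dsc`: `Z.Dl`.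
`sl`: `t ∈ I p` (`k3b_src_time` for `c'`, `hX.Gd_ctx`), `A' = c'`, `p ∈ cmp c'` (`hX.Gd_ctx`, `Z.Sf`, `hlist`). -/
theorem k3b_pt_sl (hP : P.WF) (hY : Y.WF) (hX : X.Ok K A₀ A₂ r Z.ρ Z.δ Q) (hZ : Z.Num A₀ r) (ts : P.W → ℕ → ℝ) (Kt U U3 : ℝ) (m : ℕ) (hKt : 1 ≤ Kt) (hU3 : 0 < U3)
    (hlist : ∀ (c c' : Y.C) (x : P.Lam × ℝ × ℝ), x ∈ X.Gd c c' ∩ Z.Sf c c' → (Z.lb c x.1 x.2.1).2 ∈ k3e2List (X.eq c' (X.of c)) (Z.al (X.of c)) Z.hn Z.h)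
    (hfit : ∀ (c c' : Y.C) (x : P.Lam × ℝ × ℝ), x ∈ X.Gd c c' ∩ Z.Sf c c' → ∀ τ ∈ Set.Icc (0 : ℝ) 1,
      |(Z.eqh (Z.lb c x.1 x.2.1)).evR (X.zl (X.of c) x.1 (X.tm (X.of c) τ)) (X.om (X.of c) x.1 (X.tm (X.of c) τ))| ≤ U * Z.δ ∧
      |(Z.eqh (Z.lb c x.1 x.2.1)).dwR (X.zl (X.of c) x.1 (X.tm (X.of c) τ)) (X.om (X.of c) x.1 (X.tm (X.of c) τ))| ≤ U) :
    ∀ γ, ∀ y ∈ k3bSuc Y X.n₁ (Z.Go U3) ts γ, ∃ p : (Z.tab ts Kt U U3 m).L, (Z.tab ts Kt U U3 m).wd p = γ ∧ y ∈ (Z.tab ts Kt U U3 m).sl p := by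
  classical
  rintro γ y ⟨c, c', rfl, hxx⟩
  obtain ⟨t₀, ht₀⟩ : ∃ t₀, t₀ = ts (Y.wd c) (Y.k3bBk X.n₁ c) := ⟨_, rfl⟩
  rw [← ht₀] at hxx
  have hG : ((y.1, t₀, y.2) : P.Lam × ℝ × ℝ) ∈ X.Gd c c' := hxx.1.1
  have hnet := k3b_pt_net hY hX hZ c c' (y.1, t₀, y.2) hG
  have hpr := hX.Gd_sub c c' hG
  have hS : (y.1, t₀) ∈ Y.S c := hpr.1
  have hS' : (y.1, y.2) ∈ Y.S c' := hpr.2
  obtain ⟨hlA, htI, -, -⟩ := k3b_src_time hY hX c (y.1, t₀) hS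
  obtain ⟨-, -, htI', -⟩ := k3b_src_time hY hX c' (y.1, y.2) hS'
  obtain ⟨hw, hbk, hcmp⟩ := hX.Gd_ctx c c' ⟨_, hG⟩
  have hB : 0 < P.B (X.wd (X.of c)) := hP.B_pos _
  have hts : ts (X.wd (X.of c)) (X.iv (X.of c)) = t₀ := by rw [hX.of_wd, hX.of_iv, ht₀]
  refine ⟨⟨Z.lb c y.1 t₀, hnet.2.2.2⟩, hX.of_wd c, ⟨⟨c, (hX.of_wd c).symm, ?_, hlA, ?_, ?_⟩, ?_, ?_, ?_, ?_⟩, ?_, c', ?_, hS', ?_⟩
  · show ts (X.wd (X.of c)) (X.iv (X.of c)) ∈ Y.I c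
    rw [hts]
    exact htI
  · show (y.1, ts (Y.wd c) (Y.k3bBk X.n₁ c)) ∈ Y.S c
    rw [← ht₀]
    exact hS
  · show Z.lb c y.1 (ts (Y.wd c) (Y.k3bBk X.n₁ c)) = Z.lb c y.1 t₀
    rw [← ht₀]
  · intro t ht
    obtain ⟨τ, hτ, rfl⟩ := k3b_tm_mem X (X.of c) t ht
    have hbox := hX.box c y.1 hlA τ hτ
    refine le_trans ?_ (hbox.trans hKt)
    refine (pi_norm_le_iff_of_nonneg (norm_nonneg _)).2 fun k => ?_
    exact norm_le_pi_norm (X.zl (X.of c) y.1 (X.tm (X.of c) τ)) k.succ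
  · intro t ht
    obtain ⟨τ, hτ, rfl⟩ := k3b_tm_mem X (X.of c) t ht
    rw [(k3b_tab_val ts Kt U U3 m ⟨Z.lb c y.1 t₀, hnet.2.2.2⟩ y.1 (X.tm (X.of c) τ)).1]
    exact (hfit c c' (y.1, t₀, y.2) hxx.1 τ hτ).1
  · intro t ht
    obtain ⟨τ, hτ, rfl⟩ := k3b_tm_mem X (X.of c) t ht
    rw [(k3b_tab_val ts Kt U U3 m ⟨Z.lb c y.1 t₀, hnet.2.2.2⟩ y.1 (X.tm (X.of c) τ)).2.1]
    show |P.B (X.wd (X.of c)) * (Z.eqh (Z.lb c y.1 t₀)).dwR (X.zl (X.of c) y.1 (X.tm (X.of c) τ)) (X.om (X.of c) y.1 (X.tm (X.of c) τ))| ≤ U * P.B (X.wd (X.of c))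
    rw [abs_mul, abs_of_pos hB, mul_comm]
    gcongr
    exact (hfit c c' (y.1, t₀, y.2) hxx.1 τ hτ).2
  · rw [(k3b_tab_val ts Kt U U3 m ⟨Z.lb c y.1 t₀, hnet.2.2.2⟩ y.1 0).2.2]
    show P.B (X.wd (X.of c)) ^ 2 ≤ U3 * |P.B (X.wd (X.of c)) ^ 2 * (Z.eqh (Z.lb c y.1 t₀)).dsc.evR (X.zl (X.of c) y.1 (ts (X.wd (X.of c)) (X.iv (X.of c))))|
    rw [hts, abs_mul, abs_of_pos (by positivity : 0 < P.B (X.wd (X.of c)) ^ 2)]
    have hD : 1 / U3 ≤ |(Z.eqh (Z.lb c y.1 t₀)).dsc.evR (X.zl (X.of c) y.1 t₀)| := hxx.2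
    rw [div_le_iff₀ hU3] at hD
    have hB2 : 0 < P.B (X.wd (X.of c)) ^ 2 := by positivity
    nlinarith
  · show y.2 ∈ kbI X.n₁ (X.iv (X.of c))
    rw [hX.of_iv, hbk, ← hX.of_iv]
    exact htI'
  · show Y.wd c' = X.wd (X.of c)
    rw [hX.of_wd, hw]
  · exact Finset.mem_filter.2 ⟨Finset.mem_univ _, hcmp, hxx.1.2.2, hlist c c' (y.1, t₀, y.2) hxx.1⟩

end std

/-! ## 5. Masses -/

/-- **LEAF L-252-S3b-A5a** (finite averaging; no measurability of the bad sets).  Replace `Bad j` by `toMeasurable (ν.restrict S) (Bad j)`; `∫⁻ θ in S, ∑ j, w j * indicator = ∑ j, w j * ν (S ∩ Bad j) ≤ ε ∑ w`; `exists_le_setLAverage` as in `k3e2_average`. -/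
theorem k3b_avg_fin {Θ J : Type*} [MeasurableSpace Θ] (ν : Measure Θ) (S : Set Θ) (hS : MeasurableSet S) (hS0 : ν S ≠ 0) (hS1 : ν S ≠ ⊤) (s : Finset J) (w : J → ℝ≥0∞) (Bad : J → Set Θ) (ε : ℝ≥0∞)
    (h : ∀ j ∈ s, ν (S ∩ Bad j) ≤ ε) : ∃ θ ∈ S, ∑ j ∈ s, w j * (Bad j).indicator 1 θ ≤ ε * (∑ j ∈ s, w j) / ν S := by
  have hBm : ∀ j, MeasurableSet (toMeasurable (ν.restrict S) (Bad j)) := fun j => measurableSet_toMeasurable _ _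
  have hBs : ∀ j, Bad j ⊆ toMeasurable (ν.restrict S) (Bad j) := fun j => subset_toMeasurable _ _
  have hBv : ∀ j, ν.restrict S (toMeasurable (ν.restrict S) (Bad j)) = ν.restrict S (Bad j) := fun j => measure_toMeasurable _
  have hm1 : ∀ j, Measurable fun θ => w j * (toMeasurable (ν.restrict S) (Bad j)).indicator (1 : Θ → ℝ≥0∞) θ :=
    fun j => (measurable_one.indicator (hBm j)).const_mul _
  have hfm : Measurable fun θ => ∑ j ∈ s, w j * (toMeasurable (ν.restrict S) (Bad j)).indicator (1 : Θ → ℝ≥0∞) θ :=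
    Finset.measurable_fun_sum _ fun j _ => hm1 j
  obtain ⟨θ, hθS, hθ⟩ := exists_le_setLAverage (f := fun θ => ∑ j ∈ s, w j * (toMeasurable (ν.restrict S) (Bad j)).indicator (1 : Θ → ℝ≥0∞) θ) hS0 hS1 hfm.aemeasurable
  refine ⟨θ, hθS, le_trans ?_ (hθ.trans ?_)⟩
  · refine Finset.sum_le_sum fun j _ => ?_
    gcongr
    exact hBs j
  · rw [setLAverage_eq]
    refine ENNReal.div_le_div_right ?_ _
    rw [lintegral_finsetSum _ (fun j _ => hm1 j), Finset.mul_sum]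
    refine Finset.sum_le_sum fun j hj => ?_
    rw [lintegral_const_mul _ (measurable_one.indicator (hBm j)), lintegral_indicator_one (hBm j), hBv j, Measure.restrict_apply' hS, mul_comm]
    gcongr
    rw [Set.inter_comm]
    exact h j hj

theorem k3b_go_disj (hY : Y.WF) (n₁ : ℕ) (Go : Y.C → Y.C → Set (P.Lam × ℝ × ℝ)) (hs : ∀ c c', Go c c' ⊆ Y.k3bPr c c')
    (hc : ∀ c c', (Go c c').Nonempty → Y.wd c = Y.wd c' ∧ Y.k3bBk n₁ c = Y.k3bBk n₁ c') (c c' d d' : Y.C) (h : (c, c') ≠ (d, d')) (hw : Y.wd c = Y.wd d) :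
    Disjoint (Go c c') (Go d d') := by
  rw [Set.disjoint_left]
  intro x hx hx'
  have h1 := (hc c c' ⟨x, hx⟩).1
  have h2 := (hc d d' ⟨x, hx'⟩).1
  exact Set.disjoint_left.1 (k3b_pr_disj hY c c' d d' h hw (by rw [← h1, hw, h2])) (hs _ _ hx) (hs _ _ hx')

open Classical in
/-- the union of the pair events with source label in one world and block: measurable, and its measure is the sum -/
theorem k3b_go_union (hY : Y.WF) (n₁ : ℕ) (Go : Y.C → Y.C → Set (P.Lam × ℝ × ℝ)) (hm : ∀ c c', MeasurableSet (Go c c')) (hs : ∀ c c', Go c c' ⊆ Y.k3bPr c c')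
    (hc : ∀ c c', (Go c c').Nonempty → Y.wd c = Y.wd c' ∧ Y.k3bBk n₁ c = Y.k3bBk n₁ c') (γ : P.W) (i : ℕ) (μ : Measure (P.Lam × ℝ × ℝ)) :
    MeasurableSet {x : P.Lam × ℝ × ℝ | ∃ c c', Y.wd c = γ ∧ Y.k3bBk n₁ c = i ∧ x ∈ Go c c'} ∧
    μ {x : P.Lam × ℝ × ℝ | ∃ c c', Y.wd c = γ ∧ Y.k3bBk n₁ c = i ∧ x ∈ Go c c'}
      = ∑ c ∈ Finset.univ.filter (fun c => Y.wd c = γ ∧ Y.k3bBk n₁ c = i), ∑ c', μ (Go c c') := by
  have e : {x : P.Lam × ℝ × ℝ | ∃ c c', Y.wd c = γ ∧ Y.k3bBk n₁ c = i ∧ x ∈ Go c c'}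
      = ⋃ p ∈ (Finset.univ.filter (fun c => Y.wd c = γ ∧ Y.k3bBk n₁ c = i)) ×ˢ (Finset.univ : Finset Y.C), Go p.1 p.2 := by
    ext x
    simp only [Set.mem_ofPred_eq, Set.mem_iUnion, Finset.mem_product, Finset.mem_filter, Finset.mem_univ, true_and, and_true, exists_prop, Prod.exists]
    constructor
    · rintro ⟨c, c', h1, h2, h3⟩
      exact ⟨c, c', ⟨h1, h2⟩, h3⟩
    · rintro ⟨c, c', ⟨h1, h2⟩, h3⟩
      exact ⟨c, c', h1, h2, h3⟩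
  rw [e]
  refine ⟨Finset.measurableSet_biUnion _ fun p _ => hm _ _, ?_⟩
  rw [measure_biUnion_finset ?_ (fun p _ => hm _ _), Finset.sum_product]
  intro p hp q hq hpq
  have hp1 : Y.wd p.1 = γ := by
    have := (Finset.mem_product.1 (Finset.mem_coe.1 hp)).1
    exact (Finset.mem_filter.1 this).2.1
  have hq1 : Y.wd q.1 = γ := by
    have := (Finset.mem_product.1 (Finset.mem_coe.1 hq)).1
    exact (Finset.mem_filter.1 this).2.1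
  exact k3b_go_disj hY n₁ Go hs hc p.1 p.2 q.1 q.2 hpq (by rw [hp1, hq1])

/-- the frozen sections of the blocks of one world are disjoint parts of the frozen successes -/
theorem k3b_suc_mass (hP : P.WF) (hY : Y.WF) (n₁ : ℕ) (Go : Y.C → Y.C → Set (P.Lam × ℝ × ℝ)) (hm : ∀ c c', MeasurableSet (Go c c')) (hs : ∀ c c', Go c c' ⊆ Y.k3bPr c c')
    (hc : ∀ c c', (Go c c').Nonempty → Y.wd c = Y.wd c' ∧ Y.k3bBk n₁ c = Y.k3bBk n₁ c') (ts : P.W → ℕ → ℝ) (γ : P.W) :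
    ∑ i : Fin (2 ^ n₁), ((P.nu γ).prod (volume.restrict (kbI n₁ i)))
        {y | (y.1, ts γ i, y.2) ∈ {x : P.Lam × ℝ × ℝ | ∃ c c', Y.wd c = γ ∧ Y.k3bBk n₁ c = (i : ℕ) ∧ x ∈ Go c c'}}
      ≤ P.mu γ (k3bSuc Y n₁ Go ts γ) := by
  have := hP.prob γ
  have e1 : ∀ I : Set ℝ, (P.nu γ).prod (volume.restrict I) = ((P.nu γ).prod (volume : Measure ℝ)).restrict (Set.univ ×ˢ I) := fun I => by
    rw [← Measure.prod_restrict, Measure.restrict_univ]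
  have hA : ∀ i : Fin (2 ^ n₁), MeasurableSet {y : P.Lam × ℝ | (y.1, ts γ i, y.2) ∈ {x : P.Lam × ℝ × ℝ | ∃ c c', Y.wd c = γ ∧ Y.k3bBk n₁ c = (i : ℕ) ∧ x ∈ Go c c'}} := fun i =>
    (show Measurable fun y : P.Lam × ℝ => (y.1, ts γ i, y.2) by fun_prop) (k3b_go_union hY n₁ Go hm hs hc γ i 0).1
  have hI : ∀ i : ℕ, MeasurableSet (kbI n₁ i) := fun i => by
    unfold kbI
    exact measurableSet_Ico
  calc ∑ i : Fin (2 ^ n₁), ((P.nu γ).prod (volume.restrict (kbI n₁ i)))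
        {y | (y.1, ts γ i, y.2) ∈ {x : P.Lam × ℝ × ℝ | ∃ c c', Y.wd c = γ ∧ Y.k3bBk n₁ c = (i : ℕ) ∧ x ∈ Go c c'}}
      = ∑ i : Fin (2 ^ n₁), ((P.nu γ).prod (volume : Measure ℝ))
        ({y | (y.1, ts γ i, y.2) ∈ {x : P.Lam × ℝ × ℝ | ∃ c c', Y.wd c = γ ∧ Y.k3bBk n₁ c = (i : ℕ) ∧ x ∈ Go c c'}} ∩ Set.univ ×ˢ kbI n₁ i) :=
        Finset.sum_congr rfl fun i _ => by rw [e1, Measure.restrict_apply (hA i)]
    _ = ((P.nu γ).prod (volume : Measure ℝ)) (⋃ i ∈ (Finset.univ : Finset (Fin (2 ^ n₁))),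
        ({y | (y.1, ts γ i, y.2) ∈ {x : P.Lam × ℝ × ℝ | ∃ c c', Y.wd c = γ ∧ Y.k3bBk n₁ c = (i : ℕ) ∧ x ∈ Go c c'}} ∩ Set.univ ×ˢ kbI n₁ i)) := by
        rw [measure_biUnion_finset ?_ (fun i _ => (hA i).inter (MeasurableSet.univ.prod (hI i)))]
        intro i _ i' _ hii
        rw [Function.onFun, Set.disjoint_left]
        rintro y ⟨_, hy⟩ ⟨_, hy'⟩
        exact Set.disjoint_left.1 (k2s_kbI_disj n₁ (fun h => hii (Fin.ext h))) hy.2 hy'.2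
    _ ≤ ((P.nu γ).prod (volume : Measure ℝ)) (k3bSuc Y n₁ Go ts γ ∩ P.Ev γ ∩ Set.univ ×ˢ Set.Icc (0 : ℝ) 1) := by
        apply measure_mono
        intro y hy
        simp only [Set.mem_iUnion] at hy
        obtain ⟨i, _, ⟨c, c', h1, h2, h3⟩, _⟩ := hy
        have hw := (hc c c' ⟨_, h3⟩).1
        have hE : y ∈ P.Ev γ := by
          have h4 := (hY.S_sub c' (hs c c' h3).2).1
          rw [← hw, h1] at h4
          exact h4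
        refine ⟨⟨⟨c, c', h1, ?_⟩, hE⟩, Set.mem_univ _, (hP.Ev_sub γ hE).2⟩
        rw [h2]
        exact h3
    _ = P.mu γ (k3bSuc Y n₁ Go ts γ) := by
        unfold KbPb.mu KbPb.tm
        rw [Measure.restrict_apply' (hP.Ev_meas γ), e1, Measure.restrict_apply' (MeasurableSet.univ.prod measurableSet_Icc)]

/-- **LEAF L-252-S3b-A5b** (freezing the source time; 03 l.1577-1596).  For `(γ, i)` and `t₀` let `Sec γ i t₀ = {(l, t) | ∃ c c', wd c = γ ∧ Bk c = i ∧ (l, t₀, t) ∈ Go c c'}`.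
(a) `∑_{c ∈ (γ,i)} ∑_{c'} q₁ law (Go c c') = ∫⁻ t₀, μ_γ (Sec γ i t₀) d unif_i`: `k3b_law_fub`, `lintegral_finset_sum`, disjointness (`k3b_pr_disj`), `measure_biUnion_finset`; on `Sec`: `(l, t) ∈ S c' ⊆ Ev γ`, `t ∈ kbI n₁ i ⊆ [0,1]`, so `ν × vol|_{I_i}` and `μ_γ` agree.
(b) `k3e3_freeze` over `ι = P.W × Fin (2^n₁)` with `N = (kbI n₁ i)ᶜ` (`k3b_un_prob`, `k3b_un_compl`).   (c) the sets `Sec γ i (ts γ i)`, `i < 2^n₁`, are disjoint (`k2s_kbI_disj`) with union `k3bSuc .. γ`. -/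
theorem k3b_asm_freeze (hP : P.WF) (hY : Y.WF) (n₁ : ℕ) (hn : n₁ ≤ Y.n) (Go : Y.C → Y.C → Set (P.Lam × ℝ × ℝ)) (hm : ∀ c c', MeasurableSet (Go c c')) (hs : ∀ c c', Go c c' ⊆ Y.k3bPr c c')
    (hc : ∀ c c', (Go c c').Nonempty → Y.wd c = Y.wd c' ∧ Y.k3bBk n₁ c = Y.k3bBk n₁ c') :
    ∃ ts : P.W → ℕ → ℝ, (∀ γ i, i < 2 ^ n₁ → ts γ i ∈ kbI n₁ i) ∧ Y.k3bPM n₁ Go ≤ P.mass (k3bSuc Y n₁ Go ts) := by
  classical
  have hq : ∀ j : P.W × Fin (2 ^ n₁), IsProbabilityMeasure (k3bUn n₁ (j.2 : ℕ)) := fun j => k3b_un_prob n₁ j.2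
  -- the average
  have hfub : ∀ j : P.W × Fin (2 ^ n₁), ENNReal.ofReal (kbQ n₁) * P.k3bLaw j.1 n₁ j.2 {x : P.Lam × ℝ × ℝ | ∃ c c', Y.wd c = j.1 ∧ Y.k3bBk n₁ c = (j.2 : ℕ) ∧ x ∈ Go c c'}
      = ∫⁻ t₀, ((P.nu j.1).prod (volume.restrict (kbI n₁ j.2))) {y | (y.1, t₀, y.2) ∈ {x : P.Lam × ℝ × ℝ | ∃ c c', Y.wd c = j.1 ∧ Y.k3bBk n₁ c = (j.2 : ℕ) ∧ x ∈ Go c c'}} ∂(k3bUn n₁ j.2) :=
    fun j => k3b_law_fub hP j.1 n₁ j.2 _ (k3b_go_union hY n₁ Go hm hs hc j.1 j.2 0).1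
  have hgroup : Y.k3bPM n₁ Go = ∑ j : P.W × Fin (2 ^ n₁), P.om j.1 *
      ∫⁻ t₀, ((P.nu j.1).prod (volume.restrict (kbI n₁ j.2))) {y | (y.1, t₀, y.2) ∈ {x : P.Lam × ℝ × ℝ | ∃ c c', Y.wd c = j.1 ∧ Y.k3bBk n₁ c = (j.2 : ℕ) ∧ x ∈ Go c c'}} ∂(k3bUn n₁ j.2) := by
    unfold KbSys.k3bPM
    rw [← Finset.sum_fiberwise Finset.univ (fun c => ((Y.wd c, ⟨Y.k3bBk n₁ c, k3b_bk_lt hY n₁ hn c⟩) : P.W × Fin (2 ^ n₁)))]
    refine Finset.sum_congr rfl fun j _ => ?_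
    have hfib : (Finset.univ.filter fun c => ((Y.wd c, ⟨Y.k3bBk n₁ c, k3b_bk_lt hY n₁ hn c⟩) : P.W × Fin (2 ^ n₁)) = j)
        = Finset.univ.filter fun c => Y.wd c = j.1 ∧ Y.k3bBk n₁ c = (j.2 : ℕ) := by
      apply Finset.filter_congr
      intro c _
      rw [Prod.ext_iff, Fin.ext_iff]
    rw [hfib, ← hfub j, (k3b_go_union hY n₁ Go hm hs hc j.1 j.2 _).2, Finset.mul_sum, Finset.mul_sum]
    refine Finset.sum_congr rfl fun c hc' => ?_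
    obtain ⟨h1, h2⟩ := (Finset.mem_filter.1 hc').2
    rw [Finset.mul_sum, Finset.mul_sum]
    refine Finset.sum_congr rfl fun c' _ => ?_
    rw [h1, h2, mul_assoc]
  have hfin : ∀ j : P.W × Fin (2 ^ n₁), ∫⁻ t₀, ((P.nu j.1).prod (volume.restrict (kbI n₁ j.2))) {y | (y.1, t₀, y.2) ∈ {x : P.Lam × ℝ × ℝ | ∃ c c', Y.wd c = j.1 ∧ Y.k3bBk n₁ c = (j.2 : ℕ) ∧ x ∈ Go c c'}} ∂(k3bUn n₁ j.2) ≠ ∞ := by
    intro j
    rw [← hfub j]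
    have := hP.prob j.1
    have := hq j
    have hfm : IsFiniteMeasure (P.k3bLaw j.1 n₁ j.2) := by
      unfold KbPb.k3bLaw
      infer_instance
    exact ENNReal.mul_ne_top ENNReal.ofReal_ne_top (measure_ne_top _ _)
  obtain ⟨ϑ, hϑ1, hϑ2⟩ := k3e3_freeze (ι := P.W × Fin (2 ^ n₁)) (Θ := fun _ => ℝ) (fun j => k3bUn n₁ j.2) hq (fun j => P.om j.1)
    (fun j t₀ => ((P.nu j.1).prod (volume.restrict (kbI n₁ j.2))) {y | (y.1, t₀, y.2) ∈ {x : P.Lam × ℝ × ℝ | ∃ c c', Y.wd c = j.1 ∧ Y.k3bBk n₁ c = (j.2 : ℕ) ∧ x ∈ Go c c'}})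
    hfin (fun j => (kbI n₁ j.2)ᶜ) (fun j => k3b_un_compl n₁ j.2)
  refine ⟨fun γ i => if h : i < 2 ^ n₁ then ϑ (γ, ⟨i, h⟩) else 0, fun γ i hi => ?_, ?_⟩
  · beta_reduce
    rw [dif_pos hi]
    have := hϑ1 (γ, ⟨i, hi⟩)
    rwa [Set.notMem_compl_iff] at this
  · rw [hgroup]
    refine hϑ2.trans ?_
    rw [Fintype.sum_prod_type]
    unfold KbPb.mass
    refine Finset.sum_le_sum fun γ _ => ?_
    dsimp only
    rw [← Finset.mul_sum]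
    gcongr
    refine le_trans (le_of_eq ?_) (k3b_suc_mass hP hY n₁ Go hm hs hc (fun γ i => if h : i < 2 ^ n₁ then ϑ (γ, ⟨i, h⟩) else 0) γ)
    refine Finset.sum_congr rfl fun i _ => ?_
    rw [dif_pos i.2]

/-- the pair mass of events inside the pairs is at most one -/
theorem k3b_PM_le_one (hP : P.WF) (hY : Y.WF) (n₁ : ℕ) (hn : n₁ ≤ Y.n) (Go : Y.C → Y.C → Set (P.Lam × ℝ × ℝ)) (hm : ∀ c c', MeasurableSet (Go c c')) (hs : ∀ c c', Go c c' ⊆ Y.k3bPr c c')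
    (hc : ∀ c c', (Go c c').Nonempty → Y.wd c = Y.wd c' ∧ Y.k3bBk n₁ c = Y.k3bBk n₁ c') : Y.k3bPM n₁ Go ≤ 1 := by
  obtain ⟨ts, _, h⟩ := k3b_asm_freeze hP hY n₁ hn Go hm hs hc
  exact h.trans ((k2s_mass_le_tot P _).trans (k2s_tot_le P hP))

/-- **LEAF L-252-S3b-A5c** (one discrete source index: bad anchors have small volume).  `C` from `k3e2_anchor_pair (v.j + 1)` with `K = 2 A₀`, `x0 = u`; `D u, D' u ≥ 1/(2A₀)` as in `k3b_pt_disc` (here directly: `‖u - z0‖ ≤ ρ`, `6 A₀² ρ ≤ 1`, `k3e2_bd_lip`);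
`k3e2_safe_mono`, and `K3e2Low` is monotone in `A`, to pass from `C' (2 A₀ T)^{C'}` to `A`. -/
theorem k3b_anchor_idx (n : ℕ) (hn : 1 ≤ n) : ∃ C : ℝ, 1 ≤ C ∧ ∀ (A₀ T A ρ : ℝ), 1 ≤ A₀ → 1 ≤ T → C * (A₀ * T) ^ C ≤ A → 0 < ρ → 6 * A₀ ^ 2 * ρ ≤ 1 → ∀ (D D' : K3bQd n) (z u : Fin n → ℝ), ‖z‖ ≤ 1 → ‖u‖ ≤ 1 → ‖u - z‖ ≤ ρ →
    K3e2Bd D A₀ → K3e2Bd D' A₀ → 1 / A₀ ≤ D.evR z → 1 / A₀ ≤ D'.evR z →
    volume ({p : (Fin n → ℝ) × ℂ | p.1 ∈ k3bCube n 1 ∧ ‖p.2‖ ≤ 2} ∩ {p | ¬ (K3bSafe D (k3bC u) (k3bC p.1) p.2 A ∧ K3e2Low D' (k3bC p.1) A)}) ≤ ENNReal.ofReal (C / T) := by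
  obtain ⟨C', hC', H⟩ := k3e2_anchor_pair n hn
  have h2C : (1 : ℝ) ≤ 2 ^ C' := Real.one_le_rpow (by norm_num) (by linarith)
  have hCC : C' ≤ C' * 2 ^ C' := by nlinarith
  refine ⟨C' * 2 ^ C', hC'.trans hCC, ?_⟩
  intro A₀ T A ρ hA₀ hT hA hρ hρ6 D D' z u hz hu huz hD hD' hDz hD'z
  have hA₀0 : 0 < A₀ := by linarith
  have hT0 : 0 < T := by linarith
  have hAT : 1 ≤ A₀ * T := one_le_mul_of_one_le_of_one_le hA₀ hT
  have hρ1 : ρ ≤ 1 := by nlinarith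
  have hA1 : C' * (2 * A₀ * T) ^ C' ≤ A := by
    refine le_trans ?_ hA
    have e : (2 * A₀ * T) ^ C' = 2 ^ C' * (A₀ * T) ^ C' := by
      rw [mul_assoc, Real.mul_rpow (by norm_num) (by positivity)]
    rw [e, ← mul_assoc]
    gcongr
  have hA1pos : 0 < C' * (2 * A₀ * T) ^ C' := by positivity
  have hC0 : k3bC (0 : Fin n → ℝ) = 0 := by
    funext i
    simp [k3bC]
  have hCn : ∀ y : Fin n → ℝ, ‖k3bC y‖ = ‖y‖ := by
    intro y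
    have := k3e2_C_sub_norm y 0
    rwa [hC0, sub_zero, sub_zero] at this
  have hlow : ∀ E : K3bQd n, K3e2Bd E A₀ → 1 / A₀ ≤ E.evR z → 1 / (2 * A₀) ≤ |E.evR u| := by
    intro E hE hEz
    have h1 := k3e2_bd_lip E A₀ hE (k3bC z) (k3bC u - k3bC z) (by rw [hCn]; linarith) (by rw [k3e2_C_sub_norm]; linarith)
    rw [add_sub_cancel, k3e2_qd_real, k3e2_qd_real, ← Complex.ofReal_sub, Complex.norm_real, Real.norm_eq_abs, k3e2_C_sub_norm] at h1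
    have h2 : 3 * A₀ * ‖u - z‖ ≤ 1 / (2 * A₀) := by
      rw [le_div_iff₀ (by positivity)]
      have : ‖u - z‖ * (6 * A₀ ^ 2) ≤ ρ * (6 * A₀ ^ 2) := by gcongr
      nlinarith
    have h3 := (abs_le.1 (h1.trans h2)).1
    have h4 : 1 / A₀ = 1 / (2 * A₀) + 1 / (2 * A₀) := by
      field_simp
      norm_num
    refine le_trans ?_ (le_abs_self _)
    linarith
  have hcube : u ∈ k3bCube n 1 := by
    intro i
    rw [← Real.norm_eq_abs]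
    exact (norm_le_pi_norm u i).trans hu
  have hmain := H (2 * A₀) T (by linarith) hT D D' u hcube (k3e2_bd_mono _ _ _ (by linarith) hD) (k3e2_bd_mono _ _ _ (by linarith) hD') (hlow D hD hDz) (hlow D' hD' hD'z)
  refine (measure_mono ?_).trans (hmain.trans (ENNReal.ofReal_le_ofReal (by gcongr)))
  rintro p ⟨⟨hp1, hp2⟩, hp3⟩
  refine ⟨hp1, hp2, fun hcon => hp3 ⟨k3e2_safe_mono _ _ _ _ _ _ hA1pos hA1 hcon.1, ?_⟩⟩
  intro w hw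
  have hle : 1 / A ≤ 1 / (C' * (2 * A₀ * T) ^ C') := one_div_le_one_div_of_le hA1pos hA1
  exact hle.trans (hcon.2 w (hw.trans hle))

/-- the parameter set of the anchors: cube times disc -/
theorem k3b_anS_vol (n : ℕ) : MeasurableSet {p : (Fin n → ℝ) × ℂ | p.1 ∈ k3bCube n 1 ∧ ‖p.2‖ ≤ 2} ∧ 1 ≤ volume {p : (Fin n → ℝ) × ℂ | p.1 ∈ k3bCube n 1 ∧ ‖p.2‖ ≤ 2} ∧
    volume {p : (Fin n → ℝ) × ℂ | p.1 ∈ k3bCube n 1 ∧ ‖p.2‖ ≤ 2} ≠ ⊤ := by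
  have e : {p : (Fin n → ℝ) × ℂ | p.1 ∈ k3bCube n 1 ∧ ‖p.2‖ ≤ 2} = k3bCube n 1 ×ˢ {σ : ℂ | ‖σ‖ ≤ 2} := by
    ext p
    exact Iff.rfl
  have eb : {σ : ℂ | ‖σ‖ ≤ 2} = Metric.closedBall (0 : ℂ) 2 := by
    ext σ
    simp
  have hd1 : 1 ≤ volume {σ : ℂ | ‖σ‖ ≤ 2} := by
    rw [eb, Complex.volume_closedBall, ← ENNReal.ofReal_pow (by norm_num), ← ENNReal.ofReal_coe_nnreal (p := NNReal.pi),
      NNReal.coe_real_pi, ← ENNReal.ofReal_mul (by norm_num), ENNReal.one_le_ofReal]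
    have := Real.pi_gt_three
    linarith
  have hc1 : 1 ≤ volume (k3bCube n 1) := by
    rw [k3e2_cube_vol, ENNReal.one_le_ofReal]
    exact one_le_pow₀ (by norm_num)
  rw [e, Measure.volume_eq_prod, Measure.prod_prod]
  refine ⟨(k3e2_cube_meas n 1).prod (by rw [eb]; exact Metric.isClosed_closedBall.measurableSet), one_le_mul_of_one_le_of_one_le hc1 hd1, ?_⟩
  refine ENNReal.mul_ne_top ?_ (lt_of_le_of_lt k3e2_disc_vol ENNReal.ofReal_lt_top).ne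
  rw [k3e2_cube_vol]
  exact ENNReal.ofReal_ne_top

/-- **LEAF L-252-S3b-A5d** (choice of the anchors; 03 l.1328-1375).  `C` of `k3b_anchor_idx`.   For every frame `φ`: `k3b_avg_fin` on `Θ = (Fin n → ℝ) × ℂ`, `S = cube × disc` (`1 ≤ volume S < ∞`: `k3e2_cube_vol`, `k3e2_disc_vol`), indices `j = (c, c', u)`, `of c = φ`, `u ∈ k3bNetF`,
`w j = ω q₁ law (Gd c c' ∩ {un = u})` (only the `j` with `w j ≠ 0`, i.e. nonempty events, matter: for them `k3b_anchor_idx`), `Bad j = {θ | ¬ (Safe ∧ Low)}`.   `Gd c c' \ Sf c c' = ⋃_u (Gd c c' ∩ {un = u}) ∩ [θ_φ ∈ Bad (c,c',u)]`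
(`un ∈ k3bNetF`, `‖un‖ ≤ 1`, `‖un - z0‖ ≤ ρ` by `k3b_src_time`, `k3b_net_mem`, `k3b_net_le`, `k3b_net_dist`; measurability `k3b_idx_meas`).   Sum over `φ`: `≤ (C/T) PM (Gd) ≤ C/T` (`k3b_PM_le_one`). -/
theorem k3b_asm_anchor (v : KbVer) : ∃ C : ℝ, 1 ≤ C ∧ ∀ (P : KbPb v) (Y : KbSys P) (X : K3bCmp Y) (K A₀ A₂ r Q T A ρ hs hn h δ : ℝ), P.WF → Y.WF → X.Ok K A₀ A₂ r ρ δ Q → 1 ≤ A₀ → 1 ≤ T →
    C * (A₀ * T) ^ C ≤ A → 0 < ρ → 6 * A₀ ^ 2 * ρ ≤ 1 →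
    ∃ an : X.Φ → (Fin (v.j + 1) → ℝ) × ℂ, (∀ φ, (an φ).1 ∈ k3bCube (v.j + 1) 1) ∧ (∀ φ, ‖(an φ).2‖ ≤ 2) ∧
      Y.k3bPM X.n₁ (fun c c' => X.Gd c c' \ (⟨A, ρ, hs, hn, h, δ, an⟩ : K3bAn X).Sf c c') ≤ ENNReal.ofReal (C / T) := by
  classical
  obtain ⟨C, hC, H⟩ := k3b_anchor_idx (v.j + 1) (by omega)
  refine ⟨C, hC, ?_⟩
  intro P Y X K A₀ A₂ r Q T A ρ hs hn h δ hP hY hX hA₀ hT hA hρ hρ6
  obtain ⟨hSm, hS1, hSt⟩ := k3b_anS_vol (v.j + 1)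
  have hS0 : volume {p : (Fin (v.j + 1) → ℝ) × ℂ | p.1 ∈ k3bCube (v.j + 1) 1 ∧ ‖p.2‖ ≤ 2} ≠ 0 := fun h0 => by
    rw [h0] at hS1
    exact absurd hS1 (by norm_num)
  -- events, weights, bad parameters
  obtain ⟨Evt, hEvt⟩ : ∃ Evt : Y.C × Y.C × (Fin (v.j + 1) → ℝ) → Set (P.Lam × ℝ × ℝ), ∀ j, Evt j = X.Gd j.1 j.2.1 ∩ {x | k3bNet ρ (X.z0 j.1 x) = j.2.2} := ⟨_, fun _ => rfl⟩
  obtain ⟨w, hw⟩ : ∃ w : Y.C × Y.C × (Fin (v.j + 1) → ℝ) → ℝ≥0∞, ∀ j, w j = P.om (Y.wd j.1) * ENNReal.ofReal (kbQ X.n₁) * P.k3bLaw (Y.wd j.1) X.n₁ (Y.k3bBk X.n₁ j.1) (Evt j) := ⟨_, fun _ => rfl⟩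
  obtain ⟨Bad, hBad⟩ : ∃ Bad : X.Φ → Y.C × Y.C × (Fin (v.j + 1) → ℝ) → Set ((Fin (v.j + 1) → ℝ) × ℂ), ∀ φ j, Bad φ j =
      if X.of j.1 = φ ∧ (Evt j).Nonempty then {θ | ¬ (K3bSafe (X.eq j.1 φ).dsc (k3bC j.2.2) (k3bC θ.1) θ.2 A ∧ K3e2Low (X.eq j.2.1 φ).dsc (k3bC θ.1) A)} else ∅ := ⟨_, fun _ _ => rfl⟩
  obtain ⟨s, hsdef⟩ : ∃ s : Finset (Y.C × Y.C × (Fin (v.j + 1) → ℝ)), s = Finset.univ ×ˢ (Finset.univ ×ˢ k3bNetF (v.j + 1) ρ) := ⟨_, rfl⟩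
  have hz1 : ∀ (c c' : Y.C) (x : P.Lam × ℝ × ℝ), x ∈ X.Gd c c' → ‖X.z0 c x‖ ≤ 1 := by
    intro c c' x hx
    obtain ⟨_, _, _, τ, _, _, h1⟩ := k3b_src_time hY hX c (x.1, x.2.1) (hX.Gd_sub c c' hx).1
    exact h1
  have hbad : ∀ φ, ∀ j ∈ s, volume ({p : (Fin (v.j + 1) → ℝ) × ℂ | p.1 ∈ k3bCube (v.j + 1) 1 ∧ ‖p.2‖ ≤ 2} ∩ Bad φ j) ≤ ENNReal.ofReal (C / T) := by
    intro φ j _
    rw [hBad]
    by_cases hj : X.of j.1 = φ ∧ (Evt j).Nonempty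
    · rw [if_pos hj]
      obtain ⟨hφ, x, hx⟩ := hj
      rw [hEvt] at hx
      obtain ⟨hx1, hx2⟩ := hx
      have hx2' : k3bNet ρ (X.z0 j.1 x) = j.2.2 := hx2
      have hb := hX.Gd_bd j.1 j.2.1 ⟨x, hx1⟩
      have hl := hX.Gd_low j.1 j.2.1 x hx1
      rw [hφ] at hb hl
      exact H A₀ T A ρ hA₀ hT hA hρ hρ6 (X.eq j.1 φ).dsc (X.eq j.2.1 φ).dsc (X.z0 j.1 x) j.2.2 (hz1 _ _ x hx1)
        (by rw [← hx2']; exact (k3b_net_le ρ hρ _).trans (hz1 _ _ x hx1)) (by rw [← hx2']; exact k3b_net_dist ρ hρ _) hb.1 hb.2 hl.1 hl.2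
    · rw [if_neg hj, Set.inter_empty, measure_empty]
      exact bot_le
  choose θ hθS hθ using fun φ => k3b_avg_fin volume _ hSm hS0 hSt s (fun j => if X.of j.1 = φ then w j else 0) (Bad φ) (ENNReal.ofReal (C / T)) (hbad φ)
  refine ⟨θ, fun φ => (hθS φ).1, fun φ => (hθS φ).2, ?_⟩
  -- covering
  have hcover : ∀ c c', P.om (Y.wd c) * ENNReal.ofReal (kbQ X.n₁) * P.k3bLaw (Y.wd c) X.n₁ (Y.k3bBk X.n₁ c) (X.Gd c c' \ (⟨A, ρ, hs, hn, h, δ, θ⟩ : K3bAn X).Sf c c')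
      ≤ ∑ u ∈ k3bNetF (v.j + 1) ρ, w (c, c', u) * (Bad (X.of c) (c, c', u)).indicator 1 (θ (X.of c)) := by
    intro c c'
    have hsub : X.Gd c c' \ (⟨A, ρ, hs, hn, h, δ, θ⟩ : K3bAn X).Sf c c' ⊆ ⋃ u ∈ (k3bNetF (v.j + 1) ρ).filter (fun u => θ (X.of c) ∈ Bad (X.of c) (c, c', u)), Evt (c, c', u) := by
      rintro x ⟨hx1, hx2⟩
      have hxE : x ∈ Evt (c, c', k3bNet ρ (X.z0 c x)) := by
        rw [hEvt]
        exact ⟨hx1, rfl⟩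
      simp only [Set.mem_iUnion, Finset.mem_filter, exists_prop]
      refine ⟨k3bNet ρ (X.z0 c x), ⟨k3b_net_mem ρ hρ _ (hz1 c c' x hx1), ?_⟩, hxE⟩
      rw [hBad, if_pos ⟨rfl, ⟨x, hxE⟩⟩]
      exact hx2
    calc P.om (Y.wd c) * ENNReal.ofReal (kbQ X.n₁) * P.k3bLaw (Y.wd c) X.n₁ (Y.k3bBk X.n₁ c) (X.Gd c c' \ (⟨A, ρ, hs, hn, h, δ, θ⟩ : K3bAn X).Sf c c')
        ≤ P.om (Y.wd c) * ENNReal.ofReal (kbQ X.n₁) * ∑ u ∈ (k3bNetF (v.j + 1) ρ).filter (fun u => θ (X.of c) ∈ Bad (X.of c) (c, c', u)), P.k3bLaw (Y.wd c) X.n₁ (Y.k3bBk X.n₁ c) (Evt (c, c', u)) := by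
          gcongr
          exact (measure_mono hsub).trans (measure_biUnion_finset_le _ _)
      _ = ∑ u ∈ k3bNetF (v.j + 1) ρ, w (c, c', u) * (Bad (X.of c) (c, c', u)).indicator 1 (θ (X.of c)) := by
          rw [Finset.mul_sum, Finset.sum_filter]
          refine Finset.sum_congr rfl fun u _ => ?_
          rw [hw]
          by_cases hu : θ (X.of c) ∈ Bad (X.of c) (c, c', u)
          · rw [if_pos hu, Set.indicator_of_mem hu, Pi.one_apply, mul_one]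
          · rw [if_neg hu, Set.indicator_of_notMem hu, mul_zero]
  -- the total weight
  have hwsum : ∑ j ∈ s, w j ≤ 1 := by
    rw [hsdef, Finset.sum_product]
    refine le_trans ?_ (k3b_PM_le_one hP hY X.n₁ hX.n_le X.Gd hX.Gd_meas hX.Gd_sub (fun c c' hne => ⟨(hX.Gd_ctx c c' hne).1, (hX.Gd_ctx c c' hne).2.1⟩))
    unfold KbSys.k3bPM
    refine Finset.sum_le_sum fun c _ => ?_
    rw [Finset.sum_product]
    refine Finset.sum_le_sum fun c' _ => ?_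
    simp only [hw]
    rw [← Finset.mul_sum]
    gcongr
    rw [← measure_biUnion_finset]
    · apply measure_mono
      intro x hx
      simp only [Set.mem_iUnion, exists_prop] at hx
      obtain ⟨u, _, hx⟩ := hx
      rw [hEvt] at hx
      exact hx.1
    · intro u _ u' _ huu
      rw [Function.onFun, Set.disjoint_left]
      intro x hx hx'
      rw [hEvt] at hx hx'
      exact huu (hx.2.symm.trans hx'.2)
    · intro u _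
      rw [hEvt]
      exact (hX.Gd_meas c c').inter (k3b_z0_meas hP c (k3b_net_meas ρ {u}))
  have hsingle : ∀ (j : Y.C × Y.C × (Fin (v.j + 1) → ℝ)) (F : X.Φ → ℝ≥0∞), ∑ φ, (if X.of j.1 = φ then w j else 0) * F φ = w j * F (X.of j.1) := by
    intro j F
    simp only [ite_mul, zero_mul]
    rw [Finset.sum_ite_eq]
    simp
  calc Y.k3bPM X.n₁ (fun c c' => X.Gd c c' \ (⟨A, ρ, hs, hn, h, δ, θ⟩ : K3bAn X).Sf c c')
      ≤ ∑ c, ∑ c', ∑ u ∈ k3bNetF (v.j + 1) ρ, w (c, c', u) * (Bad (X.of c) (c, c', u)).indicator 1 (θ (X.of c)) := by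
        unfold KbSys.k3bPM
        exact Finset.sum_le_sum fun c _ => Finset.sum_le_sum fun c' _ => hcover c c'
    _ = ∑ j ∈ s, w j * (Bad (X.of j.1) j).indicator 1 (θ (X.of j.1)) := by
        rw [hsdef, Finset.sum_product]
        refine Finset.sum_congr rfl fun c _ => ?_
        rw [Finset.sum_product]
    _ = ∑ j ∈ s, ∑ φ, (if X.of j.1 = φ then w j else 0) * (Bad φ j).indicator 1 (θ φ) :=
        Finset.sum_congr rfl fun j _ => (hsingle j fun φ => (Bad φ j).indicator 1 (θ φ)).symm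
    _ = ∑ φ, ∑ j ∈ s, (if X.of j.1 = φ then w j else 0) * (Bad φ j).indicator 1 (θ φ) := Finset.sum_comm
    _ ≤ ∑ φ, ENNReal.ofReal (C / T) * ∑ j ∈ s, (if X.of j.1 = φ then w j else 0) := by
        refine Finset.sum_le_sum fun φ _ => (hθ φ).trans ?_
        exact ENNReal.div_le_of_le_mul (le_mul_of_one_le_right' hS1)
    _ = ENNReal.ofReal (C / T) * ∑ j ∈ s, ∑ φ, (if X.of j.1 = φ then w j else 0) := by
        rw [← Finset.mul_sum, Finset.sum_comm]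
    _ = ENNReal.ofReal (C / T) * ∑ j ∈ s, w j := by
        congr 1
        refine Finset.sum_congr rfl fun j _ => ?_
        have := hsingle j fun _ => 1
        simp only [mul_one] at this
        exact this
    _ ≤ ENNReal.ofReal (C / T) * 1 := by gcongr
    _ = ENNReal.ofReal (C / T) := mul_one _

theorem k3b_qd_evR_meas {n : ℕ} (D : K3bQd n) : Measurable D.evR := by
  unfold K3bQd.evR
  fun_prop

/-- one label -/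
theorem k3b_disc_one (C' : ℝ) (H : ∀ (A ε ϱ : ℝ), 1 ≤ A → 0 ≤ ε → 0 ≤ ϱ → ∀ α : Fin (v.j + 1) → ℂ, ‖α‖ ≤ 2 → ∀ (ι J : Type) [Fintype J] (Dh : ι → K3bQd (v.j + 1)),
      (∀ i, 1 / A ≤ ‖(Dh i).ev α‖) → ∀ (S : J → Finset ι) (m : ℕ), (∀ j, (S j).card ≤ m) → ∀ μ : J → Measure (Fin (v.j + 1) → ℝ), (∀ j, μ j ≤ ENNReal.ofReal ϱ • (volume.restrict (k3bCube (v.j + 1) 1))) →
      ∑ j, μ j {x | ∃ i ∈ S j, |(Dh i).evR x| ≤ ε} ≤ ENNReal.ofReal (C' * (Fintype.card J : ℝ) * (m : ℝ) * ϱ * (A * ε) ^ (1 / (2 * ((v.j + 1 : ℕ) : ℝ)))))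
    {X : K3bCmp Y} {Z : K3bAn X} {K A₀ A₂ r Q : ℝ} (U3 ϱ : ℝ) (hP : P.WF) (hY : Y.WF) (hX : X.Ok K A₀ A₂ r Z.ρ Z.δ Q) (hZ : Z.Num A₀ r) (hU3 : 0 < U3) (hϱ : 0 ≤ ϱ) (c : Y.C)
    (hd : ((P.k3bLaw (Y.wd c) X.n₁ (Y.k3bBk X.n₁ c)).restrict (⋃ c', X.Gd c c')).map (X.z0 c) ≤ ENNReal.ofReal ϱ • volume.restrict (k3bCube (v.j + 1) 1)) :
    ∑ c', P.k3bLaw (Y.wd c) X.n₁ (Y.k3bBk X.n₁ c) ((X.Gd c c' ∩ Z.Sf c c') \ Z.Dl U3 c) ≤ ENNReal.ofReal (C' * 1 * ((2 ^ (11 ^ (v.j + 1)) : ℕ) : ℝ) * ϱ * (Z.A * (1 / U3)) ^ (1 / (2 * ((v.j + 1 : ℕ) : ℝ)))) := by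
  classical
  have hA32 : 32 ≤ Z.A := by nlinarith [hZ.A_ge, hZ.A0_ge]
  have hA0 : 0 < Z.A := by linarith
  by_cases hne : ∃ c' x, x ∈ X.Gd c c' ∩ Z.Sf c c'
  swap
  · have : ∀ c', (X.Gd c c' ∩ Z.Sf c c') \ Z.Dl U3 c = ∅ := by
      intro c'
      ext x
      simp only [Set.mem_sdiff, Set.mem_empty_iff_false, iff_false, not_and]
      intro hx
      exact absurd ⟨c', x, hx⟩ hne
    simp only [this, measure_empty, Finset.sum_const_zero]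
    exact zero_le
  obtain ⟨c₀, x₀, hx₀⟩ := hne
  have hlow := (k3e2_safe_low _ _ _ _ _ hx₀.2.1).2
  have hnodes : ∀ κ, (X.eq c (X.of c)).dsc.ev (k3e2Node (Z.al (X.of c)) Z.hn κ) ≠ 0 := by
    intro κ h0
    have hn0 : 0 ≤ Z.hn := by rw [hZ.hn_eq]; positivity
    have h1 := k3e2_node_dist (Z.al (X.of c)) Z.hn hn0 κ
    have h2 : 5 * Z.hn ≤ 1 / Z.A := by
      rw [hZ.hn_eq, mul_one_div, div_le_div_iff₀ (by positivity) hA0]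
      nlinarith
    have h3 := hlow (k3e2Node (Z.al (X.of c)) Z.hn κ - Z.al (X.of c)) (h1.trans h2)
    rw [add_sub_cancel, h0, norm_zero] at h3
    have : 0 < 1 / Z.A := by positivity
    linarith
  obtain ⟨hfin, hcard⟩ := k3e2_own_card (X.eq c (X.of c)) (Z.al (X.of c)) Z.hn Z.h hnodes
  obtain ⟨T, hT⟩ : ∃ T : Set (Fin (v.j + 1) → ℝ), T = {z | ∃ b ∈ hfin.toFinset, |(Z.eqh (X.of c, b)).dsc.evR z| ≤ 1 / U3} := ⟨_, rfl⟩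
  have hTm : MeasurableSet T := by
    have e : T = ⋃ b ∈ hfin.toFinset, {z | |(Z.eqh (X.of c, b)).dsc.evR z| ≤ 1 / U3} := by
      rw [hT]
      ext z
      simp
    rw [e]
    exact Finset.measurableSet_biUnion _ fun b _ => measurableSet_le (k3b_qd_evR_meas _).abs measurable_const
  have hz0 := k3b_z0_meas (X := X) hP c
  have hsub : ∀ c', (X.Gd c c' ∩ Z.Sf c c') \ Z.Dl U3 c ⊆ X.Gd c c' ∩ X.z0 c ⁻¹' T := by
    intro c' x hx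
    refine ⟨hx.1.1, ?_⟩
    have hel := k3b_pt_elig hY hX hZ c c' x hx.1
    rw [Set.mem_preimage, hT]
    refine ⟨(Z.lb c x.1 x.2.1).2, hfin.mem_toFinset.2 hel.2.own, ?_⟩
    have h2 : ¬ (1 / U3 ≤ |(Z.eqh (Z.lb c x.1 x.2.1)).dsc.evR (X.z0 c x)|) := hx.2
    exact (not_le.mp h2).le
  have hdisj : Set.PairwiseDisjoint (↑(Finset.univ : Finset Y.C)) fun c' => X.Gd c c' ∩ X.z0 c ⁻¹' T := by
    intro c' _ c'' _ hcc
    have := k3b_go_disj hY X.n₁ X.Gd hX.Gd_sub (fun a b hab => ⟨(hX.Gd_ctx a b hab).1, (hX.Gd_ctx a b hab).2.1⟩) c c' c c'' (by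
      intro h
      exact hcc (Prod.mk.inj h).2) rfl
    exact this.mono Set.inter_subset_left Set.inter_subset_left
  have hU : ⋃ c' ∈ (Finset.univ : Finset Y.C), (X.Gd c c' ∩ X.z0 c ⁻¹' T) = X.z0 c ⁻¹' T ∩ ⋃ c', X.Gd c c' := by
    ext x
    simp only [Finset.mem_univ, Set.iUnion_true, Set.mem_iUnion, Set.mem_inter_iff]
    constructor
    · rintro ⟨c', h1, h2⟩
      exact ⟨h2, c', h1⟩
    · rintro ⟨h2, c', h1⟩
      exact ⟨c', h1, h2⟩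
  have hα : ‖Z.al (X.of c)‖ ≤ 2 := (k3e2_C_norm _ (hZ.an_cube (X.of c))).trans (by norm_num)
  have hH := H Z.A (1 / U3) ϱ (by linarith) (by positivity) hϱ (Z.al (X.of c)) hα (K3bTp (v.j + 1)) Unit (fun b => (Z.eqh (X.of c, b)).dsc) (fun b => k3b_eqh_low hZ (X.of c, b))
    (fun _ => hfin.toFinset) (2 ^ (11 ^ (v.j + 1))) (fun _ => by rw [← Set.ncard_eq_toFinset_card _ hfin]; exact hcard)
    (fun _ => ((P.k3bLaw (Y.wd c) X.n₁ (Y.k3bBk X.n₁ c)).restrict (⋃ c', X.Gd c c')).map (X.z0 c)) (fun _ => hd)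
  simp only [Finset.univ_unique, Finset.sum_singleton, Fintype.card_unit, Nat.cast_one] at hH
  calc ∑ c', P.k3bLaw (Y.wd c) X.n₁ (Y.k3bBk X.n₁ c) ((X.Gd c c' ∩ Z.Sf c c') \ Z.Dl U3 c)
      ≤ ∑ c', P.k3bLaw (Y.wd c) X.n₁ (Y.k3bBk X.n₁ c) (X.Gd c c' ∩ X.z0 c ⁻¹' T) := Finset.sum_le_sum fun c' _ => measure_mono (hsub c')
    _ = P.k3bLaw (Y.wd c) X.n₁ (Y.k3bBk X.n₁ c) (X.z0 c ⁻¹' T ∩ ⋃ c', X.Gd c c') := by
        rw [← hU, measure_biUnion_finset hdisj fun c' _ => (hX.Gd_meas c c').inter (hz0 hTm)]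
    _ = ((P.k3bLaw (Y.wd c) X.n₁ (Y.k3bBk X.n₁ c)).restrict (⋃ c', X.Gd c c')).map (X.z0 c) T := by
        rw [Measure.map_apply hz0 hTm, Measure.restrict_apply (hz0 hTm)]
    _ ≤ _ := by
        rw [hT]
        exact hH

/-- **LEAF L-252-S3b-A5e** (the charge for (3.24); 03 (3.28), l.1510-1557).  `C = C' 2^(11^n)`, `C'` of `k3e2_disc_charge n`, `n = v.j + 1`.   Fix `c`, `φ = of c`.  If `Gd c c' ∩ Sf c c'` is empty for all `c'` the term vanishes.   Otherwise `dsc (eq c φ) ≠ 0` at the anchor nodes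
(`k3e2_safe_low`, `5 hn ≤ 1/A`), `Own = k3e2Own (eq c φ) (Z.al φ) hn h` is finite with `≤ 2^(11^n)` elements (`k3e2_own_card`) and contains `(Z.lb ..).2` on `Gd ∩ Sf` (`k3b_pt_br`, `k3e2_own_mem`).   With `F = X.z0 c ⁻¹' {z | ∃ b ∈ Own, |(Z.eqh (φ, b)).dsc.evR z| ≤ 1/U3}`:
`∑_{c'} law ((Gd c c' ∩ Sf c c') \ Dl c) ≤ ∑_{c'} law (Gd c c' ∩ F) = law ((⋃ Gd c c') ∩ F)` (disjoint: `hX.Gd_sub`, `hX.Gd_ctx`, `k3b_pr_disj`) `= (map (z0 c) ..) {..} ≤ C' * 2^(11^n) * ϱ * (A/U3)^(1/(2n))`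
(`k3e2_disc_charge` with `J = Unit`, `ι = K3bTp n`, `Dh b = (Z.eqh (φ, b)).dsc`, `k3b_eqh_low`, `hX.dens`).   Then `k3b_wt_sum`. -/
theorem k3b_asm_disc (v : KbVer) : ∃ C : ℝ, 1 ≤ C ∧ ∀ (P : KbPb v) (Y : KbSys P) (X : K3bCmp Y) (Z : K3bAn X) (K A₀ A₂ r Q U3 : ℝ), P.WF → Y.WF → X.Ok K A₀ A₂ r Z.ρ Z.δ Q → Z.Num A₀ r → 0 < U3 →
    Y.k3bPM X.n₁ (fun c c' => (X.Gd c c' ∩ Z.Sf c c') \ Z.Dl U3 c) ≤ ENNReal.ofReal (C * A₀ * (Z.A / U3) ^ (1 / (2 * ((v.j : ℝ) + 1)))) := by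
  obtain ⟨C', hC', H⟩ := k3e2_disc_charge (v.j + 1) (by omega)
  obtain ⟨c2, hc2⟩ : ∃ c2 : ℝ, c2 = ((2 ^ (11 ^ (v.j + 1)) : ℕ) : ℝ) := ⟨_, rfl⟩
  have hc21 : 1 ≤ c2 := by
    rw [hc2]
    exact_mod_cast Nat.one_le_two_pow
  refine ⟨C' * c2, one_le_mul_of_one_le_of_one_le hC' hc21, ?_⟩
  intro P Y X Z K A₀ A₂ r Q U3 hP hY hX hZ hU3
  obtain ⟨ϱ, hϱ0, hd1, hd2⟩ := hX.dens
  have hA0 : 0 < Z.A := by nlinarith [hZ.A_ge, hZ.A0_ge]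
  obtain ⟨b, hb⟩ : ∃ b : ℝ, b = C' * c2 * (Z.A / U3) ^ (1 / (2 * ((v.j : ℝ) + 1))) := ⟨_, rfl⟩
  have hb0 : 0 ≤ b := by rw [hb]; positivity
  have key : ∀ c, ∑ c', P.k3bLaw (Y.wd c) X.n₁ (Y.k3bBk X.n₁ c) ((X.Gd c c' ∩ Z.Sf c c') \ Z.Dl U3 c) ≤ ENNReal.ofReal ϱ * ENNReal.ofReal b := by
    intro c
    refine (k3b_disc_one C' H U3 ϱ hP hY hX hZ hU3 hϱ0 c (hd1 c)).trans (le_of_eq ?_)
    rw [← ENNReal.ofReal_mul hϱ0, hb, ← hc2, mul_one_div]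
    congr 1
    push_cast
    ring
  have hw := k3b_wt_sum hP hY X.n₁ hX.n_le ϱ A₀ hϱ0 hd2
  unfold KbSys.k3bPM
  calc ∑ c, ∑ c', P.om (Y.wd c) * ENNReal.ofReal (kbQ X.n₁) * P.k3bLaw (Y.wd c) X.n₁ (Y.k3bBk X.n₁ c) ((X.Gd c c' ∩ Z.Sf c c') \ Z.Dl U3 c)
      = ∑ c, P.om (Y.wd c) * ENNReal.ofReal (kbQ X.n₁) * ∑ c', P.k3bLaw (Y.wd c) X.n₁ (Y.k3bBk X.n₁ c) ((X.Gd c c' ∩ Z.Sf c c') \ Z.Dl U3 c) := by
        refine Finset.sum_congr rfl fun c _ => ?_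
        rw [Finset.mul_sum]
    _ ≤ ∑ c, P.om (Y.wd c) * ENNReal.ofReal (kbQ X.n₁) * (ENNReal.ofReal ϱ * ENNReal.ofReal b) := Finset.sum_le_sum fun c _ => by
        gcongr
        exact key c
    _ = (∑ c, P.om (Y.wd c) * ENNReal.ofReal (kbQ X.n₁) * ENNReal.ofReal ϱ) * ENNReal.ofReal b := by
        rw [Finset.sum_mul]
        refine Finset.sum_congr rfl fun c _ => ?_
        rw [mul_assoc, mul_assoc, mul_assoc]
    _ ≤ ENNReal.ofReal A₀ * ENNReal.ofReal b := by gcongr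
    _ = ENNReal.ofReal (C' * c2 * A₀ * (Z.A / U3) ^ (1 / (2 * ((v.j : ℝ) + 1)))) := by
        rw [← ENNReal.ofReal_mul (by linarith [hZ.A0_ge]), hb]
        congr 1
        ring

/-! ## 6. The table -/

section std

variable {X : K3bCmp Y} {Z : K3bAn X} {K A₀ A₂ r Q : ℝ}

/-- **LEAF L-252-S3b-A6a.**  Section of `Y.S c` at a fixed time (`hY.S_meas`, `measurable_prodMk_right`) and `k3b_idx_meas` with `T u s = univ` if `(X.of c, Z.tup c u s) = p` else `∅`, again a section. -/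
theorem k3b_tab_G_meas (hP : P.WF) (hY : Y.WF) (ts : P.W → ℕ → ℝ) (Kt U U3 : ℝ) (m : ℕ) (c : Y.C) (p : (Z.tab ts Kt U U3 m).L) : MeasurableSet ((Z.tab ts Kt U U3 m).G c p) := by
  have h1 : MeasurableSet {l : P.Lam | (l, ts (Y.wd c) (Y.k3bBk X.n₁ c)) ∈ Y.S c} :=
    measurable_prodMk_right (hY.S_meas c)
  have h2 : MeasurableSet {y : P.Lam × ℝ | y ∈ (fun (u : Fin (v.j + 1) → ℝ) (s : ℝ) => {_y : P.Lam × ℝ | (X.of c, Z.tup c u s) = p.1}) (Z.un c y.1 y.2) (X.sn c y.1 y.2)} :=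
    k3b_idx_meas Z hP c (fun (u : Fin (v.j + 1) → ℝ) (s : ℝ) => {_y : P.Lam × ℝ | (X.of c, Z.tup c u s) = p.1}) fun u s => MeasurableSet.const _
  have h3 : MeasurableSet {l : P.Lam | Z.lb c l (ts (Y.wd c) (Y.k3bBk X.n₁ c)) = p.1} :=
    measurable_prodMk_right (y := ts (Y.wd c) (Y.k3bBk X.n₁ c)) h2
  exact h1.inter h3

/-- **LEAF L-252-S3b-A6b** (list knowledge: size of the lists).  The filter injects into `⋃_{φ ∈ X.cmp c'} {φ} × List φ`, `List φ = k3e2List (eq c' φ) (Z.al φ) hn h` finite with `≤ 18^(11^n)` elements when `K3e2Low ..` holds (`k3e2_list_card`; the nodes are `5 hn ≤ 1/A` close to the anchor). -/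
theorem k3b_tab_cmp_card (hX : X.Ok K A₀ A₂ r Z.ρ Z.δ Q) (hZ : Z.Num A₀ r) (ts : P.W → ℕ → ℝ) (Kt U U3 : ℝ) (m : ℕ) (c' : Y.C) :
    (((Z.tab ts Kt U U3 m).cmp c').card : ℝ) ≤ K * 18 ^ (11 ^ (v.j + 1)) := by
  classical
  have hA0 : 0 < Z.A := by
    have := hZ.A_ge
    have := hZ.A0_ge
    nlinarith
  have hmem : ∀ p : (Z.tab ts Kt U U3 m).L, p ∈ (Z.tab ts Kt U U3 m).cmp c' ↔
      (p.1.1 ∈ X.cmp c' ∧ K3e2Low (X.eq c' p.1.1).dsc (Z.al p.1.1) Z.A ∧ p.1.2 ∈ k3e2List (X.eq c' p.1.1) (Z.al p.1.1) Z.hn Z.h) := by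
    intro p
    exact ⟨fun h => (Finset.mem_filter.1 h).2, fun h => Finset.mem_filter.2 ⟨Finset.mem_univ _, h⟩⟩
  have h1 : ((Z.tab ts Kt U U3 m).cmp c').card = ∑ φ ∈ X.cmp c', (((Z.tab ts Kt U U3 m).cmp c').filter fun p => p.1.1 = φ).card :=
    Finset.card_eq_sum_card_fiberwise fun p hp => ((hmem p).1 hp).1
  have h2 : ∀ φ ∈ X.cmp c', (((Z.tab ts Kt U U3 m).cmp c').filter fun p => p.1.1 = φ).card ≤ 18 ^ (11 ^ (v.j + 1)) := by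
    intro φ _
    by_cases hlow : K3e2Low (X.eq c' φ).dsc (Z.al φ) Z.A
    · have hnode : ∀ κ, (X.eq c' φ).dsc.ev (k3e2Node (Z.al φ) Z.hn κ) ≠ 0 := by
        intro κ h0
        have hd := k3e2_node_dist (Z.al φ) Z.hn (by rw [hZ.hn_eq]; positivity) κ
        have hle : ‖k3e2Node (Z.al φ) Z.hn κ - Z.al φ‖ ≤ 1 / Z.A := by
          refine hd.trans ?_
          rw [hZ.hn_eq, mul_one_div, div_le_div_iff₀ (by positivity) hA0]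
          nlinarith
        have := hlow _ hle
        rw [add_sub_cancel, h0, norm_zero] at this
        have h3 : 0 < 1 / Z.A := by positivity
        linarith
      obtain ⟨hfin, hcard⟩ := k3e2_list_card (X.eq c' φ) (Z.al φ) Z.hn Z.h hnode
      refine le_trans ?_ hcard
      rw [Set.ncard_eq_toFinset_card _ hfin]
      refine Finset.card_le_card_of_injOn (fun p => p.1.2) ?_ ?_
      · intro p hp
        rw [Finset.mem_coe, Finset.mem_filter] at hp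
        obtain ⟨hp1, rfl⟩ := hp
        rw [Finset.mem_coe, Set.Finite.mem_toFinset]
        exact ((hmem p).1 hp1).2.2
      · intro p hp q hq hpq
        rw [Finset.mem_coe, Finset.mem_filter] at hp hq
        exact Subtype.ext (Prod.ext (hp.2.trans hq.2.symm) hpq)
    · have : (((Z.tab ts Kt U U3 m).cmp c').filter fun p => p.1.1 = φ) = ∅ := by
        rw [Finset.filter_eq_empty_iff]
        intro p hp hφ
        subst hφ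
        exact hlow ((hmem p).1 hp).2.1
      rw [this]
      simp
  have h3 : ((Z.tab ts Kt U U3 m).cmp c').card ≤ (X.cmp c').card * 18 ^ (11 ^ (v.j + 1)) := by
    rw [h1]
    refine (Finset.sum_le_sum h2).trans ?_
    rw [Finset.sum_const, smul_eq_mul]
  have h4 : (((Z.tab ts Kt U U3 m).cmp c').card : ℝ) ≤ ((X.cmp c').card : ℝ) * 18 ^ (11 ^ (v.j + 1)) := by
    exact_mod_cast h3
  refine h4.trans ?_
  gcongr
  exact hX.cmp_card c'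

/-- **LEAF L-252-S3b-A6c** (the table is admissible).  Fields: numerics = hypotheses; `iv_lt`, `inv`, `size` from `hX`; `ts_mem` from `hts`; `G_meas`: `k3b_tab_G_meas`; `G_disj`: two different labels (`Subtype.ext`); `adm`: `k3e3_ret_adm` (`hP.v1`, `k3b_eqh_v1`); `cmp_card`: `k3b_tab_cmp_card`. -/
theorem k3b_tab_ok (hP : P.WF) (hY : Y.WF) (hX : X.Ok K A₀ A₂ r Z.ρ Z.δ Q) (hZ : Z.Num A₀ r) (ts : P.W → ℕ → ℝ) (Kt U U3 : ℝ) (m : ℕ) (hKt : 1 ≤ Kt) (hU : 1 ≤ U) (hU3 : 1 ≤ U3)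
    (hm3 : 4 * U3 ≤ 2 ^ m) (hmU : U < 2 ^ m) (hts : ∀ γ i, i < 2 ^ X.n₁ → ts γ i ∈ kbI X.n₁ i) (hK : K * 18 ^ (11 ^ (v.j + 1)) ≤ Kt)
    (hmass : 1 ≤ ENNReal.ofReal Kt * (Z.tab ts Kt U U3 m).sys0.mass) : (Z.tab ts Kt U U3 m).Ok := by
  classical
  refine ⟨hKt, hU, hU3, hZ.δ_pos, hm3, hmU, fun p => hX.iv_lt p.1.1, fun p => hts _ _ (hX.iv_lt p.1.1), fun A p => k3b_tab_G_meas hP hY ts Kt U U3 m A p, ?_,
    fun p => hX.inv p.1.1, ?_, ?_, fun A => (k3b_tab_cmp_card hX hZ ts Kt U U3 m A).trans hK, hmass⟩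
  · intro A p p' hpp _ _
    rw [Set.disjoint_left]
    rintro l ⟨_, h1⟩ ⟨_, h2⟩
    exact hpp (Subtype.ext (h1.symm.trans h2))
  · intro p
    refine k3e3_ret_adm _ _ _ _ _ fun hv => ?_
    obtain ⟨g1, g2, g3⟩ := k3b_eqh_v1 hX p.1 hv
    exact ⟨(hP.v1 hv _).1, g2, g3, g1⟩
  · intro p
    have hq : 0 < kbQ X.n₁ := by
      unfold kbQ
      positivity
    obtain ⟨q, -, -⟩ := Finset.mem_image.1 p.2
    have hK0 : 0 ≤ K := (Nat.cast_nonneg _).trans (hX.cmp_card q.1)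
    have h18 : (1 : ℝ) ≤ 18 ^ (11 ^ (v.j + 1)) := one_le_pow₀ (by norm_num)
    have hKK : K ≤ Kt := le_trans (by nlinarith) hK
    refine (hX.size p.1.1).trans ?_
    show kbQ X.n₁ * K ≤ kbQ X.n₁ * Kt
    gcongr

/-- **LEAF L-252-S3b-A6d** (polynomial bounds).  `card L = Z.lab.card ≤ card Y.C * card netF * 2` (`Finset.card_image_le`, `Finset.card_product`, `k3b_netF_card`: `5/ρ = 60 A`); `q_low`: `kbQ Y.n ≤ kbQ X.n₁`; `J_low`, `cen` from `hX`. -/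
theorem k3b_tab_tmp (hX : X.Ok K A₀ A₂ r Z.ρ Z.δ Q) (hZ : Z.Num A₀ r) (ts : P.W → ℕ → ℝ) (Kt U U3 : ℝ) (m : ℕ) (Q₀ Q' : ℝ) (hT : Y.Tmp Q₀) (h1 : Q ≤ Q') (h2 : Q₀ ≤ Q')
    (h3 : 2 * Q₀ * (60 * Z.A) ^ (v.j + 1) ≤ Q') : (Z.tab ts Kt U U3 m).sys0.Tmp Q' := by
  classical
  have hA32 : 32 ≤ Z.A := by
    have := hZ.A_ge
    have := hZ.A0_ge
    nlinarith
  have hA0 : 0 < Z.A := by linarith
  have hρ0 : 0 < Z.ρ := by rw [hZ.ρ_eq]; positivity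
  have hρ1 : Z.ρ ≤ 1 := by
    rw [hZ.ρ_eq, div_le_one (by positivity)]
    linarith
  have hQ0 : 0 < Q₀ := by
    have h := hT.q_low
    have hq := k2s_q_pos Y
    by_contra hcon
    have : Q₀ * Y.q ≤ 0 := mul_nonpos_of_nonpos_of_nonneg (not_lt.1 hcon) hq.le
    linarith
  refine ⟨?_, ?_, fun p => ?_, fun p => ?_⟩
  · have e1 : Fintype.card (Z.tab ts Kt U U3 m).sys0.C = Z.lab.card := Fintype.card_coe Z.lab
    rw [e1]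
    have e2 : Z.lab.card ≤ Fintype.card Y.C * ((k3bNetF (v.j + 1) Z.ρ).card * 2) := by
      unfold K3bAn.lab
      refine Finset.card_image_le.trans ?_
      rw [Finset.card_product, Finset.card_product, Finset.card_univ]
      gcongr
      exact Finset.card_le_two
    have e3 : (Z.lab.card : ℝ) ≤ (Fintype.card Y.C : ℝ) * (((k3bNetF (v.j + 1) Z.ρ).card : ℝ) * 2) := by
      exact_mod_cast e2
    have e4 := k3b_netF_card (v.j + 1) Z.ρ hρ0 hρ1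
    have e5 : 5 / Z.ρ = 60 * Z.A := by
      rw [hZ.ρ_eq]
      field_simp
      ring
    rw [e5] at e4
    calc (Z.lab.card : ℝ) ≤ (Fintype.card Y.C : ℝ) * (((k3bNetF (v.j + 1) Z.ρ).card : ℝ) * 2) := e3
      _ ≤ Q₀ * ((60 * Z.A) ^ (v.j + 1) * 2) := by
          gcongr
          exact hT.card
      _ = 2 * Q₀ * (60 * Z.A) ^ (v.j + 1) := by ring
      _ ≤ Q' := h3
  · show 1 ≤ Q' * kbQ X.n₁
    have hq : kbQ Y.n ≤ kbQ X.n₁ := by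
      unfold kbQ
      exact pow_le_pow_of_le_one (by norm_num) (by norm_num) hX.n_le
    have hq0 : 0 < kbQ Y.n := by
      unfold kbQ
      positivity
    have hQ' : 0 ≤ Q' := hQ0.le.trans h2
    calc 1 ≤ Q₀ * kbQ Y.n := hT.q_low
      _ ≤ Q' * kbQ X.n₁ := by gcongr
  · show 1 ≤ Q' * |(X.fr p.1.1).M.det|
    refine (hX.J_low p.1.1).trans ?_
    gcongr
  · show ‖(X.fr p.1.1).y0‖ + ‖(X.fr p.1.1).y1‖ ≤ Q'
    exact (hX.cen p.1.1).trans h1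

end std

/-! ## 7. Numerics -/

theorem k3b_mass_chain (K a b : ℝ) (hK : 1 ≤ K) (x g e1 e2 : ℝ≥0∞) (h1 : 1 ≤ ENNReal.ofReal K * x) (h2 : x ≤ g + e1 + e2) (he1 : e1 ≤ ENNReal.ofReal a) (he2 : e2 ≤ ENNReal.ofReal b)
    (ha : 4 * K * a ≤ 1) (hb : 4 * K * b ≤ 1) : 1 ≤ ENNReal.ofReal (2 * K) * g := by
  have hK0 : 0 < K := by linarith
  rcases eq_or_ne g ⊤ with rfl | hg
  · rw [ENNReal.mul_top (by
      rw [Ne, ENNReal.ofReal_eq_zero, not_le]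
      linarith)]
    exact le_top
  have e1' : ENNReal.ofReal K * e1 ≤ ENNReal.ofReal (1 / 4) := by
    calc ENNReal.ofReal K * e1 ≤ ENNReal.ofReal K * ENNReal.ofReal a := by gcongr
      _ = ENNReal.ofReal (K * a) := (ENNReal.ofReal_mul hK0.le).symm
      _ ≤ ENNReal.ofReal (1 / 4) := ENNReal.ofReal_le_ofReal (by linarith)
  have e2' : ENNReal.ofReal K * e2 ≤ ENNReal.ofReal (1 / 4) := by
    calc ENNReal.ofReal K * e2 ≤ ENNReal.ofReal K * ENNReal.ofReal b := by gcongr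
      _ = ENNReal.ofReal (K * b) := (ENNReal.ofReal_mul hK0.le).symm
      _ ≤ ENNReal.ofReal (1 / 4) := ENNReal.ofReal_le_ofReal (by linarith)
  have h3 : 1 ≤ ENNReal.ofReal K * g + ENNReal.ofReal (1 / 4) + ENNReal.ofReal (1 / 4) :=
    calc 1 ≤ ENNReal.ofReal K * x := h1
      _ ≤ ENNReal.ofReal K * (g + e1 + e2) := by gcongr
      _ = ENNReal.ofReal K * g + ENNReal.ofReal K * e1 + ENNReal.ofReal K * e2 := by ring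
      _ ≤ ENNReal.ofReal K * g + ENNReal.ofReal (1 / 4) + ENNReal.ofReal (1 / 4) := by gcongr
  have hg' : g = ENNReal.ofReal g.toReal := (ENNReal.ofReal_toReal hg).symm
  have hg0 : 0 ≤ g.toReal := ENNReal.toReal_nonneg
  rw [hg'] at h3 ⊢
  rw [← ENNReal.ofReal_mul hK0.le, ← ENNReal.ofReal_add (by positivity) (by norm_num), ← ENNReal.ofReal_add (by positivity) (by norm_num),
    ← ENNReal.ofReal_one, ENNReal.ofReal_le_ofReal_iff (by positivity)] at h3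
  rw [← ENNReal.ofReal_mul (by positivity), ← ENNReal.ofReal_one, ENNReal.ofReal_le_ofReal_iff (by positivity)]
  linarith

theorem k3b_num_le (c p C K : ℝ) (hc0 : 0 ≤ c) (hc : c ≤ C) (hp : p ≤ C) (hK : 1 ≤ K) : c * K ^ p ≤ C * K ^ C := by
  have h1 : K ^ p ≤ K ^ C := Real.rpow_le_rpow_of_exponent_le hK hp
  have h0 : 0 ≤ K ^ p := by positivity
  have h2 : 0 ≤ K ^ C := by positivity
  nlinarith

theorem k3b_num_E (E c p q : ℝ) (hE : 1 ≤ E) (hc : c ≤ E) (hq : p + 1 ≤ q) : c * E ^ p ≤ E ^ q := by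
  have hE0 : 0 < E := by linarith
  calc c * E ^ p ≤ E * E ^ p := by gcongr
    _ = E ^ (p + 1) := by rw [Real.rpow_add hE0, Real.rpow_one]; ring
    _ ≤ E ^ q := Real.rpow_le_rpow_of_exponent_le hE hq

/-! ## 8. The theorem -/

/-- the core: from the exit of part 1 with good numbers to the table -/
theorem k3b_asm_core (v : KbVer) : ∃ Can Cpl Cex Cd : ℝ, 1 ≤ Can ∧ 1 ≤ Cpl ∧ 1 ≤ Cex ∧ 1 ≤ Cd ∧
    ∀ (P : KbPb v) (Y : KbSys P) (X : K3bCmp Y) (K A₀ A₂ Q T A δ U U3 : ℝ) (m : ℕ), P.WF → Y.WF → X.Ok K A₀ A₂ (1 / (8 * A)) (1 / (12 * A)) δ Q → 1 ≤ K → 2 ≤ A₀ → 1 ≤ A₂ → 1 ≤ T → 0 < δ →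
    Can * (A₀ * T) ^ Can ≤ A → 8 * A₀ ^ 2 ≤ A → Cex * (40 * A) ^ Cex * (2 * (Cpl * (40 * A) ^ Cpl * A₂ ^ 2)) ^ 2 ≤ U → 1 ≤ U3 → 4 * U3 ≤ 2 ^ m → U < 2 ^ m →
    4 * K * (Can / T) ≤ 1 → 4 * K * (Cd * A₀ * (A / U3) ^ (1 / (2 * ((v.j : ℝ) + 1)))) ≤ 1 →
    ∃ W : K3e3Tab Y, W.Ok ∧ W.K = 2 * K * 18 ^ (11 ^ (v.j + 1)) ∧ W.U = U ∧ W.U3 = U3 ∧ W.m = m ∧ W.δ = δ ∧ W.n1 = X.n₁ ∧
      ∀ Q₀ Q' : ℝ, Y.Tmp Q₀ → Q ≤ Q' → Q₀ ≤ Q' → 2 * Q₀ * (60 * A) ^ (v.j + 1) ≤ Q' → W.sys0.Tmp Q' := by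
  obtain ⟨Can, hCan, Han⟩ := k3b_asm_anchor v
  obtain ⟨Cpl, hCpl, Hpl⟩ := k3b_pt_list v
  obtain ⟨Cex, hCex, Hex⟩ := k3b_pt_fit v
  obtain ⟨Cd, hCd, Hd⟩ := k3b_asm_disc v
  refine ⟨Can, Cpl, Cex, Cd, hCan, hCpl, hCex, hCd, ?_⟩
  intro P Y X K A₀ A₂ Q T A δ U U3 m hP hY hX hK hA₀ hA₂ hT hδ hA1 hA2 hU hU3 hm3 hmU hM2 hM3
  have hA32 : 32 ≤ A := by nlinarith
  have hA0 : 0 < A := by linarith
  obtain ⟨h, hh⟩ : ∃ h : ℝ, h = δ * (Cpl * (40 * A) ^ Cpl * A₂ ^ 2) := ⟨_, rfl⟩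
  have hX40 : (1 : ℝ) ≤ (40 * A) ^ Cpl := Real.one_le_rpow (by linarith) (by linarith)
  have hΛ0 : 1 ≤ Cpl * (40 * A) ^ Cpl * A₂ ^ 2 := one_le_mul_of_one_le_of_one_le (one_le_mul_of_one_le_of_one_le hCpl hX40) (one_le_pow₀ hA₂)
  have hh0 : 0 < h := by rw [hh]; positivity
  have hρ6 : 6 * A₀ ^ 2 * (1 / (12 * A)) ≤ 1 := by
    rw [mul_one_div, div_le_one (by positivity)]
    nlinarith
  obtain ⟨an, han1, han2, hM2'⟩ := Han P Y X K A₀ A₂ (1 / (8 * A)) Q T A (1 / (12 * A)) (1 / (40 * A)) (1 / (40 * A)) h δ hP hY hX (by linarith) hT hA1 (by positivity) hρ6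
  obtain ⟨Z, hZd⟩ : ∃ Z : K3bAn X, Z = ⟨A, 1 / (12 * A), 1 / (40 * A), 1 / (40 * A), h, δ, an⟩ := ⟨_, rfl⟩
  rw [← hZd] at hM2'
  have eA : Z.A = A := by rw [hZd]
  have eρ : Z.ρ = 1 / (12 * A) := by rw [hZd]
  have ehs : Z.hs = 1 / (40 * A) := by rw [hZd]
  have ehn : Z.hn = 1 / (40 * A) := by rw [hZd]
  have eh : Z.h = h := by rw [hZd]
  have eδ : Z.δ = δ := by rw [hZd]
  have ean : Z.an = an := by rw [hZd]
  have hX' : X.Ok K A₀ A₂ (1 / (8 * A)) Z.ρ Z.δ Q := by rw [eρ, eδ]; exact hX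
  have hZ : Z.Num A₀ (1 / (8 * A)) :=
    ⟨hA₀, by rw [eA]; exact hA2, by rw [eA]; exact eρ, by rw [eA]; exact ehs, by rw [eA]; exact ehn, by rw [eA], by rw [eδ]; exact hδ, by rw [eh]; exact hh0, by rw [ean]; exact han1, by rw [ean]; exact han2⟩
  have e40 : 1 / (1 / (40 * A)) = 40 * A := by rw [one_div_one_div]
  -- one pair
  have hlist := Hpl P Y X Z K A₀ A₂ (1 / (8 * A)) Q hY hX' hZ hA₂ (by rw [eδ, ehs, eh, e40, hh])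
  have hfit0 := Hex P Y X Z K A₀ A₂ (1 / (8 * A)) Q (2 * (Cpl * (40 * A) ^ Cpl * A₂ ^ 2)) hY hX' hZ (by linarith) (by rw [eh, eδ, hh]; exact le_of_eq (by ring))
  rw [ehn, e40, eδ] at hfit0
  have hΛ2 : 1 ≤ 2 * (Cpl * (40 * A) ^ Cpl * A₂ ^ 2) := by linarith
  have hΛ1 : 2 * (Cpl * (40 * A) ^ Cpl * A₂ ^ 2) ≤ (2 * (Cpl * (40 * A) ^ Cpl * A₂ ^ 2)) ^ 2 := by
    exact le_self_pow₀ hΛ2 (by norm_num)
  have hCX1 : 1 ≤ Cex * (40 * A) ^ Cex := one_le_mul_of_one_le_of_one_le hCex (Real.one_le_rpow (by linarith) (by linarith))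
  have hCX : 0 ≤ Cex * (40 * A) ^ Cex := by linarith
  have hU1 : 1 ≤ U := le_trans (one_le_mul_of_one_le_of_one_le hCX1 (hΛ2.trans hΛ1)) hU
  have hfit : ∀ (c c' : Y.C) (x : P.Lam × ℝ × ℝ), x ∈ X.Gd c c' ∩ Z.Sf c c' → ∀ τ ∈ Set.Icc (0 : ℝ) 1,
      |(Z.eqh (Z.lb c x.1 x.2.1)).evR (X.zl (X.of c) x.1 (X.tm (X.of c) τ)) (X.om (X.of c) x.1 (X.tm (X.of c) τ))| ≤ U * Z.δ ∧
      |(Z.eqh (Z.lb c x.1 x.2.1)).dwR (X.zl (X.of c) x.1 (X.tm (X.of c) τ)) (X.om (X.of c) x.1 (X.tm (X.of c) τ))| ≤ U := by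
    intro c c' x hx τ hτ
    obtain ⟨f1, f2⟩ := hfit0 c c' x hx τ hτ
    constructor
    · rw [eδ, mul_comm]
      exact f1.trans (mul_le_mul_of_nonneg_left hU hδ.le)
    · exact f2.trans ((mul_le_mul_of_nonneg_left hΛ1 hCX).trans hU)
  -- masses
  have hM3' := Hd P Y X Z K A₀ A₂ (1 / (8 * A)) Q U3 hP hY hX' hZ (by linarith)
  rw [eA] at hM3'
  have hGm : ∀ c c', MeasurableSet (Z.Go U3 c c') := fun c c' => ((hX.Gd_meas c c').inter (k3b_Sf_meas Z hP c c')).inter (k3b_Dl_meas Z hP U3 c)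
  have hGs : ∀ c c', Z.Go U3 c c' ⊆ Y.k3bPr c c' := fun c c' x hx => hX.Gd_sub c c' hx.1.1
  have hGc : ∀ c c', (Z.Go U3 c c').Nonempty → Y.wd c = Y.wd c' ∧ Y.k3bBk X.n₁ c = Y.k3bBk X.n₁ c' := by
    rintro c c' ⟨x, hx⟩
    have := hX.Gd_ctx c c' ⟨x, hx.1.1⟩
    exact ⟨this.1, this.2.1⟩
  obtain ⟨ts, hts, hfr⟩ := k3b_asm_freeze hP hY X.n₁ hX.n_le (Z.Go U3) hGm hGs hGc
  have hsplit : Y.k3bPM X.n₁ X.Gd ≤ Y.k3bPM X.n₁ (Z.Go U3) + Y.k3bPM X.n₁ (fun c c' => X.Gd c c' \ Z.Sf c c') + Y.k3bPM X.n₁ (fun c c' => (X.Gd c c' ∩ Z.Sf c c') \ Z.Dl U3 c) := by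
    refine le_trans (k3b_PM_mono X.n₁ _ (fun c c' => (Z.Go U3 c c' ∪ X.Gd c c' \ Z.Sf c c') ∪ (X.Gd c c' ∩ Z.Sf c c') \ Z.Dl U3 c) ?_) ?_
    · intro c c' x hx
      by_cases h1 : x ∈ Z.Sf c c'
      · by_cases h2 : x ∈ Z.Dl U3 c
        · exact Or.inl (Or.inl ⟨⟨hx, h1⟩, h2⟩)
        · exact Or.inr ⟨⟨hx, h1⟩, h2⟩
      · exact Or.inl (Or.inr ⟨hx, h1⟩)
    · refine (k3b_PM_union X.n₁ _ _).trans ?_
      gcongr
      exact k3b_PM_union X.n₁ _ _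
  have hbig := k3b_mass_chain K _ _ hK _ _ _ _ hX.big hsplit hM2' hM3' hM2 hM3
  obtain ⟨Kt, hKt⟩ : ∃ Kt : ℝ, Kt = 2 * K * 18 ^ (11 ^ (v.j + 1)) := ⟨_, rfl⟩
  have h18 : (1 : ℝ) ≤ 18 ^ (11 ^ (v.j + 1)) := one_le_pow₀ (by norm_num)
  have hKt2 : 2 * K ≤ Kt := by rw [hKt]; nlinarith
  have hKt1 : 1 ≤ Kt := by linarith
  have hsl := k3b_pt_sl hP hY hX' hZ ts Kt U U3 m hKt1 (by linarith) hlist hfit
  have hmass : 1 ≤ ENNReal.ofReal Kt * (Z.tab ts Kt U U3 m).sys0.mass := by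
    refine hbig.trans ?_
    gcongr
    exact hfr.trans (k3e3_mass_of_suc _ _ hsl)
  refine ⟨Z.tab ts Kt U U3 m, k3b_tab_ok hP hY hX' hZ ts Kt U U3 m hKt1 hU1 hU3 hm3 hmU hts (by rw [hKt]; nlinarith) hmass, hKt, rfl, rfl, rfl, eδ, rfl, ?_⟩
  intro Q₀ Q' hT h1 h2 h3
  exact k3b_tab_tmp hX' hZ ts Kt U U3 m Q₀ Q' hT h1 h2 (by rw [eA]; exact h3)

end

end Claimed.Agent.R252
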