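import Claimed.Agent.R252.S3b.Cmp
import Claimed.Agent.R252.S3e2.Contract
import Claimed.Agent.R252.S3e3.Contract

/-!
# ROW 252 (S0492), unit S3b (L3.5), file 7: THE ASSEMBLY: DEFINITIONS      (architect helper70)   -- KEEP
No sorry.   From the exit of part 1 (`X : K3bCmp Y`, `S3b/Cmp.lean`) to the frozen table of part 3 (`K3e3Tab Y`, `S3e3/Defs.lean`) through part 2 (`S3e2`).
* `K3bAn X`          numbers (`A` geometric late slack, `ρ` net, `hs` source grid, `hn` anchor grid, `h` bin spacing, `δ`) and the FROZEN ANCHORS `an φ = (a, σ)` (real anchor, complex detour), one per frame.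
* `Z.br c u s`       the continued source branch: THE root function of `eq c (of c)` on the tube from the net point `u` to the anchor which starts at the real sheet of sign `s` (`Classical.choose`; `0` if there is none).
* `Z.tup c u s`      its tuple of bins at the anchor nodes: for frozen anchors a TABLE indexed by the discrete source index `(c, u, s)`.
* `Z.un, X.sn, Z.lb` net point, sign, preliminary label `(frame, tuple)` of a trajectory at a time.
* `Z.lab`            the finite set of labels;   `Z.eqh p` the representative equation (any eligible equation; `ω` itself if there is none);   `Z.chh p` its chart.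
* `Z.tab ts K U U3 m` THE TABLE.
* events: `Z.Sf c c'` (path safe for the source, witness discriminant bounded below at the anchor), `Z.Dl U3 c` ((3.24)), `Z.Go U3 c c'` (successes);   `k3bSuc` frozen successes.
-/

set_option autoImplicit false

namespace Claimed.Agent.R252

open MeasureTheory
open scoped ENNReal BigOperators

noncomputable section

variable {v : KbVer} {P : KbPb v} {Y : KbSys P}

/-- tuples of bins at the anchor nodes -/
abbrev K3bTp (n : ℕ) := (Fin n → Fin 11) → ℤ × ℤ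

open Classical in
/-- the points of the net `ρ ℤ^n` in the unit cube (and a few more) -/
def k3bNetF (n : ℕ) (ρ : ℝ) : Finset (Fin n → ℝ) :=
  (Fintype.piFinset fun _ : Fin n => Finset.Icc (-⌈1 / ρ⌉) ⌈1 / ρ⌉).image fun k i => ρ * ((k i : ℤ) : ℝ)

/-- a frame as a chart -/
def K3bFrm.ch (F : K3bFrm v) (T : KbTest v) : KbChart v := ⟨F.y0, F.y1, F.M, F.Mi, T⟩

/-- the trivial equation `ω = 0` -/
def k3bEq0 (n : ℕ) : K3bEq n := ⟨⟨0, fun _ => 0, fun _ _ => 0⟩, 1, fun _ => 0, 0⟩

/-- the sign of the derivative of the equation of `c` along a trajectory -/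
def K3bCmp.sn (X : K3bCmp Y) (c : Y.C) (l : P.Lam) (t : ℝ) : ℝ := k3bSg ((X.eq c (X.of c)).dwR (X.zl (X.of c) l t) (X.om (X.of c) l t))

/-- **numbers and frozen anchors** -/
structure K3bAn (X : K3bCmp Y) where
  /-- geometric late slack (safety constant) -/
  A : ℝ
  /-- spacing of the net -/
  ρ : ℝ
  /-- spacing of the source grid -/
  hs : ℝ
  /-- spacing of the anchor grid -/
  hn : ℝ
  /-- spacing of the bins -/
  h : ℝ
  /-- old thickness -/
  δ : ℝ
  /-- anchors and detours -/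
  an : X.Φ → (Fin (v.j + 1) → ℝ) × ℂ

namespace K3bAn

variable {X : K3bCmp Y} (Z : K3bAn X)

/-- the anchor of a frame -/
def al (φ : X.Φ) : Fin (v.j + 1) → ℂ := k3bC (Z.an φ).1

/-- the detour of a frame -/
def sg (φ : X.Φ) : ℂ := (Z.an φ).2

/-- the tube from the net point `u` to the anchor of `φ` -/
def tube (φ : X.Φ) (u : Fin (v.j + 1) → ℝ) : Set (Fin (v.j + 1) → ℂ) := k3bTubeN (k3bC u) (Z.al φ) (Z.sg φ) (1 / Z.A)

open Classical in
/-- the continued source branch of the index `(c, u, s)` -/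
def br (c : Y.C) (u : Fin (v.j + 1) → ℝ) (s : ℝ) : (Fin (v.j + 1) → ℂ) → ℂ :=
  if h : ∃ f, K3e2Root (X.eq c (X.of c)) (Z.tube (X.of c) u) f ∧ f (k3bC u) = (((⟨X.eq c (X.of c), s⟩ : K3bSh (v.j + 1)).f u : ℝ) : ℂ) then h.choose else fun _ => 0

/-- the tuple of bins of the index `(c, u, s)` -/
def tup (c : Y.C) (u : Fin (v.j + 1) → ℝ) (s : ℝ) : K3bTp (v.j + 1) := k3e2Tup (Z.al (X.of c)) Z.hn Z.h (Z.br c u s)

/-- the net point of a trajectory at a time, in the frame of `c` -/
def un (c : Y.C) (l : P.Lam) (t : ℝ) : Fin (v.j + 1) → ℝ := k3bNet Z.ρ (X.zl (X.of c) l t)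

/-- the preliminary label -/
def lb (c : Y.C) (l : P.Lam) (t : ℝ) : X.Φ × K3bTp (v.j + 1) := (X.of c, Z.tup c (Z.un c l t) (X.sn c l t))

open Classical in
/-- the finite set of preliminary labels -/
def lab : Finset (X.Φ × K3bTp (v.j + 1)) :=
  ((Finset.univ : Finset Y.C) ×ˢ (k3bNetF (v.j + 1) Z.ρ ×ˢ ({1, -1} : Finset ℝ))).image fun q => (X.of q.1, Z.tup q.1 q.2.1 q.2.2)

/-- eligibility of the old label `c` as representative of `p` -/
def El (p : X.Φ × K3bTp (v.j + 1)) (c : Y.C) : Prop := X.of c = p.1 ∧ K3e2Elig (X.eq c p.1) (Z.al p.1) Z.hn Z.h Z.A Z.δ p.2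

open Classical in
/-- the representative equation -/
def eqh (p : X.Φ × K3bTp (v.j + 1)) : K3bEq (v.j + 1) := if h : ∃ c, Z.El p c then X.eq h.choose p.1 else k3bEq0 (v.j + 1)

/-- the chart of a preliminary label: the frame and the representative equation in the original coordinates -/
def chh (p : X.Φ × K3bTp (v.j + 1)) : KbChart v :=
  (X.fr p.1).ch (k3e3Ret (Z.eqh p) ((X.fr p.1).ch fun _ _ w => w) ((X.iv p.1 : ℝ) * kbQ X.n₁) (kbQ X.n₁) (P.B (X.wd p.1)))

open Classical in
/-- **the frozen table** -/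
def tab (ts : P.W → ℕ → ℝ) (K U U3 : ℝ) (m : ℕ) : K3e3Tab Y where
  K := K
  U := U
  U3 := U3
  δ := Z.δ
  m := m
  n1 := X.n₁
  L := {p // p ∈ Z.lab}
  fL := inferInstance
  wd := fun p => X.wd p.1.1
  iv := fun p => X.iv p.1.1
  ts := ts
  G := fun c p => {l | (l, ts (Y.wd c) (Y.k3bBk X.n₁ c)) ∈ Y.S c ∧ Z.lb c l (ts (Y.wd c) (Y.k3bBk X.n₁ c)) = p.1}
  ch := fun p => Z.chh p.1
  cmp := fun c' => Finset.univ.filter fun p =>
    p.1.1 ∈ X.cmp c' ∧ K3e2Low (X.eq c' p.1.1).dsc (Z.al p.1.1) Z.A ∧ p.1.2 ∈ k3e2List (X.eq c' p.1.1) (Z.al p.1.1) Z.hn Z.h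

/-- the path of the pair is safe for the source, and the witness discriminant is bounded below near the anchor -/
def Sf (c c' : Y.C) : Set (P.Lam × ℝ × ℝ) :=
  {x | K3bSafe (X.eq c (X.of c)).dsc (k3bC (Z.un c x.1 x.2.1)) (Z.al (X.of c)) (Z.sg (X.of c)) Z.A ∧ K3e2Low (X.eq c' (X.of c)).dsc (Z.al (X.of c)) Z.A}

/-- (3.24): the discriminant of the representative is bounded below at the source -/
def Dl (U3 : ℝ) (c : Y.C) : Set (P.Lam × ℝ × ℝ) := {x | 1 / U3 ≤ |(Z.eqh (Z.lb c x.1 x.2.1)).dsc.evR (X.z0 c x)|}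

/-- the successes -/
def Go (U3 : ℝ) (c c' : Y.C) : Set (P.Lam × ℝ × ℝ) := (X.Gd c c' ∩ Z.Sf c c') ∩ Z.Dl U3 c

end K3bAn

/-- the frozen successes of a family of pair events -/
def k3bSuc (Y : KbSys P) (n₁ : ℕ) (Go : Y.C → Y.C → Set (P.Lam × ℝ × ℝ)) (ts : P.W → ℕ → ℝ) : P.W → Set (P.Lam × ℝ) :=
  fun γ => {x | ∃ c c', Y.wd c = γ ∧ (x.1, ts γ (Y.k3bBk n₁ c), x.2) ∈ Go c c'}

end

end Claimed.Agent.R252
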