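import Claimed.Agent.R252.S3b.AsmDefs

/-!
# ROW 252 (S0492), unit S3b (L3.5), file 8: THE ASSEMBLY: KITS (real sheets, nets, frames)      CONTRACT (architect helper70)   -- KEEP
PAPER-FREE.  The `sorry`s are the leaves `L-252-S3b-K*`.  Prove IN PLACE, statement verbatim, helpers (prefix `k3b_`) directly above.  Definitions: `S3b/Defs.lean`, `S3b/Sh.lean`, `S3b/Cmp.lean`, `S3b/AsmDefs.lean`, `S3e2/Alg.lean`, `S3e3/Defs.lean`.
-/

set_option autoImplicit false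

namespace Claimed.Agent.R252

open MeasureTheory
open scoped ENNReal BigOperators

noncomputable section

variable {n : ℕ} {v : KbVer}

/-! ## 1. Real sheets -/

theorem k3b_sg (x : ℝ) : k3bSg x = 1 ∨ k3bSg x = -1 := by
  unfold k3bSg
  split_ifs
  · exact Or.inl rfl
  · exact Or.inr rfl

/-- **LEAF L-252-S3b-K1a.**  `unfold`, `Finset.sum` algebra as in `K3bEq.dsc_ev` (or `k3e3_dsc_evR P x 0` and `simp [K3bEq.dwR, K3bEq.evR, K3bEq.p1R]`). -/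
theorem k3b_dsc_p1R (P : K3bEq n) (x : Fin n → ℝ) : P.dsc.evR x = P.p1R x ^ 2 - 2 * P.c * P.p0.evR x := by
  rw [k3e3_dsc_evR P x 0]
  show (P.a0 + ∑ i, P.a1 i * x i + P.c * 0) ^ 2
      - 2 * P.c * (P.p0.evR x + (P.a0 + ∑ i, P.a1 i * x i) * 0 + P.c / 2 * 0 ^ 2)
    = (P.a0 + ∑ i, P.a1 i * x i) ^ 2 - 2 * P.c * P.p0.evR x
  ring

/-- the value of an equation by `p0`, `p1R`, `c` -/
theorem k3b_evR_p1R (P : K3bEq n) (x : Fin n → ℝ) (w : ℝ) : P.evR x w = P.p0.evR x + P.p1R x * w + P.c / 2 * w ^ 2 := rfl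

/-- the derivative of an equation by `p1R`, `c` -/
theorem k3b_dwR_p1R (P : K3bEq n) (x : Fin n → ℝ) (w : ℝ) : P.dwR x w = P.p1R x + P.c * w := rfl

/-- the sheet, case `c = 0` -/
theorem k3b_sh_f_zero (F : K3bSh n) (x : Fin n → ℝ) (hc : F.P.c = 0) : F.f x = - F.P.p0.evR x / F.P.p1R x := by
  show (if F.P.c = 0 then - F.P.p0.evR x / F.P.p1R x else (F.s * Real.sqrt (F.P.dsc.evR x) - F.P.p1R x) / F.P.c) = _
  rw [if_pos hc]

/-- the sheet, case `c ≠ 0` -/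
theorem k3b_sh_f_ne (F : K3bSh n) (x : Fin n → ℝ) (hc : F.P.c ≠ 0) : F.f x = (F.s * Real.sqrt (F.P.dsc.evR x) - F.P.p1R x) / F.P.c := by
  show (if F.P.c = 0 then - F.P.p0.evR x / F.P.p1R x else (F.s * Real.sqrt (F.P.dsc.evR x) - F.P.p1R x) / F.P.c) = _
  rw [if_neg hc]

/-- **LEAF L-252-S3b-K1b** (the sheet is a root).  `c ≠ 0`: `w = (s √D - p1)/c`, `P = p0 + (D - p1²)/(2c) = 0` (`Real.sq_sqrt`, `s² = 1`).   `c = 0`: `D = p1² > 0`, `p1 ≠ 0`, `w = - p0/p1`. -/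
theorem k3b_sh_root (F : K3bSh n) (hs : F.s = 1 ∨ F.s = -1) (x : Fin n → ℝ) (hD : 0 < F.P.dsc.evR x) : F.P.evR x (F.f x) = 0 := by
  have hd := k3b_dsc_p1R F.P x
  rw [k3b_evR_p1R]
  by_cases hc : F.P.c = 0
  · rw [k3b_sh_f_zero F x hc, hc]
    rw [hc] at hd
    have hp : F.P.p1R x ≠ 0 := by
      intro h0
      rw [hd, h0] at hD
      norm_num at hD
    field_simp
    ring
  · rw [k3b_sh_f_ne F x hc]
    have hsq : Real.sqrt (F.P.dsc.evR x) ^ 2 = F.P.dsc.evR x := Real.sq_sqrt hD.le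
    have hs2 : F.s ^ 2 = 1 := by rcases hs with h | h <;> rw [h] <;> norm_num
    obtain ⟨r, hr⟩ : ∃ r, r = Real.sqrt (F.P.dsc.evR x) := ⟨_, rfl⟩
    rw [← hr] at hsq ⊢
    field_simp
    have e : (F.s * r) ^ 2 = F.P.p1R x ^ 2 - 2 * F.P.c * F.P.p0.evR x := by
      rw [mul_pow, hs2, hsq, hd, one_mul]
    nlinarith [e]

theorem k3b_sg_mul (x : ℝ) : k3bSg x * x = |x| := by
  show (if 0 ≤ x then (1 : ℝ) else -1) * x = |x|
  split_ifs with h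
  · rw [one_mul, abs_of_nonneg h]
  · rw [abs_of_neg (not_le.1 h)]; ring

theorem k3b_sg_abs (x : ℝ) : |k3bSg x| = 1 := by
  show |if 0 ≤ x then (1 : ℝ) else -1| = 1
  split_ifs <;> simp

theorem k3b_sg_sq (x : ℝ) : k3bSg x * k3bSg x = 1 := by
  show (if 0 ≤ x then (1 : ℝ) else -1) * (if 0 ≤ x then (1 : ℝ) else -1) = 1
  split_ifs <;> norm_num

/-- **LEAF L-252-S3b-K1c** ((3.8), the nearest root).  `u = P_w (x, w)`, `D = u² - 2 c P ≥ b²/2` (`k3e3_dsc_evR`).   `c ≠ 0`: `w - f = (u - s √D)/c`, `s = sign u`, `u - s √D = s (u² - D)/(|u| + √D) = s 2 c P/(|u| + √D)`.   `c = 0`: `w - f = P/p1`, `u = p1`. -/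
theorem k3b_sh_near (P : K3bEq n) (x : Fin n → ℝ) (w b ε : ℝ) (hb : 0 < b) (hd : b ≤ |P.dwR x w|) (hv : |P.evR x w| ≤ ε) (hc : 4 * |P.c| * ε ≤ b ^ 2) :
    b ^ 2 / 2 ≤ P.dsc.evR x ∧ |w - (⟨P, k3bSg (P.dwR x w)⟩ : K3bSh n).f x| ≤ 2 * ε / b := by
  have hdsc := k3e3_dsc_evR P x w
  have hε : 0 ≤ ε := (abs_nonneg _).trans hv
  have hu2 : b ^ 2 ≤ P.dwR x w ^ 2 := by
    rw [← sq_abs (P.dwR x w)]
    exact pow_le_pow_left₀ hb.le hd 2
  have hcP : |P.c * P.evR x w| ≤ |P.c| * ε := by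
    rw [abs_mul]; exact mul_le_mul_of_nonneg_left hv (abs_nonneg _)
  have hD : b ^ 2 / 2 ≤ P.dsc.evR x := by
    rw [hdsc]
    have := (abs_le.1 hcP).2
    nlinarith
  refine ⟨hD, ?_⟩
  have hD0 : 0 < P.dsc.evR x := lt_of_lt_of_le (by positivity) hD
  by_cases hc0 : P.c = 0
  · rw [k3b_sh_f_zero _ x hc0]
    show |w - -P.p0.evR x / P.p1R x| ≤ 2 * ε / b
    have hu : P.dwR x w = P.p1R x := by rw [k3b_dwR_p1R, hc0]; ring
    rw [hu] at hd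
    have hp : P.p1R x ≠ 0 := by
      intro h0; rw [h0, abs_zero] at hd; linarith
    have e : w - -P.p0.evR x / P.p1R x = P.evR x w / P.p1R x := by
      rw [k3b_evR_p1R, hc0]; field_simp; ring
    rw [e, abs_div, div_le_div_iff₀ (abs_pos.2 hp) hb]
    nlinarith [abs_nonneg (P.evR x w), abs_nonneg (P.p1R x)]
  · rw [k3b_sh_f_ne _ x hc0]
    show |w - (k3bSg (P.dwR x w) * Real.sqrt (P.dsc.evR x) - P.p1R x) / P.c| ≤ 2 * ε / b
    obtain ⟨u, hu⟩ : ∃ u, u = P.dwR x w := ⟨_, rfl⟩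
    obtain ⟨r, hr⟩ : ∃ r, r = Real.sqrt (P.dsc.evR x) := ⟨_, rfl⟩
    have hr0 : 0 ≤ r := by rw [hr]; exact Real.sqrt_nonneg _
    have hr2 : r ^ 2 = u ^ 2 - 2 * P.c * P.evR x w := by
      rw [hr, Real.sq_sqrt hD0.le, hdsc, hu]
    rw [← hu] at hd
    rw [← hu, ← hr]
    have hden : 0 < |u| + r := by linarith
    have e : w - (k3bSg u * r - P.p1R x) / P.c = k3bSg u * (2 * P.evR x w / (|u| + r)) := by
      have h1 : P.p1R x = u - P.c * w := by rw [hu, k3b_dwR_p1R]; ring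
      have h2 : u = k3bSg u * |u| := by
        rw [← k3b_sg_mul u, ← mul_assoc, k3b_sg_sq, one_mul]
      have h3 : |u| ^ 2 = u ^ 2 := sq_abs u
      rw [h1]
      field_simp
      have h4 : (|u| - r) * (|u| + r) = 2 * P.c * P.evR x w := by nlinarith
      calc (w * P.c - (k3bSg u * r - (u - w * P.c))) * (|u| + r)
          = (u - k3bSg u * r) * (|u| + r) := by ring
        _ = (k3bSg u * |u| - k3bSg u * r) * (|u| + r) := by rw [← h2]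
        _ = k3bSg u * ((|u| - r) * (|u| + r)) := by ring
        _ = k3bSg u * (2 * P.c * P.evR x w) := by rw [h4]
        _ = _ := by ring
    rw [e, abs_mul, k3b_sg_abs, one_mul, abs_div, abs_of_pos hden, abs_mul, abs_two,
      div_le_div_iff₀ hden hb]
    nlinarith [abs_nonneg (P.evR x w)]

theorem k3b_qd_contR (D : K3bQd n) : Continuous D.evR := by
  unfold K3bQd.evR
  fun_prop

theorem k3b_p1R_cont (P : K3bEq n) : Continuous P.p1R := by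
  unfold K3bEq.p1R
  fun_prop

/-- **LEAF L-252-S3b-K1d** (continuity).  `K3bQd.evR`, `K3bEq.p1R` are continuous (`fun_prop` after `unfold`; finite sums of products of coordinates); `Real.continuous_sqrt`; `ContinuousOn.div` with `p1R ≠ 0` where `D = p1² > 0` (case `c = 0`). -/
theorem k3b_sh_cont (F : K3bSh n) : ContinuousOn F.f {x | 0 < F.P.dsc.evR x} := by
  by_cases hc : F.P.c = 0
  · have e : F.f = fun x => - F.P.p0.evR x / F.P.p1R x := by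
      funext x
      unfold K3bSh.f
      rw [if_pos hc]
    rw [e]
    refine ContinuousOn.div (k3b_qd_contR _).neg.continuousOn (k3b_p1R_cont _).continuousOn fun x hx h0 => ?_
    have hx' : 0 < F.P.dsc.evR x := hx
    rw [k3b_dsc_p1R, hc, h0] at hx'
    norm_num at hx'
  · have e : F.f = fun x => (F.s * Real.sqrt (F.P.dsc.evR x) - F.P.p1R x) / F.P.c := by
      funext x
      unfold K3bSh.f
      rw [if_neg hc]
    rw [e]
    exact (((continuous_const.mul (Real.continuous_sqrt.comp (k3b_qd_contR _))).sub (k3b_p1R_cont _)).div_const _).continuousOn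

/-- **LEAF L-252-S3b-K1e** (a discriminant which does not vanish on a real ball keeps its sign).  The closed ball is convex, hence preconnected; `D.evR` is continuous; `k3e2_qd_real`: `D.ev (k3bC y) = D.evR y`, so `D.evR y ≠ 0` on the ball (`h` with `u' = k3bC y - k3bC u`,
`‖k3bC y - k3bC u‖ = ‖y - u‖`); `IsPreconnected.intermediate_value`. -/
theorem k3b_low_pos (D : K3bQd n) (u : Fin n → ℝ) (A : ℝ) (hA : 0 < A) (h : K3e2Low D (k3bC u) A) (y0 : Fin n → ℝ) (hy0 : ‖y0 - u‖ ≤ 1 / A) (hpos : 0 < D.evR y0) :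
    ∀ y : Fin n → ℝ, ‖y - u‖ ≤ 1 / A → 0 < D.evR y := by
  intro y hy
  by_contra hn
  push Not at hn
  have hpre : IsPreconnected (Metric.closedBall u (1 / A)) := (convex_closedBall u (1 / A)).isPreconnected
  have hy0m : y0 ∈ Metric.closedBall u (1 / A) := by rw [mem_closedBall_iff_norm]; exact hy0
  have hym : y ∈ Metric.closedBall u (1 / A) := by rw [mem_closedBall_iff_norm]; exact hy
  obtain ⟨y', hy'm, hy'0⟩ := hpre.intermediate_value hym hy0m (k3b_qd_contR D).continuousOn ⟨hn, hpos.le⟩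
  rw [mem_closedBall_iff_norm] at hy'm
  have h1 := h (k3bC y' - k3bC u) (by rw [k3e2_C_sub_norm]; exact hy'm)
  rw [add_sub_cancel, k3e2_qd_real, hy'0] at h1
  simp only [Complex.ofReal_zero, norm_zero] at h1
  have : 0 < 1 / A := by positivity
  linarith

/-- **LEAF L-252-S3b-K1f** (a continued branch which starts on a real sheet is that sheet on the real ball).  `k3e2_root_unique` on `Ω' = k3bC '' closedBall u ϱ` (image of a convex set under a continuous map: preconnected) for `f` and `g z = (F.f (fun i => (z i).re) : ℂ)`;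
`g` is a continuous root on `Ω'` (`k3b_sh_cont`, `k3b_sh_root`, `k3e2_ev_real`); `dsc ≠ 0` on `Ω'` (`k3e2_qd_real`). -/
theorem k3b_br_real (F : K3bSh n) (hs : F.s = 1 ∨ F.s = -1) (u : Fin n → ℝ) (ϱ : ℝ) (hϱ : 0 ≤ ϱ) (Ω : Set (Fin n → ℂ)) (f : (Fin n → ℂ) → ℂ) (hf : K3e2Root F.P Ω f)
    (hΩ : ∀ y : Fin n → ℝ, ‖y - u‖ ≤ ϱ → k3bC y ∈ Ω) (hD : ∀ y : Fin n → ℝ, ‖y - u‖ ≤ ϱ → 0 < F.P.dsc.evR y) (h0 : f (k3bC u) = ((F.f u : ℝ) : ℂ)) :
    ∀ y : Fin n → ℝ, ‖y - u‖ ≤ ϱ → f (k3bC y) = ((F.f y : ℝ) : ℂ) := by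
  intro y hy
  have hre : ∀ x : Fin n → ℝ, (fun i => (k3bC x i).re) = x := fun x => by
    funext i
    simp [k3bC]
  have hpre : IsPreconnected (k3bC '' Metric.closedBall u ϱ) :=
    (convex_closedBall u ϱ).isPreconnected.image _ k3e2_C_cont.continuousOn
  have hsub : k3bC '' Metric.closedBall u ϱ ⊆ Ω := by
    rintro _ ⟨x, hx, rfl⟩
    exact hΩ x (by rwa [mem_closedBall_iff_norm] at hx)
  have hg : K3e2Root F.P (k3bC '' Metric.closedBall u ϱ) (fun z => ((F.f (fun i => (z i).re) : ℝ) : ℂ)) := by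
    constructor
    · refine Complex.continuous_ofReal.comp_continuousOn ?_
      refine (k3b_sh_cont F).comp (Continuous.continuousOn (by fun_prop)) ?_
      rintro _ ⟨x, hx, rfl⟩
      show 0 < F.P.dsc.evR (fun i => (k3bC x i).re)
      rw [hre]
      exact hD x (by rwa [mem_closedBall_iff_norm] at hx)
    · rintro _ ⟨x, hx, rfl⟩
      beta_reduce
      rw [hre, k3e2_ev_real, k3b_sh_root F hs x (hD x (by rwa [mem_closedBall_iff_norm] at hx))]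
      rfl
  have hne : ∀ z ∈ k3bC '' Metric.closedBall u ϱ, F.P.dsc.ev z ≠ 0 := by
    rintro _ ⟨x, hx, rfl⟩
    rw [k3e2_qd_real]
    exact_mod_cast (hD x (by rwa [mem_closedBall_iff_norm] at hx)).ne'
  have hu : k3bC u ∈ k3bC '' Metric.closedBall u ϱ := ⟨u, Metric.mem_closedBall_self hϱ, rfl⟩
  have key := k3e2_root_unique F.P _ hpre hne f _ (k3e2_root_mono F.P Ω _ hsub f hf) hg (k3bC u) hu (by
    show f (k3bC u) = ((F.f (fun i => (k3bC u i).re) : ℝ) : ℂ)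
    rw [hre, h0])
  have := key (⟨y, by rw [mem_closedBall_iff_norm]; exact hy, rfl⟩ : k3bC y ∈ k3bC '' Metric.closedBall u ϱ)
  rw [this]
  show ((F.f (fun i => (k3bC y i).re) : ℝ) : ℂ) = _
  rw [hre]

/-! ## 2. Nets -/

/-- the integer index of the rounding towards zero -/
def k3bKap (ρ x : ℝ) : ℤ := if 0 ≤ x then ⌊x / ρ⌋ else ⌈x / ρ⌉

theorem k3b_kap_eqns_cite : True := by
  have := @k3bKap.eq_1
  trivial

theorem k3b_net_kap (ρ : ℝ) (x : Fin n → ℝ) (i : Fin n) : k3bNet ρ x i = ρ * (k3bKap ρ (x i) : ℝ) := by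
  unfold k3bNet k3bKap
  split_ifs <;> rfl

theorem k3b_kap_bd (ρ : ℝ) (hρ : 0 < ρ) (x : ℝ) :
    |ρ * (k3bKap ρ x : ℝ)| ≤ |x| ∧ |ρ * (k3bKap ρ x : ℝ) - x| ≤ ρ := by
  unfold k3bKap
  have e : ρ * (x / ρ) = x := by field_simp
  split_ifs with h
  · have h0 : (0 : ℝ) ≤ (⌊x / ρ⌋ : ℝ) := by exact_mod_cast Int.floor_nonneg.2 (div_nonneg h hρ.le)
    have h1 : ρ * (⌊x / ρ⌋ : ℝ) ≤ x := by
      calc ρ * (⌊x / ρ⌋ : ℝ) ≤ ρ * (x / ρ) := mul_le_mul_of_nonneg_left (Int.floor_le _) hρ.le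
        _ = x := e
    have h2 : x < ρ * (⌊x / ρ⌋ : ℝ) + ρ := by
      calc x = ρ * (x / ρ) := e.symm
        _ < ρ * ((⌊x / ρ⌋ : ℝ) + 1) := mul_lt_mul_of_pos_left (Int.lt_floor_add_one _) hρ
        _ = _ := by ring
    have h3 : 0 ≤ ρ * (⌊x / ρ⌋ : ℝ) := mul_nonneg hρ.le h0
    constructor
    · rw [abs_of_nonneg h3, abs_of_nonneg h]; exact h1
    · rw [abs_le]; constructor <;> linarith
  · push Not at h
    have h0 : (⌈x / ρ⌉ : ℝ) ≤ 0 := by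
      have : ⌈x / ρ⌉ ≤ 0 := Int.ceil_le.2 (by simpa using (div_nonpos_of_nonpos_of_nonneg h.le hρ.le))
      exact_mod_cast this
    have h1 : x ≤ ρ * (⌈x / ρ⌉ : ℝ) := by
      calc x = ρ * (x / ρ) := e.symm
        _ ≤ ρ * (⌈x / ρ⌉ : ℝ) := mul_le_mul_of_nonneg_left (Int.le_ceil _) hρ.le
    have h2 : ρ * (⌈x / ρ⌉ : ℝ) < x + ρ := by
      calc ρ * (⌈x / ρ⌉ : ℝ) < ρ * (x / ρ + 1) := mul_lt_mul_of_pos_left (Int.ceil_lt_add_one _) hρ
        _ = x + ρ := by rw [mul_add, e, mul_one]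
    have h3 : ρ * (⌈x / ρ⌉ : ℝ) ≤ 0 := mul_nonpos_of_nonneg_of_nonpos hρ.le h0
    constructor
    · rw [abs_of_nonpos h3, abs_of_neg h]; linarith
    · rw [abs_le]; constructor <;> linarith

theorem k3b_kap_mem (ρ : ℝ) (hρ : 0 < ρ) (x : ℝ) (hx : |x| ≤ 1) : k3bKap ρ x ∈ Finset.Icc (-⌈1 / ρ⌉) ⌈1 / ρ⌉ := by
  have hx' := abs_le.1 hx
  have hc0 : 0 ≤ ⌈1 / ρ⌉ := Int.ceil_nonneg (by positivity)
  have hc1 : 1 / ρ ≤ (⌈1 / ρ⌉ : ℝ) := Int.le_ceil _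
  rw [Finset.mem_Icc]
  unfold k3bKap
  split_ifs with h
  · have h0 : 0 ≤ ⌊x / ρ⌋ := Int.floor_nonneg.2 (div_nonneg h hρ.le)
    refine ⟨by omega, ?_⟩
    have : (⌊x / ρ⌋ : ℝ) ≤ (⌈1 / ρ⌉ : ℝ) :=
      (Int.floor_le _).trans ((div_le_div_of_nonneg_right hx'.2 hρ.le).trans hc1)
    exact_mod_cast this
  · push Not at h
    have h0 : ⌈x / ρ⌉ ≤ 0 := Int.ceil_le.2 (by simpa using (div_nonpos_of_nonpos_of_nonneg h.le hρ.le))
    refine ⟨?_, by omega⟩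
    have h1 : -(1 / ρ) ≤ x / ρ := by
      rw [← neg_div]
      exact div_le_div_of_nonneg_right hx'.1 hρ.le
    have : ((-⌈1 / ρ⌉ : ℤ) : ℝ) ≤ (⌈x / ρ⌉ : ℝ) := by
      push_cast
      linarith [Int.le_ceil (x / ρ)]
    exact_mod_cast this

/-- **LEAF L-252-S3b-K2a.**  Coordinatewise (`pi_norm_le_iff_of_nonneg`, `norm_le_pi_norm`): `0 ≤ x`: `0 ≤ ρ ⌊x/ρ⌋ ≤ x` (`Int.floor_le`, `Int.floor_nonneg`); `x < 0`: `x ≤ ρ ⌈x/ρ⌉ ≤ 0` (`Int.le_ceil`, `Int.ceil_le`). -/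
theorem k3b_net_le (ρ : ℝ) (hρ : 0 < ρ) (x : Fin n → ℝ) : ‖k3bNet ρ x‖ ≤ ‖x‖ := by
  rw [pi_norm_le_iff_of_nonneg (norm_nonneg _)]
  intro i
  rw [k3b_net_kap, Real.norm_eq_abs]
  exact ((k3b_kap_bd ρ hρ (x i)).1).trans (norm_le_pi_norm x i)

/-- **LEAF L-252-S3b-K2a.**  (`Int.lt_floor_add_one`, `Int.ceil_lt_add_one`.) -/
theorem k3b_net_dist (ρ : ℝ) (hρ : 0 < ρ) (x : Fin n → ℝ) : ‖k3bNet ρ x - x‖ ≤ ρ := by
  rw [pi_norm_le_iff_of_nonneg hρ.le]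
  intro i
  rw [Pi.sub_apply, k3b_net_kap, Real.norm_eq_abs]
  exact (k3b_kap_bd ρ hρ (x i)).2

/-- **LEAF L-252-S3b-K2b.**  `k i = ⌊x i/ρ⌋` or `⌈x i/ρ⌉`, `|x i/ρ| ≤ 1/ρ`. -/
theorem k3b_net_mem (ρ : ℝ) (hρ : 0 < ρ) (x : Fin n → ℝ) (hx : ‖x‖ ≤ 1) : k3bNet ρ x ∈ k3bNetF n ρ := by
  unfold k3bNetF
  rw [Finset.mem_image]
  refine ⟨fun i => k3bKap ρ (x i), ?_, ?_⟩
  · rw [Fintype.mem_piFinset]
    intro i
    exact k3b_kap_mem ρ hρ (x i) ((norm_le_pi_norm x i).trans hx)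
  · funext i
    rw [k3b_net_kap]

/-- **LEAF L-252-S3b-K2c** (every function of the net point is measurable).  `k3bNet ρ x = fun i => ρ * (κ x i : ℝ)` with `κ x i = if 0 ≤ x i then ⌊x i/ρ⌋ else ⌈x i/ρ⌉`, `κ : (Fin n → ℝ) → (Fin n → ℤ)` measurable (`measurable_pi_iff`, `Measurable.ite`, `Int.measurable_floor`, `Int.measurable_ceil`)
into a countable discrete space, so every preimage under `κ` is measurable (`measurableSet_preimage`, `MeasurableSet.of_discrete`). -/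
theorem k3b_net_meas (ρ : ℝ) (T : Set (Fin n → ℝ)) : MeasurableSet (k3bNet (n := n) ρ ⁻¹' T) := by
  have hκ : Measurable (fun x : Fin n → ℝ => fun i => k3bKap ρ (x i)) := by
    rw [measurable_pi_iff]
    intro i
    unfold k3bKap
    refine Measurable.ite ?_ ?_ ?_
    · exact measurableSet_le measurable_const (measurable_pi_apply i)
    · have hm : Measurable (fun x : Fin n → ℝ => x i / ρ) := by fun_prop
      exact Int.measurable_floor.comp hm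
    · have hm : Measurable (fun x : Fin n → ℝ => x i / ρ) := by fun_prop
      exact Int.measurable_ceil.comp hm
  have e : k3bNet (n := n) ρ ⁻¹' T
      = (fun x : Fin n → ℝ => fun i => k3bKap ρ (x i)) ⁻¹' {k : Fin n → ℤ | (fun i => ρ * (k i : ℝ)) ∈ T} := by
    ext x
    simp only [Set.mem_preimage, Set.mem_ofPred_eq]
    have : k3bNet ρ x = fun i => ρ * (k3bKap ρ (x i) : ℝ) := funext fun i => k3b_net_kap ρ x i
    rw [this]
  rw [e]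
  exact hκ (MeasurableSet.of_discrete)

/-- the number of net points -/
theorem k3b_netF_card (n : ℕ) (ρ : ℝ) (hρ : 0 < ρ) (hρ1 : ρ ≤ 1) : ((k3bNetF n ρ).card : ℝ) ≤ (5 / ρ) ^ n := by
  classical
  have h1 : (k3bNetF n ρ).card ≤ (Fintype.piFinset fun _ : Fin n => Finset.Icc (-⌈1 / ρ⌉) ⌈1 / ρ⌉).card := by
    unfold k3bNetF
    exact Finset.card_image_le
  rw [Fintype.card_piFinset, Finset.prod_const, Finset.card_univ, Fintype.card_fin, Int.card_Icc] at h1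
  have hc0 : 0 ≤ ⌈1 / ρ⌉ := Int.ceil_nonneg (by positivity)
  have h2 : (((⌈1 / ρ⌉ + 1 - -⌈1 / ρ⌉).toNat : ℕ) : ℝ) ≤ 5 / ρ := by
    have e : (((⌈1 / ρ⌉ + 1 - -⌈1 / ρ⌉).toNat : ℕ) : ℤ) = ⌈1 / ρ⌉ + 1 - -⌈1 / ρ⌉ := Int.toNat_of_nonneg (by omega)
    have e' : (((⌈1 / ρ⌉ + 1 - -⌈1 / ρ⌉).toNat : ℕ) : ℝ) = 2 * (⌈1 / ρ⌉ : ℝ) + 1 := by
      have : ((((⌈1 / ρ⌉ + 1 - -⌈1 / ρ⌉).toNat : ℕ) : ℤ) : ℝ) = ((⌈1 / ρ⌉ + 1 - -⌈1 / ρ⌉ : ℤ) : ℝ) := by rw [e]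
      push_cast at this
      rw [this]; ring
    rw [e']
    have h3 : (⌈1 / ρ⌉ : ℝ) < 1 / ρ + 1 := Int.ceil_lt_add_one _
    have h4 : 1 ≤ 1 / ρ := by rw [le_div_iff₀ hρ]; linarith
    have h5 : 5 / ρ = 5 * (1 / ρ) := by ring
    rw [h5]
    linarith
  calc ((k3bNetF n ρ).card : ℝ) ≤ (((⌈1 / ρ⌉ + 1 - -⌈1 / ρ⌉).toNat ^ n : ℕ) : ℝ) := by exact_mod_cast h1
    _ = (((⌈1 / ρ⌉ + 1 - -⌈1 / ρ⌉).toNat : ℕ) : ℝ) ^ n := by push_cast; rfl
    _ ≤ (5 / ρ) ^ n := pow_le_pow_left₀ (Nat.cast_nonneg _) h2 n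

/-! ## 3. Frames and trajectories -/

section frames

variable {P : KbPb v} {Y : KbSys P} (X : K3bCmp Y)

/-- the coordinates of `S3e3` are the coordinates of `S3b/Sh.lean` -/
theorem k3b_Z_eq (F : K3bFrm v) (T : KbTest v) (n₁ i : ℕ) (t : ℝ) (y : KbB v) : k3e3Z (F.ch T) ((i : ℝ) * kbQ n₁) (kbQ n₁) t y = F.z n₁ i t y := rfl

/-- **LEAF L-252-S3b-K3a** (a trajectory is affine in the coordinates of a frame).  First coordinate: `((i + τ) q₁ - i q₁)/q₁ = τ` (`kbQ n₁ ≠ 0`); the others: `kbY l t - yc t = (l.1 - y0) + t • (l.2.1 - y1)`, `Matrix.mulVec_add`, `Matrix.mulVec_smul`.  (`Fin.cons` : `funext i; refine Fin.cases ?_ ?_ i`.) -/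
theorem k3b_zl_affine (φ : X.Φ) (l : P.Lam) : ∃ a b : Fin (v.j + 1) → ℝ, ∀ τ : ℝ, X.zl φ l (X.tm φ τ) = a + τ • b := by
  have hq : kbQ X.n₁ ≠ 0 := by
    unfold kbQ
    positivity
  refine ⟨Fin.cons 0 ((X.fr φ).Mi.mulVec ((P.co (X.wd φ) l).1 - (X.fr φ).y0) + ((X.iv φ : ℝ) * kbQ X.n₁) • (X.fr φ).Mi.mulVec ((P.co (X.wd φ) l).2.1 - (X.fr φ).y1)),
    Fin.cons 1 (kbQ X.n₁ • (X.fr φ).Mi.mulVec ((P.co (X.wd φ) l).2.1 - (X.fr φ).y1)), fun τ => ?_⟩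
  unfold K3bCmp.zl K3bFrm.zl K3bFrm.z K3bCmp.tm
  funext k
  refine Fin.cases ?_ (fun m => ?_) k
  · simp only [Fin.cons_zero, Pi.add_apply, Pi.smul_apply, smul_eq_mul]
    field_simp
    ring
  · have e : kbY (P.co (X.wd φ) l) (((X.iv φ : ℝ) + τ) * kbQ X.n₁) - (X.fr φ).yc (((X.iv φ : ℝ) + τ) * kbQ X.n₁)
        = ((P.co (X.wd φ) l).1 - (X.fr φ).y0) + (((X.iv φ : ℝ) + τ) * kbQ X.n₁) • ((P.co (X.wd φ) l).2.1 - (X.fr φ).y1) := by
      unfold kbY K3bFrm.yc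
      rw [smul_sub]
      abel
    simp only [Fin.cons_succ, Pi.add_apply, Pi.smul_apply, smul_eq_mul]
    rw [e, Matrix.mulVec_add, Matrix.mulVec_smul, Pi.add_apply, Pi.smul_apply, smul_eq_mul]
    ring

/-- **LEAF L-252-S3b-K3b** (speed).  `b = x 1 - x 0`, `‖b‖ ≤ 2`. -/
theorem k3b_zl_speed (φ : X.Φ) (l : P.Lam) (h : ∀ τ ∈ Set.Icc (0 : ℝ) 1, ‖X.zl φ l (X.tm φ τ)‖ ≤ 1) (τ τ' : ℝ) :
    ‖X.zl φ l (X.tm φ τ) - X.zl φ l (X.tm φ τ')‖ ≤ 2 * |τ - τ'| := by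
  obtain ⟨a, b, hab⟩ := k3b_zl_affine X φ l
  have h0 := h 0 ⟨le_rfl, zero_le_one⟩
  have h1 := h 1 ⟨zero_le_one, le_rfl⟩
  rw [hab] at h0 h1
  have hb : ‖b‖ ≤ 2 := by
    have e : b = (a + (1 : ℝ) • b) - (a + (0 : ℝ) • b) := by
      rw [one_smul, zero_smul]
      abel
    rw [e]
    exact (norm_sub_le _ _).trans (by linarith)
  rw [hab, hab]
  have e : a + τ • b - (a + τ' • b) = (τ - τ') • b := by
    rw [sub_smul]
    abel
  rw [e, norm_smul, Real.norm_eq_abs, mul_comm]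
  exact mul_le_mul_of_nonneg_right hb (abs_nonneg _)

theorem k3b_qd_line (D : K3bQd n) (a b : Fin n → ℝ) : ∃ d0 d1 d2 : ℝ, ∀ τ : ℝ, D.evR (a + τ • b) = d0 + d1 * τ + d2 * τ ^ 2 := by
  refine ⟨D.evR a, ∑ i, D.c1 i * b i + ∑ i, ∑ j, D.c2 i j * (a i * b j + b i * a j), ∑ i, ∑ j, D.c2 i j * b i * b j, fun τ => ?_⟩
  unfold K3bQd.evR
  simp only [Pi.add_apply, Pi.smul_apply, smul_eq_mul]
  have e1 : ∑ i, D.c1 i * (a i + τ * b i) = ∑ i, D.c1 i * a i + (∑ i, D.c1 i * b i) * τ := by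
    rw [Finset.sum_mul, ← Finset.sum_add_distrib]
    refine Finset.sum_congr rfl fun i _ => by ring
  have e2 : ∑ i, ∑ j, D.c2 i j * (a i + τ * b i) * (a j + τ * b j)
      = ∑ i, ∑ j, D.c2 i j * a i * a j + (∑ i, ∑ j, D.c2 i j * (a i * b j + b i * a j)) * τ + (∑ i, ∑ j, D.c2 i j * b i * b j) * τ ^ 2 := by
    simp only [Finset.sum_mul, ← Finset.sum_add_distrib]
    refine Finset.sum_congr rfl fun i _ => Finset.sum_congr rfl fun j _ => by ring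
  rw [e1, e2]
  ring

theorem k3b_p1_line (Pq : K3bEq n) (a b : Fin n → ℝ) (τ : ℝ) : Pq.a0 + ∑ i, Pq.a1 i * (a + τ • b) i = (Pq.a0 + ∑ i, Pq.a1 i * a i) + (∑ i, Pq.a1 i * b i) * τ := by
  simp only [Pi.add_apply, Pi.smul_apply, smul_eq_mul]
  rw [Finset.sum_mul, add_assoc, ← Finset.sum_add_distrib]
  congr 1
  refine Finset.sum_congr rfl fun i _ => by ring

theorem k3b_ev_line (Pq : K3bEq n) (a b : Fin n → ℝ) (ω0 ω1 : ℝ) : ∃ γ0 γ1 γ2 : ℝ, ∀ τ : ℝ, Pq.evR (a + τ • b) (ω0 + ω1 * τ) = γ0 + γ1 * τ + γ2 * τ ^ 2 := by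
  obtain ⟨d0, d1, d2, hd⟩ := k3b_qd_line Pq.p0 a b
  refine ⟨d0 + (Pq.a0 + ∑ i, Pq.a1 i * a i) * ω0 + Pq.c / 2 * ω0 ^ 2, d1 + (Pq.a0 + ∑ i, Pq.a1 i * a i) * ω1 + (∑ i, Pq.a1 i * b i) * ω0 + Pq.c * ω0 * ω1,
    d2 + (∑ i, Pq.a1 i * b i) * ω1 + Pq.c / 2 * ω1 ^ 2, fun τ => ?_⟩
  unfold K3bEq.evR
  rw [hd, k3b_p1_line]
  ring

/-- **LEAF L-252-S3b-K3c** (an equation along a trajectory is a polynomial of degree `≤ 2` in the time; 03 l.1499-1503).  Version two: `z` and `ω` are affine in `τ` (`kbW` with two coefficients: `cases v`, `Fin.sum_univ_two`), the equation has total degree `≤ 2`.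
Version one: `P = p0 (z) + ω`, `ω` quadratic (`Fin.sum_univ_three`).   Expand `K3bEq.evR`, `K3bQd.evR` with `z = a + τ b`: `γ2 = ∑∑ c2 b b + (∑ a1 b) ω₁ + (c/2) ω₁² (+ ω₂)`, .. -/
theorem k3b_ev_poly (φ : X.Φ) (l : P.Lam) (Pq : K3bEq (v.j + 1)) (h1 : v = KbVer.one → Pq.c = 0 ∧ Pq.a0 = 1 ∧ ∀ i, Pq.a1 i = 0) :
    ∃ γ0 γ1 γ2 : ℝ, ∀ τ : ℝ, Pq.evR (X.zl φ l (X.tm φ τ)) (X.om φ l (X.tm φ τ)) = γ0 + γ1 * τ + γ2 * τ ^ 2 := by
  obtain ⟨a, b, hab⟩ := k3b_zl_affine X φ l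
  cases v with
  | one =>
    obtain ⟨hc, ha0, ha1⟩ := h1 rfl
    obtain ⟨d0, d1, d2, hd⟩ := k3b_qd_line Pq.p0 a b
    obtain ⟨B, hB⟩ : ∃ B : ℝ, B = P.B (X.wd φ) := ⟨_, rfl⟩
    obtain ⟨q, hq⟩ : ∃ q : ℝ, q = kbQ X.n₁ := ⟨_, rfl⟩
    obtain ⟨ι, hι⟩ : ∃ ι : ℝ, ι = (X.iv φ : ℝ) := ⟨_, rfl⟩
    obtain ⟨l', hl'⟩ : ∃ l' : KbTj KbVer.one, l' = P.co (X.wd φ) l := ⟨_, rfl⟩
    refine ⟨d0 + B * (l'.2.2 (0 : Fin 3) + l'.2.2 (1 : Fin 3) * (ι * q) + l'.2.2 (2 : Fin 3) * (ι * q) ^ 2),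
      d1 + B * (l'.2.2 (1 : Fin 3) * q + l'.2.2 (2 : Fin 3) * (2 * ι * q ^ 2)), d2 + B * (l'.2.2 (2 : Fin 3) * q ^ 2), fun τ => ?_⟩
    have hw : ∀ t, kbW l' t = l'.2.2 (0 : Fin 3) + l'.2.2 (1 : Fin 3) * t + l'.2.2 (2 : Fin 3) * t ^ 2 := by
      intro t
      unfold kbW
      have := Fin.sum_univ_three fun i : Fin 3 => l'.2.2 i * t ^ (i : ℕ)
      refine this.trans ?_
      simp
    rw [hab]
    unfold K3bEq.evR K3bCmp.om K3bCmp.tm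
    rw [hd, hc, ha0, ← hl', hw, ← hB, ← hq, ← hι]
    simp only [ha1, zero_mul, Finset.sum_const_zero]
    ring
  | two =>
    obtain ⟨l', hl'⟩ : ∃ l' : KbTj KbVer.two, l' = P.co (X.wd φ) l := ⟨_, rfl⟩
    have hw : ∀ t, kbW l' t = l'.2.2 (0 : Fin 2) + l'.2.2 (1 : Fin 2) * t := by
      intro t
      unfold kbW
      have := Fin.sum_univ_two fun i : Fin 2 => l'.2.2 i * t ^ (i : ℕ)
      refine this.trans ?_
      simp
    obtain ⟨γ0, γ1, γ2, hγ⟩ := k3b_ev_line Pq a b (P.B (X.wd φ) * (l'.2.2 (0 : Fin 2) + l'.2.2 (1 : Fin 2) * ((X.iv φ : ℝ) * kbQ X.n₁))) (P.B (X.wd φ) * (l'.2.2 (1 : Fin 2) * kbQ X.n₁))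
    refine ⟨γ0, γ1, γ2, fun τ => ?_⟩
    rw [hab, ← hγ]
    congr 1
    unfold K3bCmp.om K3bCmp.tm
    rw [← hl', hw]
    ring

/-- **LEAF L-252-S3b-K3d** (the derivative is affine). -/
theorem k3b_dw_affine (φ : X.Φ) (l : P.Lam) (Pq : K3bEq (v.j + 1)) (h1 : v = KbVer.one → Pq.c = 0 ∧ Pq.a0 = 1 ∧ ∀ i, Pq.a1 i = 0) :
    ∃ β0 β1 : ℝ, ∀ τ : ℝ, Pq.dwR (X.zl φ l (X.tm φ τ)) (X.om φ l (X.tm φ τ)) = β0 + β1 * τ := by
  obtain ⟨a, b, hab⟩ := k3b_zl_affine X φ l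
  cases v with
  | one =>
    obtain ⟨hc, ha0, ha1⟩ := h1 rfl
    refine ⟨1, 0, fun τ => ?_⟩
    unfold K3bEq.dwR
    rw [hc, ha0]
    simp only [ha1, zero_mul, Finset.sum_const_zero]
    ring
  | two =>
    obtain ⟨l', hl'⟩ : ∃ l' : KbTj KbVer.two, l' = P.co (X.wd φ) l := ⟨_, rfl⟩
    have hw : ∀ t, kbW l' t = l'.2.2 (0 : Fin 2) + l'.2.2 (1 : Fin 2) * t := by
      intro t
      unfold kbW
      have := Fin.sum_univ_two fun i : Fin 2 => l'.2.2 i * t ^ (i : ℕ)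
      refine this.trans ?_
      simp
    refine ⟨(Pq.a0 + ∑ i, Pq.a1 i * a i) + Pq.c * (P.B (X.wd φ) * (l'.2.2 (0 : Fin 2) + l'.2.2 (1 : Fin 2) * ((X.iv φ : ℝ) * kbQ X.n₁))),
      (∑ i, Pq.a1 i * b i) + Pq.c * (P.B (X.wd φ) * (l'.2.2 (1 : Fin 2) * kbQ X.n₁)), fun τ => ?_⟩
    rw [hab]
    unfold K3bEq.dwR K3bCmp.om K3bCmp.tm
    rw [k3b_p1_line, ← hl', hw]
    ring

/-- **LEAF L-252-S3b-K3e** (normalised time). -/
theorem k3b_tm_mem (φ : X.Φ) (t : ℝ) (ht : t ∈ kbI X.n₁ (X.iv φ)) : ∃ τ ∈ Set.Icc (0 : ℝ) 1, t = X.tm φ τ := by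
  have hq : 0 < kbQ X.n₁ := by
    unfold kbQ
    positivity
  unfold kbI at ht
  refine ⟨t / kbQ X.n₁ - (X.iv φ : ℝ), ⟨?_, ?_⟩, ?_⟩
  · rw [sub_nonneg, le_div_iff₀ hq]
    exact ht.1
  · rw [sub_le_iff_le_add, div_le_iff₀ hq, add_comm]
    exact ht.2.le
  · unfold K3bCmp.tm
    field_simp
    ring

/-- continuity in the time -/
theorem k3b_zl_cont (φ : X.Φ) (l : P.Lam) : Continuous fun τ : ℝ => X.zl φ l (X.tm φ τ) := by
  obtain ⟨a, b, h⟩ := k3b_zl_affine X φ l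
  simp only [h]
  fun_prop

/-- **LEAF L-252-S3b-K3f.**  (`kbW` is a polynomial in `t`: `unfold K3bCmp.om K3bCmp.tm kbW; fun_prop`.) -/
theorem k3b_om_cont (φ : X.Φ) (l : P.Lam) : Continuous fun τ : ℝ => X.om φ l (X.tm φ τ) := by
  unfold K3bCmp.om K3bCmp.tm kbW
  fun_prop

/-- **LEAF L-252-S3b-K3g** (measurability in the trajectory).  `P.co γ` is measurable (`hP.co_meas`); `kbY`, `kbW`, `Matrix.mulVec` are continuous in the coefficients; `measurable_pi_iff`, `Fin.cases`. -/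
theorem k3b_zl_meas (hP : P.WF) (φ : X.Φ) : Measurable fun x : P.Lam × ℝ => X.zl φ x.1 x.2 := by
  have hc : Continuous fun p : KbTj v × ℝ => (X.fr φ).zl X.n₁ (X.iv φ) p.1 p.2 := by
    unfold K3bFrm.zl K3bFrm.z
    refine continuous_pi fun k => ?_
    refine Fin.cases ?_ (fun m => ?_) k
    · simp only [Fin.cons_zero]
      fun_prop
    · simp only [Fin.cons_succ]
      have h1 : Continuous fun p : KbTj v × ℝ => kbY p.1 p.2 - (X.fr φ).yc p.2 := by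
        unfold kbY K3bFrm.yc
        fun_prop
      exact (continuous_apply m).comp (Continuous.matrix_mulVec continuous_const h1)
  have hm : Measurable fun x : P.Lam × ℝ => (P.co (X.wd φ) x.1, x.2) := ((hP.co_meas _).comp measurable_fst).prodMk measurable_snd
  exact hc.measurable.comp hm

theorem k3b_om_meas (hP : P.WF) (φ : X.Φ) : Measurable fun x : P.Lam × ℝ => X.om φ x.1 x.2 := by
  have hc : Continuous fun p : KbTj v × ℝ => kbW p.1 p.2 := by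
    unfold kbW
    refine continuous_finsetSum _ fun i _ => ?_
    have : Continuous fun p : KbTj v × ℝ => p.1.2.2 i := (continuous_apply i).comp (by fun_prop)
    exact this.mul (by fun_prop)
  have hm : Measurable fun x : P.Lam × ℝ => (P.co (X.wd φ) x.1, x.2) := ((hP.co_meas _).comp measurable_fst).prodMk measurable_snd
  unfold K3bCmp.om
  exact (hc.measurable.comp hm).const_mul _

end frames

end

end Claimed.Agent.R252
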