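import Claimed.Agent.R252.S3b.ContContract

/-!
# ROW 252 (S0492), unit S3b (L3.5 terminal time extension), file 2: QUADRICS IN THE COORDINATES OF A FRAME: DEFINITIONS      (architect helper70)   -- KEEP
No sorry.   `n = 1 + j ≤ 3` base variables `z = (τ, ξ)`.
* `K3bQd n`  : a real polynomial of degree `≤ 2` in `z`, by its coefficients; `ev` on `ℂⁿ`, `evR` on `ℝⁿ`, coefficient norm `nm`.
* `K3bEq n`  : an equation `P (z, w) = p0 (z) + p1 (z) w + (c/2) w²` of total degree `≤ 2` (`p1` affine, `c` constant), its discriminant `dsc = p1² - 2 c p0` (03 l.868-895).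
* `k3bPt z0 α s = z0 + s (α - z0)` : the complex line through a source point and an anchor;  `K3bSafe` : the discriminant is `≥ 1/A` on the `1/A`-tube of the broken path `0 → σ → 1` of that line.
-/

set_option autoImplicit false

namespace Claimed.Agent.R252

open scoped BigOperators

noncomputable section

variable {n : ℕ}

/-- a real polynomial of degree `≤ 2` in `n` variables -/
structure K3bQd (n : ℕ) where
  c0 : ℝ
  c1 : Fin n → ℝ
  c2 : Fin n → Fin n → ℝ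

namespace K3bQd

/-- evaluation at a complex point -/
def ev (D : K3bQd n) (z : Fin n → ℂ) : ℂ := (D.c0 : ℂ) + ∑ i, (D.c1 i : ℂ) * z i + ∑ i, ∑ j, (D.c2 i j : ℂ) * z i * z j

/-- evaluation at a real point -/
def evR (D : K3bQd n) (x : Fin n → ℝ) : ℝ := D.c0 + ∑ i, D.c1 i * x i + ∑ i, ∑ j, D.c2 i j * x i * x j

/-- the coefficient norm -/
def nm (D : K3bQd n) : ℝ := |D.c0| + ∑ i, |D.c1 i| + ∑ i, ∑ j, |D.c2 i j|

end K3bQd

/-- a real point as a complex point -/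
def k3bC (x : Fin n → ℝ) : Fin n → ℂ := fun i => (x i : ℂ)

/-- an equation of total degree `≤ 2` in `(z, w)` : `p0 (z) + (a0 + a1 · z) w + (c / 2) w²` -/
structure K3bEq (n : ℕ) where
  p0 : K3bQd n
  a0 : ℝ
  a1 : Fin n → ℝ
  c : ℝ

namespace K3bEq

/-- `P_w (z, 0)` -/
def p1 (P : K3bEq n) (z : Fin n → ℂ) : ℂ := (P.a0 : ℂ) + ∑ i, (P.a1 i : ℂ) * z i

/-- `P (z, w)` at complex points -/
def ev (P : K3bEq n) (z : Fin n → ℂ) (w : ℂ) : ℂ := P.p0.ev z + P.p1 z * w + (P.c : ℂ) / 2 * w ^ 2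

/-- `P_w (z, w)` -/
def dw (P : K3bEq n) (z : Fin n → ℂ) (w : ℂ) : ℂ := P.p1 z + (P.c : ℂ) * w

/-- `P (z, w)` at real points -/
def evR (P : K3bEq n) (x : Fin n → ℝ) (w : ℝ) : ℝ := P.p0.evR x + (P.a0 + ∑ i, P.a1 i * x i) * w + P.c / 2 * w ^ 2

/-- `P_w (z, w)` at real points -/
def dwR (P : K3bEq n) (x : Fin n → ℝ) (w : ℝ) : ℝ := (P.a0 + ∑ i, P.a1 i * x i) + P.c * w

/-- the discriminant `P_w² - 2 c P = p1² - 2 c p0`, a polynomial of degree `≤ 2` in `z` -/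
def dsc (P : K3bEq n) : K3bQd n where
  c0 := P.a0 ^ 2 - 2 * P.c * P.p0.c0
  c1 := fun i => 2 * P.a0 * P.a1 i - 2 * P.c * P.p0.c1 i
  c2 := fun i j => P.a1 i * P.a1 j - 2 * P.c * P.p0.c2 i j

/-- the affine replacement `w - F_ctr (z)`, `F_ctr = - p1 / c` (03 (3.9)); junk for `c = 0` -/
def ctr (P : K3bEq n) : K3bEq n where
  p0 := ⟨P.a0 / P.c, fun i => P.a1 i / P.c, fun _ _ => 0⟩
  a0 := 1
  a1 := fun _ => 0
  c := 0

end K3bEq

/-- the point with parameter `s` on the complex line through `z0` and `α` -/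
def k3bPt (z0 α : Fin n → ℂ) (s : ℂ) : Fin n → ℂ := fun i => z0 i + s * (α i - z0 i)

/-- the `ρ`-tube (sup norm) in `ℂⁿ` of the broken path `0 → σ → 1` on the line through `z0` and `α` -/
def k3bTubeN (z0 α : Fin n → ℂ) (σ : ℂ) (ρ : ℝ) : Set (Fin n → ℂ) := {z | ∃ s ∈ k3bPath 0 σ 1, ‖z - k3bPt z0 α s‖ < ρ}

/-- **the path is safe for `D`** : `|D| ≥ 1/A` on the closed `1/A`-tube -/
def K3bSafe (D : K3bQd n) (z0 α : Fin n → ℂ) (σ : ℂ) (A : ℝ) : Prop :=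
  ∀ s ∈ k3bPath 0 σ 1, ∀ u : Fin n → ℂ, ‖u‖ ≤ 1 / A → 1 / A ≤ ‖D.ev (k3bPt z0 α s + u)‖

/-- the anchor box -/
def k3bBox (n : ℕ) : Set (Fin n → ℂ) := {α | ∀ i, |(α i).re| ≤ 1 ∧ |(α i).im| ≤ 1}

/-- the real cube of radius `R` -/
def k3bCube (n : ℕ) (R : ℝ) : Set (Fin n → ℝ) := {x | ∀ i, |x i| ≤ R}

theorem K3bEq.dsc_ev (P : K3bEq n) (z : Fin n → ℂ) (w : ℂ) : P.dsc.ev z = P.dw z w ^ 2 - 2 * (P.c : ℂ) * P.ev z w := by
  have h1 : P.dsc.ev z = P.p1 z ^ 2 - 2 * (P.c : ℂ) * P.p0.ev z := by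
    unfold K3bEq.dsc K3bQd.ev K3bEq.p1
    simp only
    push_cast
    have e : (∑ i, (P.a1 i : ℂ) * z i) ^ 2 = ∑ i, ∑ j, (P.a1 i : ℂ) * (P.a1 j : ℂ) * z i * z j := by
      rw [sq, Finset.sum_mul_sum]
      refine Finset.sum_congr rfl fun i _ => Finset.sum_congr rfl fun j _ => by ring
    have e2 : ∑ i, ∑ j, ((P.a1 i : ℂ) * (P.a1 j : ℂ) - 2 * (P.c : ℂ) * (P.p0.c2 i j : ℂ)) * z i * z j
        = ∑ i, ∑ j, (P.a1 i : ℂ) * (P.a1 j : ℂ) * z i * z j - 2 * (P.c : ℂ) * ∑ i, ∑ j, (P.p0.c2 i j : ℂ) * z i * z j := by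
      rw [Finset.mul_sum, ← Finset.sum_sub_distrib]
      refine Finset.sum_congr rfl fun i _ => ?_
      rw [Finset.mul_sum, ← Finset.sum_sub_distrib]
      refine Finset.sum_congr rfl fun j _ => by ring
    have e3 : ∑ i, (2 * (P.a0 : ℂ) * (P.a1 i : ℂ) - 2 * (P.c : ℂ) * (P.p0.c1 i : ℂ)) * z i
        = 2 * (P.a0 : ℂ) * ∑ i, (P.a1 i : ℂ) * z i - 2 * (P.c : ℂ) * ∑ i, (P.p0.c1 i : ℂ) * z i := by
      rw [Finset.mul_sum, Finset.mul_sum, ← Finset.sum_sub_distrib]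
      refine Finset.sum_congr rfl fun i _ => by ring
    rw [e2, e3, ← e]
    ring
  rw [h1]
  unfold K3bEq.dw K3bEq.ev
  ring

end

end Claimed.Agent.R252
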