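import Claimed.Agent.R252.Base.Sys
import Claimed.Agent.R252.S3b.Defs

/-!
# ROW 252 (S0492), unit S3b (L3.5 terminal time extension), file 4: SHEETS, GRIDS, BINS, FRAMES: DEFINITIONS      (architect helper70)   -- KEEP
No sorry.   Design note: `git show origin/helper70:notes/R252/s3b_design.md`.
* `K3bQd.Bd D A`     : `|D| ≤ A` on the complex polydisc of radius `8` (REPLACES all bounds on coefficients: independent of the representation).
* `K3bQd.Stb D u ρ`  : `D` is stable on the complex polydisc of radius `ρ` about the real point `u` : `D u > 0`, `|D z - D u| ≤ D u / 2`.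
* `K3bSh n`          : a sheet = (equation, sign `s = ±1`); `F.f x` = the real root `w` with `P_w (x, w) = s √D (x)`   (`c = 0`: `- p0 / p1`).
* `k3bNode u h k`    : the tensor grid `u + h {-5..5}^n` (11 nodes per axis), `k3bNodeC` the same about a complex centre; `k3bGd u h f g` = grid distance of two functions.
* `k3bNet ρ x`       : the point of `ρ ℤ^n` obtained by rounding towards zero;   `k3bBinC wd w` : bins of the real and imaginary part.
* `K3bFrm v`         : a moving frame `(y0, y1, M, Mi)`; `F.z n₁ i t y = (τ, ξ)`, `τ = (t - i q₁)/q₁`, `ξ = Mi (y - y0 - t y1)`; `F.tst` : the test of an equation; `K3bRep` : "`Pq` is the equation of the test `T` in the frame" (hidden variable `ω = B w`).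
* `K3bEq.cv thr`     : the conversion (03 l.1170-1190): affine replacement `w - F_ctr` if `|c| ≥ thr`.
-/

set_option autoImplicit false

namespace Claimed.Agent.R252

open MeasureTheory
open scoped ENNReal BigOperators

noncomputable section

variable {n : ℕ} {v : KbVer}

/-- `|D| ≤ A` on the complex polydisc of radius `8` -/
def K3bQd.Bd (D : K3bQd n) (A : ℝ) : Prop := ∀ z : Fin n → ℂ, ‖z‖ ≤ 8 → ‖D.ev z‖ ≤ A

/-- `D` is stable on the complex polydisc of radius `ρ` about the real point `u` -/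
def K3bQd.Stb (D : K3bQd n) (u : Fin n → ℝ) (ρ : ℝ) : Prop :=
  0 < D.evR u ∧ ∀ z : Fin n → ℂ, ‖z - k3bC u‖ ≤ ρ → ‖D.ev z - (D.evR u : ℂ)‖ ≤ D.evR u / 2

/-- `P_w (x, 0)` at real points -/
def K3bEq.p1R (P : K3bEq n) (x : Fin n → ℝ) : ℝ := P.a0 + ∑ i, P.a1 i * x i

/-- the conversion of an equation: affine replacement above the curvature threshold -/
def K3bEq.cv (thr : ℝ) (P : K3bEq n) : K3bEq n := if thr ≤ |P.c| then P.ctr else P

/-- a sheet: an equation and the sign of `P_w` on it -/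
structure K3bSh (n : ℕ) where
  P : K3bEq n
  s : ℝ

/-- the real sheet -/
def K3bSh.f (F : K3bSh n) (x : Fin n → ℝ) : ℝ :=
  if F.P.c = 0 then - F.P.p0.evR x / F.P.p1R x else (F.s * Real.sqrt (F.P.dsc.evR x) - F.P.p1R x) / F.P.c

/-- the value of the sheet over a complex point where the branch of the root of the discriminant has the value `r` -/
def K3bEq.rt (P : K3bEq n) (z : Fin n → ℂ) (r : ℂ) : ℂ := if P.c = 0 then - P.p0.ev z / P.p1 z else (r - P.p1 z) / (P.c : ℂ)

/-- the sign `±1` of a real number -/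
def k3bSg (x : ℝ) : ℝ := if 0 ≤ x then 1 else -1

/-- indices of the tensor grid -/
abbrev K3bIx (n : ℕ) := Fin n → Fin 11

/-- the real tensor grid `u + h {-5..5}^n` -/
def k3bNode (u : Fin n → ℝ) (h : ℝ) (k : K3bIx n) : Fin n → ℝ := fun i => u i + h * (((k i : ℕ) : ℝ) - 5)

/-- the tensor grid about a complex centre -/
def k3bNodeC (α : Fin n → ℂ) (h : ℝ) (k : K3bIx n) : Fin n → ℂ := fun i => α i + ((h * (((k i : ℕ) : ℝ) - 5) : ℝ) : ℂ)

/-- the grid distance of two functions -/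
def k3bGd (u : Fin n → ℝ) (h : ℝ) (f g : (Fin n → ℝ) → ℝ) : ℝ :=
  Finset.univ.sup' Finset.univ_nonempty fun k : K3bIx n => |f (k3bNode u h k) - g (k3bNode u h k)|

/-- the point of the net `ρ ℤ^n` obtained by rounding every coordinate TOWARDS ZERO: `|k3bNet ρ x i| ≤ |x i|`, `|k3bNet ρ x i - x i| ≤ ρ` -/
def k3bNet (ρ : ℝ) (x : Fin n → ℝ) : Fin n → ℝ := fun i => if 0 ≤ x i then ρ * (⌊x i / ρ⌋ : ℝ) else ρ * (⌈x i / ρ⌉ : ℝ)

/-- bins of a complex number -/
def k3bBinC (wd : ℝ) (w : ℂ) : ℤ × ℤ := (⌊w.re / wd⌋, ⌊w.im / wd⌋)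

/-- a moving spatial frame -/
structure K3bFrm (v : KbVer) where
  y0 : KbB v
  y1 : KbB v
  M : Matrix (Fin v.j) (Fin v.j) ℝ
  /-- the inverse of `M` -/
  Mi : Matrix (Fin v.j) (Fin v.j) ℝ

namespace K3bFrm

/-- the moving centre -/
def yc (F : K3bFrm v) (t : ℝ) : KbB v := F.y0 + t • F.y1

/-- the coordinates `z = (τ, ξ)` of the base point `(t, y)` in the block `i` of level `n₁` -/
def z (F : K3bFrm v) (n₁ i : ℕ) (t : ℝ) (y : KbB v) : Fin (v.j + 1) → ℝ :=
  Fin.cons ((t - (i : ℝ) * kbQ n₁) / kbQ n₁) (F.Mi.mulVec (y - F.yc t))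

/-- a trajectory in the coordinates of the frame -/
def zl (F : K3bFrm v) (n₁ i : ℕ) (l : KbTj v) (t : ℝ) : Fin (v.j + 1) → ℝ := F.z n₁ i t (kbY l t)

/-- the test of an equation (hidden variable `ω = B w`) -/
def tst (F : K3bFrm v) (n₁ i : ℕ) (B : ℝ) (Pq : K3bEq (v.j + 1)) : KbTest v := fun t y w => Pq.evR (F.z n₁ i t y) (B * w)

end K3bFrm

/-- `Pq` is the equation of the test `T` in the coordinates of the frame -/
def K3bRep (F : K3bFrm v) (n₁ i : ℕ) (B : ℝ) (T : KbTest v) (Pq : K3bEq (v.j + 1)) : Prop := ∀ t y w, T t y w = F.tst n₁ i B Pq t y w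

/-- the equation of a test in a frame (junk if there is none) -/
def k3bEqn (F : K3bFrm v) (n₁ i : ℕ) (B : ℝ) (T : KbTest v) : K3bEq (v.j + 1) :=
  open Classical in if h : ∃ Pq, K3bRep F n₁ i B T Pq then h.choose else ⟨⟨0, fun _ => 0, fun _ _ => 0⟩, 1, fun _ => 0, 0⟩

theorem k3b_eqn_rep (F : K3bFrm v) (n₁ i : ℕ) (B : ℝ) (T : KbTest v) (h : ∃ Pq, K3bRep F n₁ i B T Pq) : K3bRep F n₁ i B T (k3bEqn F n₁ i B T) := by
  unfold k3bEqn
  rw [dif_pos h]
  exact h.choose_spec

end

end Claimed.Agent.R252
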