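import Claimed.Agent.R252.S3b.HubContract
import Claimed.Agent.R252.S3b.Sh

/-!
# ROW 252 (S0492), unit S3b (L3.5), file 6: THE EXIT OF PART 1 (03 l.905-1316): PAIR LAW, FRAMES, CONVERTED EQUATIONS, GOOD PAIRS      (architect helper70; owner of the proof: helper215, BP-252-S3e1)   -- KEEP
Definitions only (no sorry).   Design note: `git show origin/helper70:notes/R252/s3b_design.md`.
* `Y.k3bBk n₁ c`        the new block (level `n₁`) which contains the old interval of `c`;     `k3bUn n₁ i` uniform probability on the block;     `P.k3bLaw γ n₁ i = ν_γ × unif × unif` on `(l, t₀, t)`.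
* `Y.k3bPr c c'`        the pairs with SOURCE label `c` (at `t₀`) and WITNESS label `c'` (at `t`);     `Y.k3bPM n₁ X = ∑_{c,c'} ω q₁ law (X c c')`.
* `K3bCmp Y`            data: frames `Φ` (with world and block), `of c` = the frame of a label, `cmp c'` = compatibility list, `eq c φ` = the CONVERTED equation of `c` in the frame `φ` (hidden variable `ω = B w`), `Gd c c'` = good pairs.
* `X.Ok K A₀ A₂ r ρ δ Q`:  `K` subpower slack (`C K^C`), `A₀ = E^{C₀}` geometric slack of part 1, `A₂ = E^{C₁}` SIZE slack of the local sheet match, `r` radius of the comparison cube, `ρ ≤ r` spacing of the net, `δ` old thickness, `Q` polynomial bound.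
* `K3bCmpStmt v`        THE EXIT.   ORDER OF QUANTIFIERS: `C₀, R` first; then `B` (`E^{-B} ≤ ρ`); then `C₁ = C₁ (B)`.   `A₀` must NOT depend on `B` (the consumer chooses `r, ρ ~ 1/A₁`, `A₁ = C (A₀ E²)^C`).
-/

set_option autoImplicit false

namespace Claimed.Agent.R252

open MeasureTheory
open scoped ENNReal BigOperators

noncomputable section

variable {v : KbVer} {P : KbPb v}

/-- the block of level `n₁` which contains the interval of the old label `c` -/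
def KbSys.k3bBk (Y : KbSys P) (n₁ : ℕ) (c : Y.C) : ℕ := Y.iv c / 2 ^ (Y.n - n₁)

/-- the uniform probability on the `i`-th block of level `n₁` -/
def k3bUn (n₁ i : ℕ) : Measure ℝ := ENNReal.ofReal (2 ^ n₁) • volume.restrict (kbI n₁ i)

/-- the pair law of a world and a block, on `(l, t₀, t)` -/
def KbPb.k3bLaw (P : KbPb v) (γ : P.W) (n₁ i : ℕ) : Measure (P.Lam × ℝ × ℝ) := (P.nu γ).prod ((k3bUn n₁ i).prod (k3bUn n₁ i))

/-- the pairs with source label `c` and witness label `c'` -/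
def KbSys.k3bPr (Y : KbSys P) (c c' : Y.C) : Set (P.Lam × ℝ × ℝ) := {x | (x.1, x.2.1) ∈ Y.S c ∧ (x.1, x.2.2) ∈ Y.S c'}

/-- weighted pair mass of a family of events indexed by the two labels -/
def KbSys.k3bPM (Y : KbSys P) (n₁ : ℕ) (X : Y.C → Y.C → Set (P.Lam × ℝ × ℝ)) : ℝ≥0∞ :=
  ∑ c, ∑ c', P.om (Y.wd c) * ENNReal.ofReal (kbQ n₁) * P.k3bLaw (Y.wd c) n₁ (Y.k3bBk n₁ c) (X c c')

/-- **the comparison data** (exit of part 1; data only) -/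
structure K3bCmp (Y : KbSys P) where
  /-- level of the new blocks -/
  n₁ : ℕ
  /-- frames, including their world and block -/
  Φ : Type
  fΦ : Fintype Φ
  dΦ : DecidableEq Φ
  wd : Φ → P.W
  iv : Φ → ℕ
  fr : Φ → K3bFrm v
  /-- the frame of an old label -/
  of : Y.C → Φ
  /-- the compatibility list of an old label -/
  cmp : Y.C → Finset Φ
  /-- the converted equation of an old label in a frame -/
  eq : Y.C → Φ → K3bEq (v.j + 1)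
  /-- good pairs -/
  Gd : Y.C → Y.C → Set (P.Lam × ℝ × ℝ)

attribute [instance] K3bCmp.fΦ K3bCmp.dΦ

namespace K3bCmp

variable {Y : KbSys P} (X : K3bCmp Y)

/-- the time with normalised time `τ` in the block of a frame -/
def tm (φ : X.Φ) (τ : ℝ) : ℝ := ((X.iv φ : ℝ) + τ) * kbQ X.n₁

/-- a trajectory in the coordinates of a frame -/
def zl (φ : X.Φ) (l : P.Lam) (t : ℝ) : Fin (v.j + 1) → ℝ := (X.fr φ).zl X.n₁ (X.iv φ) (P.co (X.wd φ) l) t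

/-- the normalised hidden coordinate -/
def om (φ : X.Φ) (l : P.Lam) (t : ℝ) : ℝ := P.B (X.wd φ) * kbW (P.co (X.wd φ) l) t

/-- the source base point of a pair -/
def z0 (c : Y.C) (x : P.Lam × ℝ × ℝ) : Fin (v.j + 1) → ℝ := X.zl (X.of c) x.1 x.2.1

/-- the hidden coordinate at the source -/
def w0 (c : Y.C) (x : P.Lam × ℝ × ℝ) : ℝ := X.om (X.of c) x.1 x.2.1

/-- the sheet of the equation of `c` in the frame `φ` which passes near `(z, w)` -/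
def sh (c : Y.C) (φ : X.Φ) (z : Fin (v.j + 1) → ℝ) (w : ℝ) : K3bSh (v.j + 1) := ⟨X.eq c φ, k3bSg ((X.eq c φ).dwR z w)⟩

/-- **the requirements** -/
structure Ok (K A₀ A₂ r ρ δ Q : ℝ) : Prop where
  n_le : X.n₁ ≤ Y.n
  iv_lt : ∀ φ, X.iv φ < 2 ^ X.n₁
  of_wd : ∀ c, X.wd (X.of c) = Y.wd c
  of_iv : ∀ c, X.iv (X.of c) = Y.k3bBk X.n₁ c
  cmp_ctx : ∀ c, ∀ φ ∈ X.cmp c, X.wd φ = Y.wd c ∧ X.iv φ = Y.k3bBk X.n₁ c
  cmp_card : ∀ c, ((X.cmp c).card : ℝ) ≤ K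
  inv : ∀ φ, (X.fr φ).M * (X.fr φ).Mi = 1
  size : ∀ φ, kbMn (X.fr φ).M ≤ kbQ X.n₁ * K
  card : (Fintype.card X.Φ : ℝ) ≤ Q
  J_low : ∀ φ, 1 ≤ Q * |(X.fr φ).M.det|
  cen : ∀ φ, ‖(X.fr φ).y0‖ + ‖(X.fr φ).y1‖ ≤ Q
  /-- the whole trace of an assigned trajectory on the new block lies in the unit cube of the frame of its label -/
  box : ∀ c, ∀ l ∈ Y.A c, ∀ τ ∈ Set.Icc (0 : ℝ) 1, ‖X.zl (X.of c) l (X.tm (X.of c) τ)‖ ≤ 1
  v1 : v = KbVer.one → ∀ c φ, (X.eq c φ).c = 0 ∧ (X.eq c φ).a0 = 1 ∧ ∀ i, (X.eq c φ).a1 i = 0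
  curv : ∀ c φ, |(X.eq c φ).c| ≤ 1 / δ
  /-- the EARLY slack of a label (03 (3.11), the cutoff `C_A`): unreplaced `Ae = E^{C₀'}`, `|c| ≤ 1/(δ E^{C_A})`; replaced `c = 0`, `Ae = E^{C₀' + C_A}` -/
  early : ∀ c, ∃ Ae : ℝ, 2 ≤ Ae ∧ Ae ≤ A₀ ∧ 16 * |(X.eq c (X.of c)).c| * δ * Ae ^ 3 ≤ 1 ∧
    (∀ l ∈ Y.A c, ∀ τ ∈ Set.Icc (0 : ℝ) 1,
      |(X.eq c (X.of c)).evR (X.zl (X.of c) l (X.tm (X.of c) τ)) (X.om (X.of c) l (X.tm (X.of c) τ))| ≤ δ * Ae ∧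
      |(X.eq c (X.of c)).dwR (X.zl (X.of c) l (X.tm (X.of c) τ)) (X.om (X.of c) l (X.tm (X.of c) τ))| ≤ Ae) ∧
    ∀ x ∈ Y.S c, 1 / Ae ≤ |(X.eq c (X.of c)).dwR (X.zl (X.of c) x.1 x.2) (X.om (X.of c) x.1 x.2)|
  Gd_meas : ∀ c c', MeasurableSet (X.Gd c c')
  Gd_sub : ∀ c c', X.Gd c c' ⊆ Y.k3bPr c c'
  Gd_ctx : ∀ c c', (X.Gd c c').Nonempty → Y.wd c = Y.wd c' ∧ Y.k3bBk X.n₁ c = Y.k3bBk X.n₁ c' ∧ X.of c ∈ X.cmp c'
  /-- bounds of the two discriminants on the complex polydisc of radius `8` (heavy entries + Remez) -/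
  Gd_bd : ∀ c c', (X.Gd c c').Nonempty → (X.eq c (X.of c)).dsc.Bd A₀ ∧ (X.eq c' (X.of c)).dsc.Bd A₀
  /-- (3.19) -/
  Gd_low : ∀ c c', ∀ x ∈ X.Gd c c', 1 / A₀ ≤ (X.eq c (X.of c)).dsc.evR (X.z0 c x) ∧ 1 / A₀ ≤ (X.eq c' (X.of c)).dsc.evR (X.z0 c x)
  /-- (3.20), the local sheet match on the cube of radius `r` about the net point of the source base point -/
  Gd_match : ∀ c c', ∀ x ∈ X.Gd c c', ∀ y : Fin (v.j + 1) → ℝ, ‖y - k3bNet ρ (X.z0 c x)‖ ≤ r →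
    |(X.sh c (X.of c) (X.z0 c x) (X.w0 c x)).f y - (X.sh c' (X.of c) (X.z0 c x) (X.w0 c x)).f y| ≤ δ * A₂
  /-- Jensen minus all exceptions -/
  big : 1 ≤ ENNReal.ofReal K * Y.k3bPM X.n₁ X.Gd
  /-- the charge: (3.16) source-base density times (3.10) label count -/
  dens : ∃ ϱ : ℝ, 0 ≤ ϱ ∧
    (∀ c, ((P.k3bLaw (Y.wd c) X.n₁ (Y.k3bBk X.n₁ c)).restrict (⋃ c', X.Gd c c')).map (X.z0 c) ≤ ENNReal.ofReal ϱ • volume.restrict (k3bCube (v.j + 1) 1)) ∧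
    ∀ (γ : P.W) (i : ℕ), (Set.ncard {c : Y.C | Y.wd c = γ ∧ Y.k3bBk X.n₁ c = i} : ℝ) * ϱ ≤ A₀

end K3bCmp

/-- **EXIT OF PART 1** (BP-252-S3e1). -/
def K3bCmpStmt (v : KbVer) : Prop :=
  ∀ (d0 S : ℝ), d0 < 1 → 0 < S → ∃ (C₀ R : ℝ), 1 ≤ C₀ ∧ 1 ≤ R ∧ ∀ B : ℝ, 1 ≤ B → ∃ C₁ : ℝ, 1 ≤ C₁ ∧
  ∀ (P : KbPb v) (Y : KbSys P) (x : K3bNum) (G : Finset ℝ) (nr : ℝ → ℝ) (n₁ : ℕ),
    K3bIn P Y x S R G nr → 0 ≤ x.d → x.d ≤ d0 → 1 ≤ x.K → n₁ ≤ Y.n → x.E = 2 ^ (Y.n - n₁) →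
    C₁ * x.K ^ C₁ ≤ x.E → Real.log x.Q ≤ x.K → C₁ * x.K ^ C₁ * x.ε ≤ 1 → 0 < x.δ → x.δ * x.E ^ C₁ ≤ 1 →
  ∀ r ρ : ℝ, x.E ^ (-B) ≤ ρ → ρ ≤ r → 64 * (x.E ^ C₀) ^ 2 * r ≤ 1 →
  ∃ X : K3bCmp Y, X.n₁ = n₁ ∧ X.Ok (C₁ * x.K ^ C₁) (x.E ^ C₀) (x.E ^ C₁) r ρ x.δ (x.Q ^ C₁)

end

end Claimed.Agent.R252
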