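import Mathlib

/-!
# ROW 252 (S0492), unit S3b (03-comparison.tex l.846-1776, L3.5 terminal time extension), file 1: ONE RADICAL IN ONE COMPLEX VARIABLE      CONTRACT (architect helper70)   -- KEEP

PAPER-FREE, Mathlib only.  Prefix `k3b_`.  The `sorry`s are the leaves `L-252-S3b-V*`, `-T*`, `-B*`.
This file replaces L3.2 (polynomial cost of continuation, 03 l.183-256; the paper uses real quantifier elimination) and all uses of L3.1 in parts 2, 3 of L3.5 by ONE elementary kit.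

## The class
`G (s) = g0 (s) + g1 (s) r (s)`, `g0, g1` complex polynomials of degree `≤ k` with ARBITRARY coefficients, `r` a continuous branch of `√Q`, `Q = q0 + q1 s + q2 s²`, on the `1/A`-neighbourhood `Ω` of a broken path
`e0 → σ → e1`; `1/A ≤ |Q|` on `Ω`, coefficients of `Q` bounded by `A`.
## The idea (uniformisation of the conic `r² = Q (s)` by the lines through one of its points `(a, 0)`, `Q (a) = 0`)
`E := Q' (a) = q1 + 2 q2 a`,   `v := r / (s - a)`.   Then `v² - q2 = E / (s - a)`, so `E^(k+1) G (s) = H (v (s)) (s - a)^(k+1)` with a POLYNOMIAL `H` of degree `≤ 2k + 2`   (`k3b_unif`).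
Lagrange interpolation of `H` at the `2k + 3` points `v (x_i)`:
 * `|v_i - v_l| |v_i + v_l| = |E| |x_i - x_l| / (|x_i - a| |x_l - a|)`   (algebra, `k3b_unif_sep`);
 * `|v (s) - v_l| ≤ length * sup |v'|`, `v' = - E / (2 r (s - a))`   (`k3b_unif_deriv`; mean value inequality on four segments: the ONLY place where the path enters);
 * `E` cancels; `|r|² = |Q| ∈ [1/A, 21 A]`; `|s - a| ≥ 1/(2A)` because `a ∉ Ω`; `|x - a| / |s' - a| ≤ 1 + 16 A`.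
Degenerate cases: `Q` has no root (`q1 = q2 = 0`) or `E = 0` (`Q = q2 (s - a)²`): `r' = Q'/(2r)` resp. `v' = 0` show that `r` is ONE polynomial of degree `≤ 1` along the path, `G` is a polynomial of degree `≤ k + 1`.
-/

set_option autoImplicit false

namespace Claimed.Agent.R252

open MeasureTheory Polynomial
open scoped ENNReal

noncomputable section

/-! ## 1. Definitions -/

/-- the quadratic `q0 + q1 s + q2 s²` -/
def k3bQ (q0 q1 q2 s : ℂ) : ℂ := q0 + q1 * s + q2 * s ^ 2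

/-- the broken path `e0 → σ → e1` -/
def k3bPath (e0 σ e1 : ℂ) : Set ℂ := segment ℝ e0 σ ∪ segment ℝ σ e1

/-- its open `ρ`-neighbourhood -/
def k3bTube (e0 σ e1 : ℂ) (ρ : ℝ) : Set ℂ := Metric.thickening ρ (k3bPath e0 σ e1)

/-- a continuous branch of `√Q` on a set -/
def K3bBr (q0 q1 q2 : ℂ) (Ω : Set ℂ) (r : ℂ → ℂ) : Prop := ContinuousOn r Ω ∧ ∀ s ∈ Ω, r s ^ 2 = k3bQ q0 q1 q2 s

/-! ## 2. Kit V -/

theorem k3b_pm_seg (P : Set ℂ) (hP : P.Nonempty) (ρ ρ' : ℝ) (hρ : ρ' < ρ) (f f' : ℂ → ℂ) (B : ℝ)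
    (hf : ∀ s ∈ Metric.thickening ρ P, HasDerivAt f (f' s) s)
    (hB : ∀ s, Metric.infDist s P ≤ ρ' → ‖f' s‖ ≤ B) (a b : ℂ)
    (hab : ∀ z ∈ segment ℝ a b, Metric.infDist z P ≤ ρ') : ‖f b - f a‖ ≤ B * ‖b - a‖ := by
  refine Convex.norm_image_sub_le_of_norm_hasDerivWithin_le (s := segment ℝ a b) (f' := f') ?_ ?_
    (convex_segment a b) (left_mem_segment ℝ a b) (right_mem_segment ℝ a b)
  · intro z hz
    refine (hf z ?_).hasDerivWithinAt
    rw [Metric.mem_thickening_iff]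
    exact (Metric.infDist_lt_iff hP).1 (lt_of_le_of_lt (hab z hz) hρ)
  · intro z hz
    exact hB z (hab z hz)

/-- **LEAF L-252-S3b-V1** (Lagrange over `ℂ`).  `Lagrange.eq_interpolate_of_eval_eq` / `Lagrange.sum_basis`, `Lagrange.eval_basis..`; model: `rmz_lagrange_formula`, `rmz_lagrange_aeval` in `R252/Remez/Free.lean` (real coefficients). -/
theorem k3b_lagrange (m : ℕ) (H : ℂ[X]) (hH : H.natDegree ≤ m) (v : Fin (m + 1) → ℂ) (x : ℂ) (Θ M : ℝ) (hΘ : 0 ≤ Θ)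
    (hv : ∀ i l, i ≠ l → v i ≠ v l) (hsep : ∀ i l, i ≠ l → ‖x - v l‖ ≤ Θ * ‖v i - v l‖) (hM : ∀ i, ‖H.eval (v i)‖ ≤ M) :
    ‖H.eval x‖ ≤ (m + 1) * Θ ^ m * M := by
  have hinj : Set.InjOn v (Finset.univ : Finset (Fin (m + 1))) := by
    intro i _ l _ h
    by_contra hne
    exact hv i l hne h
  have hdeg : H.degree < (Finset.univ : Finset (Fin (m + 1))).card := by
    rw [Finset.card_univ, Fintype.card_fin]
    refine lt_of_le_of_lt degree_le_natDegree ?_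
    exact_mod_cast Nat.lt_succ_of_le hH
  have hM0 : 0 ≤ M := le_trans (norm_nonneg _) (hM 0)
  have e := Lagrange.eq_interpolate hinj hdeg
  have hb : ∀ i, ‖(Lagrange.basis Finset.univ v i).eval x‖ ≤ Θ ^ m := by
    intro i
    rw [Lagrange.basis, eval_prod, norm_prod]
    have hc : (Finset.univ.erase i : Finset (Fin (m + 1))).card = m := by
      rw [Finset.card_erase_of_mem (Finset.mem_univ _), Finset.card_univ, Fintype.card_fin]
      rfl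
    calc ∏ j ∈ Finset.univ.erase i, ‖(Lagrange.basisDivisor (v i) (v j)).eval x‖
        ≤ ∏ _j ∈ (Finset.univ.erase i : Finset (Fin (m + 1))), Θ := by
          refine Finset.prod_le_prod (fun _ _ => norm_nonneg _) ?_
          intro j hj
          have hij : i ≠ j := (Finset.ne_of_mem_erase hj).symm
          have hne : v i - v j ≠ 0 := sub_ne_zero.2 (hv i j hij)
          have hpos : 0 < ‖v i - v j‖ := norm_pos_iff.2 hne
          rw [Lagrange.basisDivisor]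
          simp only [eval_mul, eval_C, eval_sub, eval_X, norm_mul, norm_inv]
          rw [inv_mul_le_iff₀ hpos, mul_comm]
          exact hsep i j hij
      _ = Θ ^ m := by rw [Finset.prod_const, hc]
  rw [e, Lagrange.interpolate_apply, eval_finsetSum]
  calc ‖∑ i, (C (H.eval (v i)) * Lagrange.basis Finset.univ v i).eval x‖
      ≤ ∑ i : Fin (m + 1), ‖(C (H.eval (v i)) * Lagrange.basis Finset.univ v i).eval x‖ := norm_sum_le _ _
    _ ≤ ∑ _i : Fin (m + 1), Θ ^ m * M := by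
        refine Finset.sum_le_sum fun i _ => ?_
        rw [eval_mul, eval_C, norm_mul, mul_comm]
        exact mul_le_mul (hb i) (hM i) (norm_nonneg _) (by positivity)
    _ = (m + 1) * Θ ^ m * M := by
        rw [Finset.sum_const, Finset.card_univ, Fintype.card_fin]
        simp
        ring

theorem k3b_taylor_sum (k : ℕ) (a s : ℂ) (g : ℂ[X]) (h : g.natDegree ≤ k) :
    g.eval s = ∑ j ∈ Finset.range (k + 1), (taylor a g).coeff j * (s - a) ^ j := by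
  have h1 : (taylor a g).eval (s - a) = g.eval s := by
    rw [Polynomial.taylor_eval, sub_add_cancel]
  rw [← h1, Polynomial.eval_eq_sum_range' (n := k + 1) (by rw [Polynomial.natDegree_taylor]; omega)]

theorem k3b_unif_deg1 (k : ℕ) (q2 : ℂ) (c : ℕ → ℂ) :
    (∑ j ∈ Finset.range (k + 1), C (c j) * (X ^ 2 - C q2) ^ (k + 1 - j)).natDegree ≤ 2 * k + 2 := by
  refine Polynomial.natDegree_sum_le_of_forall_le _ _ fun j hj => ?_
  have h2 : (X ^ 2 - C q2 : ℂ[X]).natDegree ≤ 2 := by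
    compute_degree
  calc (C (c j) * (X ^ 2 - C q2) ^ (k + 1 - j)).natDegree ≤ ((X ^ 2 - C q2 : ℂ[X]) ^ (k + 1 - j)).natDegree := natDegree_C_mul_le _ _
    _ ≤ (k + 1 - j) * (X ^ 2 - C q2 : ℂ[X]).natDegree := natDegree_pow_le
    _ ≤ (k + 1 - j) * 2 := by gcongr
    _ ≤ 2 * k + 2 := by omega

theorem k3b_unif_deg2 (k : ℕ) (q2 : ℂ) (c : ℕ → ℂ) :
    (X * ∑ j ∈ Finset.range (k + 1), C (c j) * (X ^ 2 - C q2) ^ (k - j)).natDegree ≤ 2 * k + 2 := by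
  have h3 : (∑ j ∈ Finset.range (k + 1), C (c j) * (X ^ 2 - C q2) ^ (k - j)).natDegree ≤ 2 * k := by
    refine Polynomial.natDegree_sum_le_of_forall_le _ _ fun j hj => ?_
    have h2 : (X ^ 2 - C q2 : ℂ[X]).natDegree ≤ 2 := by
      compute_degree
    calc (C (c j) * (X ^ 2 - C q2) ^ (k - j)).natDegree ≤ ((X ^ 2 - C q2 : ℂ[X]) ^ (k - j)).natDegree := natDegree_C_mul_le _ _
      _ ≤ (k - j) * (X ^ 2 - C q2 : ℂ[X]).natDegree := natDegree_pow_le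
      _ ≤ (k - j) * 2 := by gcongr
      _ ≤ 2 * k := by omega
  calc _ ≤ (X : ℂ[X]).natDegree + _ := natDegree_mul_le
    _ ≤ 1 + 2 * k := by gcongr; exact natDegree_X_le
    _ ≤ 2 * k + 2 := by omega

/-- **LEAF L-252-S3b-V2** (the uniformisation).  `H := ∑_{j ≤ k} γ_j E^j (X² - q2)^(k+1-j) + X ∑_{j ≤ k} γ'_j E^(j+1) (X² - q2)^(k-j)`, `γ_j`, `γ'_j` = Taylor coefficients of `g0`, `g1` at `a` (`Polynomial.taylor a`,
`Polynomial.sum_taylor_eq` / `taylor_coeff`; `g.eval s = ∑ j ∈ range (k+1), (taylor a g).coeff j * (s - a)^j`).  With `v = r/(s-a)`: `v² - q2 = E/(s-a)` (from `Q s = (s-a) (E + q2 (s-a))`, uses `Q a = 0`).  NO hypothesis `E ≠ 0`. -/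
theorem k3b_unif (k : ℕ) (q0 q1 q2 a : ℂ) (ha : k3bQ q0 q1 q2 a = 0) (g0 g1 : ℂ[X]) (h0 : g0.natDegree ≤ k) (h1 : g1.natDegree ≤ k) :
    ∃ H : ℂ[X], H.natDegree ≤ 2 * k + 2 ∧ ∀ s r : ℂ, s ≠ a → r ^ 2 = k3bQ q0 q1 q2 s →
      (q1 + 2 * q2 * a) ^ (k + 1) * (g0.eval s + g1.eval s * r) = H.eval (r / (s - a)) * (s - a) ^ (k + 1) := by
  obtain ⟨E, hE⟩ : ∃ E, E = q1 + 2 * q2 * a := ⟨_, rfl⟩
  rw [← hE]
  refine ⟨(∑ j ∈ Finset.range (k + 1), C ((taylor a g0).coeff j * E ^ j) * (X ^ 2 - C q2) ^ (k + 1 - j))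
    + X * ∑ j ∈ Finset.range (k + 1), C ((taylor a g1).coeff j * E ^ (j + 1)) * (X ^ 2 - C q2) ^ (k - j), ?_, ?_⟩
  · exact (natDegree_add_le _ _).trans (max_le (k3b_unif_deg1 k q2 _) (k3b_unif_deg2 k q2 _))
  intro s r hs hr
  have hsa : s - a ≠ 0 := sub_ne_zero.2 hs
  have e : k3bQ q0 q1 q2 s = (s - a) * (E + q2 * (s - a)) := by
    have : k3bQ q0 q1 q2 s = k3bQ q0 q1 q2 s - k3bQ q0 q1 q2 a := by rw [ha, sub_zero]
    rw [this, hE]
    unfold k3bQ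
    ring
  obtain ⟨u, hu⟩ : ∃ u, u = (r / (s - a)) ^ 2 - q2 := ⟨_, rfl⟩
  have hu2 : u * (s - a) = E := by
    rw [hu, div_pow, hr, e]
    field_simp
    ring
  have hv : r / (s - a) * (s - a) = r := div_mul_cancel₀ _ hsa
  simp only [eval_add, eval_mul, eval_finsetSum, eval_C, eval_pow, eval_sub, eval_X]
  rw [← hu, k3b_taylor_sum k a s g0 h0, k3b_taylor_sum k a s g1 h1]
  have p1 : E ^ (k + 1) * ∑ j ∈ Finset.range (k + 1), (taylor a g0).coeff j * (s - a) ^ j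
      = (∑ j ∈ Finset.range (k + 1), (taylor a g0).coeff j * E ^ j * u ^ (k + 1 - j)) * (s - a) ^ (k + 1) := by
    rw [Finset.sum_mul, Finset.mul_sum]
    refine Finset.sum_congr rfl fun j hj => ?_
    have hj' : j ≤ k := by have := Finset.mem_range.1 hj; omega
    have e1 : (s - a) ^ (k + 1) = (s - a) ^ (k + 1 - j) * (s - a) ^ j := by rw [← pow_add]; congr 1; omega
    have e2 : E ^ (k + 1) = E ^ (k + 1 - j) * E ^ j := by rw [← pow_add]; congr 1; omega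
    rw [e1, e2, ← hu2, mul_pow]
    ring
  have p2 : E ^ (k + 1) * ∑ j ∈ Finset.range (k + 1), (taylor a g1).coeff j * (s - a) ^ j
      = (∑ j ∈ Finset.range (k + 1), (taylor a g1).coeff j * E ^ (j + 1) * u ^ (k - j)) * (s - a) ^ k := by
    rw [Finset.sum_mul, Finset.mul_sum]
    refine Finset.sum_congr rfl fun j hj => ?_
    have hj' : j ≤ k := by have := Finset.mem_range.1 hj; omega
    have e1 : (s - a) ^ k = (s - a) ^ (k - j) * (s - a) ^ j := by rw [← pow_add]; congr 1; omega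
    have e2 : E ^ (k + 1) = E ^ (k - j) * E ^ (j + 1) := by rw [← pow_add]; congr 1; omega
    rw [e1, e2, ← hu2, mul_pow]
    ring
  obtain ⟨S0, hS0⟩ : ∃ S0, S0 = ∑ j ∈ Finset.range (k + 1), (taylor a g0).coeff j * (s - a) ^ j := ⟨_, rfl⟩
  obtain ⟨S1, hS1⟩ : ∃ S1, S1 = ∑ j ∈ Finset.range (k + 1), (taylor a g1).coeff j * (s - a) ^ j := ⟨_, rfl⟩
  obtain ⟨T0, hT0⟩ : ∃ T0, T0 = ∑ j ∈ Finset.range (k + 1), (taylor a g0).coeff j * E ^ j * u ^ (k + 1 - j) := ⟨_, rfl⟩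
  obtain ⟨T1, hT1⟩ : ∃ T1, T1 = ∑ j ∈ Finset.range (k + 1), (taylor a g1).coeff j * E ^ (j + 1) * u ^ (k - j) := ⟨_, rfl⟩
  rw [← hS0, ← hT0] at p1
  rw [← hS1, ← hT1] at p2
  rw [← hS0, ← hS1, ← hT0, ← hT1]
  calc E ^ (k + 1) * (S0 + S1 * r) = E ^ (k + 1) * S0 + (E ^ (k + 1) * S1) * r := by ring
    _ = T0 * (s - a) ^ (k + 1) + T1 * (s - a) ^ k * (r / (s - a) * (s - a)) := by rw [p1, p2, hv]
    _ = (T0 + r / (s - a) * T1) * (s - a) ^ (k + 1) := by ring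

/-- separation of the uniformising coordinate (pure algebra) -/
theorem k3b_unif_sep (q0 q1 q2 a : ℂ) (ha : k3bQ q0 q1 q2 a = 0) (s s' r r' : ℂ) (hs : s ≠ a) (hs' : s' ≠ a)
    (hr : r ^ 2 = k3bQ q0 q1 q2 s) (hr' : r' ^ 2 = k3bQ q0 q1 q2 s') :
    (r / (s - a) - r' / (s' - a)) * (r / (s - a) + r' / (s' - a)) = (q1 + 2 * q2 * a) * (s' - s) / ((s - a) * (s' - a)) := by
  have h1 : s - a ≠ 0 := sub_ne_zero.2 hs
  have h2 : s' - a ≠ 0 := sub_ne_zero.2 hs'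
  have e : ∀ x : ℂ, k3bQ q0 q1 q2 x = (x - a) * ((q1 + 2 * q2 * a) + q2 * (x - a)) := by
    intro x
    have : k3bQ q0 q1 q2 x = k3bQ q0 q1 q2 x - k3bQ q0 q1 q2 a := by rw [ha, sub_zero]
    rw [this]
    unfold k3bQ
    ring
  have e1 : (r / (s - a) - r' / (s' - a)) * (r / (s - a) + r' / (s' - a)) = r ^ 2 / (s - a) ^ 2 - r' ^ 2 / (s' - a) ^ 2 := by
    field_simp
    ring
  rw [e1, hr, hr', e s, e s']
  field_simp
  ring

/-- **LEAF L-252-S3b-V3** (a continuous square root of a non-vanishing quadratic is holomorphic).  `r (s+h) - r s = (Q (s+h) - Q s) / (r (s+h) + r s)`; `r (s+h) + r s → 2 r s ≠ 0` by continuity (`Ω` is open: `hΩ.mem_nhds`). -/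
theorem k3b_br_deriv (q0 q1 q2 : ℂ) (Ω : Set ℂ) (hΩ : IsOpen Ω) (r : ℂ → ℂ) (hr : K3bBr q0 q1 q2 Ω r) (s : ℂ) (hs : s ∈ Ω)
    (hne : k3bQ q0 q1 q2 s ≠ 0) : HasDerivAt r ((q1 + 2 * q2 * s) / (2 * r s)) s := by
  have hrs : r s ≠ 0 := by
    intro h0
    apply hne
    rw [← hr.2 s hs, h0]
    simp
  have hc : ContinuousAt r s := hr.1.continuousAt (hΩ.mem_nhds hs)
  have h2rs : r s + r s ≠ 0 := by
    rw [← two_mul]
    exact mul_ne_zero two_ne_zero hrs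
  have h2 : Filter.Tendsto (fun x => r x + r s) (nhds s) (nhds (r s + r s)) :=
    hc.tendsto.add tendsto_const_nhds
  rw [hasDerivAt_iff_tendsto_slope]
  have hlim : Filter.Tendsto (fun x => (q1 + q2 * (x + s)) / (r x + r s)) (nhds s)
      (nhds ((q1 + 2 * q2 * s) / (2 * r s))) := by
    have h1 : Filter.Tendsto (fun x : ℂ => q1 + q2 * (x + s)) (nhds s) (nhds (q1 + q2 * (s + s))) :=
      Continuous.tendsto (by fun_prop) s
    have h3 := h1.div h2 h2rs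
    have e : (q1 + 2 * q2 * s) / (2 * r s) = (q1 + q2 * (s + s)) / (r s + r s) := by
      rw [← two_mul, ← two_mul]
      ring
    rw [e]
    exact h3
  refine (hlim.mono_left nhdsWithin_le_nhds).congr' ?_
  have hev1 : ∀ᶠ x in nhds s, x ∈ Ω := hΩ.mem_nhds hs
  have hev2 : ∀ᶠ x in nhds s, r x + r s ≠ 0 := h2.eventually_ne h2rs
  filter_upwards [nhdsWithin_le_nhds hev1, nhdsWithin_le_nhds hev2, self_mem_nhdsWithin]
    with x hx hx2 hxs
  have hxs' : x - s ≠ 0 := sub_ne_zero.2 hxs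
  rw [slope_def_field, div_eq_div_iff hx2 hxs']
  have e1 := hr.2 x hx
  have e2 := hr.2 s hs
  unfold k3bQ at e1 e2
  linear_combination e2 - e1

/-- **LEAF L-252-S3b-V4** (derivative of the uniformising coordinate).  Quotient rule + `Q' (s) (s - a) - 2 Q (s) = - E (s - a)`. -/
theorem k3b_unif_deriv (q0 q1 q2 a : ℂ) (ha : k3bQ q0 q1 q2 a = 0) (Ω : Set ℂ) (hΩ : IsOpen Ω) (r : ℂ → ℂ) (hr : K3bBr q0 q1 q2 Ω r) (s : ℂ) (hs : s ∈ Ω)
    (hne : k3bQ q0 q1 q2 s ≠ 0) : HasDerivAt (fun x => r x / (x - a)) (-(q1 + 2 * q2 * a) / (2 * r s * (s - a))) s := by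
  have hsa : s - a ≠ 0 := by
    intro h
    rw [sub_eq_zero] at h
    exact hne (h ▸ ha)
  have hrs : r s ^ 2 = k3bQ q0 q1 q2 s := hr.2 s hs
  have hr0 : r s ≠ 0 := by
    intro h
    rw [h] at hrs
    exact hne (by rw [← hrs]; ring)
  have h3 := k3b_br_deriv q0 q1 q2 Ω hΩ r hr s hs hne
  have h4 := h3.div ((hasDerivAt_id s).sub_const a) hsa
  have e : -(q1 + 2 * q2 * a) / (2 * r s * (s - a))
      = ((q1 + 2 * q2 * s) / (2 * r s) * (id s - a) - r s * 1) / (id s - a) ^ 2 := by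
    simp only [id]
    unfold k3bQ at hrs ha
    field_simp
    linear_combination (2 : ℂ) * hrs + 2 * ha
  rw [e]
  exact h4

/-- **LEAF L-252-S3b-V5** (mean value inequality along a polygon `x → e0 → σ → e1 → s` inside the tube).  `Convex.norm_image_sub_le_of_norm_hasDerivWithin_le` on each of the four segments (a segment is convex);
`segment x e0 ⊆ closedBall e0 ρ' ⊆ tube` (`ρ' < ρ`), the two middle segments lie in the path; total length `≤ 2 ρ' + ‖σ - e0‖ + ‖e1 - σ‖`. -/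
theorem k3b_poly_mvt (e0 σ e1 : ℂ) (ρ ρ' : ℝ) (hρ' : 0 ≤ ρ') (hρ : ρ' < ρ) (f f' : ℂ → ℂ) (B : ℝ)
    (hf : ∀ s ∈ k3bTube e0 σ e1 ρ, HasDerivAt f (f' s) s)
    (hB : ∀ s, Metric.infDist s (k3bPath e0 σ e1) ≤ ρ' → ‖f' s‖ ≤ B) (x s : ℂ) (hx : ‖x - e0‖ ≤ ρ') (hs : ‖s - e1‖ ≤ ρ') :
    ‖f s - f x‖ ≤ B * (2 * ρ' + ‖σ - e0‖ + ‖e1 - σ‖) := by
  have he0 : e0 ∈ k3bPath e0 σ e1 := Or.inl (left_mem_segment ℝ e0 σ)
  have he1 : e1 ∈ k3bPath e0 σ e1 := Or.inr (right_mem_segment ℝ σ e1)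
  have hP : (k3bPath e0 σ e1).Nonempty := ⟨e0, he0⟩
  have hB0 : 0 ≤ B := by
    refine le_trans (norm_nonneg _) (hB e0 ?_)
    rw [Metric.infDist_zero_of_mem he0]
    exact hρ'
  have key := k3b_pm_seg (k3bPath e0 σ e1) hP ρ ρ' hρ f f' B hf hB
  have hball : ∀ c ∈ k3bPath e0 σ e1, ∀ a b : ℂ, ‖a - c‖ ≤ ρ' → ‖b - c‖ ≤ ρ' →
      ∀ z ∈ segment ℝ a b, Metric.infDist z (k3bPath e0 σ e1) ≤ ρ' := by
    intro c hc a b ha hb z hz
    have h1 : z ∈ Metric.closedBall c ρ' :=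
      (convex_closedBall c ρ').segment_subset (by simpa [dist_eq_norm] using ha)
        (by simpa [dist_eq_norm] using hb) hz
    exact le_trans (Metric.infDist_le_dist_of_mem hc) h1
  have k1 : ‖f e0 - f x‖ ≤ B * ‖e0 - x‖ :=
    key x e0 (hball e0 he0 x e0 hx (by simpa using hρ'))
  have k2 : ‖f σ - f e0‖ ≤ B * ‖σ - e0‖ := by
    refine key e0 σ fun z hz => ?_
    have hz' : z ∈ k3bPath e0 σ e1 := Or.inl hz
    rw [Metric.infDist_zero_of_mem hz']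
    exact hρ'
  have k3 : ‖f e1 - f σ‖ ≤ B * ‖e1 - σ‖ := by
    refine key σ e1 fun z hz => ?_
    have hz' : z ∈ k3bPath e0 σ e1 := Or.inr hz
    rw [Metric.infDist_zero_of_mem hz']
    exact hρ'
  have k4 : ‖f s - f e1‖ ≤ B * ‖s - e1‖ :=
    key e1 s (hball e1 he1 e1 s (by simpa using hρ') hs)
  have e : f s - f x = (f s - f e1) + (f e1 - f σ) + (f σ - f e0) + (f e0 - f x) := by ring
  have t1 : ‖f s - f x‖ ≤ ‖f s - f e1‖ + ‖f e1 - f σ‖ + ‖f σ - f e0‖ + ‖f e0 - f x‖ := by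
    rw [e]
    refine le_trans (norm_add_le _ _) ?_
    gcongr
    refine le_trans (norm_add_le _ _) ?_
    gcongr
    exact norm_add_le _ _
  have hx' : ‖e0 - x‖ ≤ ρ' := by rw [norm_sub_rev]; exact hx
  have m1 := mul_le_mul_of_nonneg_left hx' hB0
  have m2 := mul_le_mul_of_nonneg_left hs hB0
  nlinarith

theorem k3b_cs_path_nonempty (e0 σ e1 : ℂ) : (k3bPath e0 σ e1).Nonempty :=
  ⟨e0, Or.inl (left_mem_segment ℝ e0 σ)⟩

theorem k3b_cs_path_norm {e0 σ e1 p : ℂ} (h0 : ‖e0‖ ≤ 3) (hσ : ‖σ‖ ≤ 3) (h1 : ‖e1‖ ≤ 3) (hp : p ∈ k3bPath e0 σ e1) : ‖p‖ ≤ 3 := by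
  have hc : Convex ℝ (Metric.closedBall (0 : ℂ) 3) := convex_closedBall 0 3
  have m0 : e0 ∈ Metric.closedBall (0 : ℂ) 3 := by simpa using h0
  have mσ : σ ∈ Metric.closedBall (0 : ℂ) 3 := by simpa using hσ
  have m1 : e1 ∈ Metric.closedBall (0 : ℂ) 3 := by simpa using h1
  rcases hp with hp | hp
  · simpa using hc.segment_subset m0 mσ hp
  · simpa using hc.segment_subset mσ m1 hp

/-- points within `1/(2A)` of the path -/
theorem k3b_cs_near {A : ℝ} (hA : 2 ≤ A) {e0 σ e1 s : ℂ} (h0 : ‖e0‖ ≤ 3) (hσ : ‖σ‖ ≤ 3) (h1 : ‖e1‖ ≤ 3)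
    (hs : Metric.infDist s (k3bPath e0 σ e1) ≤ 1 / (2 * A)) : s ∈ k3bTube e0 σ e1 (1 / A) ∧ ‖s‖ ≤ 4 := by
  have hA0 : 0 < A := by linarith
  have hlt : 1 / (2 * A) < 1 / A := by
    rw [div_lt_div_iff₀ (by positivity) hA0]
    linarith
  have hlt' : Metric.infDist s (k3bPath e0 σ e1) < 1 / A := lt_of_le_of_lt hs hlt
  obtain ⟨p, hp, hd⟩ := (Metric.infDist_lt_iff (k3b_cs_path_nonempty e0 σ e1)).1 hlt'
  refine ⟨Metric.mem_thickening_iff.2 ⟨p, hp, hd⟩, ?_⟩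
  have hp3 := k3b_cs_path_norm h0 hσ h1 hp
  have hA1 : 1 / A ≤ 1 := by
    rw [div_le_one hA0]; linarith
  rw [dist_eq_norm] at hd
  have : ‖s‖ ≤ ‖s - p‖ + ‖p‖ := by
    calc ‖s‖ = ‖(s - p) + p‖ := by rw [sub_add_cancel]
      _ ≤ _ := norm_add_le _ _
  linarith

/-- the root is far from the points near the path -/
theorem k3b_cs_far {A : ℝ} (hA : 2 ≤ A) {e0 σ e1 s a : ℂ} (ha : a ∉ k3bTube e0 σ e1 (1 / A))
    (hs : Metric.infDist s (k3bPath e0 σ e1) ≤ 1 / (2 * A)) : 1 / (2 * A) ≤ ‖s - a‖ := by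
  have hA0 : 0 < A := by linarith
  have h1 : ¬ Metric.infDist a (k3bPath e0 σ e1) < 1 / A := fun h =>
    ha ((Metric.mem_thickening_iff_infDist_lt (k3b_cs_path_nonempty e0 σ e1)).2 h)
  have h2 : Metric.infDist a (k3bPath e0 σ e1) ≤ Metric.infDist s (k3bPath e0 σ e1) + dist a s :=
    Metric.infDist_le_infDist_add_dist
  rw [dist_comm, dist_eq_norm] at h2
  have e : 1 / A = 1 / (2 * A) + 1 / (2 * A) := by field_simp; ring
  rw [not_lt] at h1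
  linarith

theorem k3b_cs_ratio {A : ℝ} (hA : 2 ≤ A) {y s a : ℂ} (hy : ‖y‖ ≤ 4) (hs : ‖s‖ ≤ 4) (hsa : 1 / (2 * A) ≤ ‖s - a‖) :
    ‖y - a‖ ≤ (1 + 16 * A) * ‖s - a‖ := by
  have hA0 : 0 < A := by linarith
  have h1 : ‖y - a‖ ≤ ‖y - s‖ + ‖s - a‖ := by
    calc ‖y - a‖ = ‖(y - s) + (s - a)‖ := by rw [sub_add_sub_cancel]
      _ ≤ _ := norm_add_le _ _
  have h2 : ‖y - s‖ ≤ 8 := (norm_sub_le _ _).trans (by linarith)
  have h3 : 8 ≤ 16 * A * ‖s - a‖ := by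
    have := mul_le_mul_of_nonneg_left hsa (by positivity : (0 : ℝ) ≤ 16 * A)
    have e : 16 * A * (1 / (2 * A)) = 8 := by field_simp; norm_num
    linarith
  linarith

theorem k3b_cs_r {A : ℝ} (hA : 2 ≤ A) {q0 q1 q2 s ρ : ℂ} (hq : ‖q0‖ + ‖q1‖ + ‖q2‖ ≤ A) (hs : ‖s‖ ≤ 4)
    (hlow : 1 / A ≤ ‖k3bQ q0 q1 q2 s‖) (hρ : ρ ^ 2 = k3bQ q0 q1 q2 s) : 1 / A ≤ ‖ρ‖ ∧ ‖ρ‖ ≤ 16 * A := by
  have hA0 : 0 < A := by linarith
  have e : ‖ρ‖ ^ 2 = ‖k3bQ q0 q1 q2 s‖ := by rw [← hρ, norm_pow]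
  have hup : ‖k3bQ q0 q1 q2 s‖ ≤ 16 * A := by
    unfold k3bQ
    have h1 : ‖q0 + q1 * s + q2 * s ^ 2‖ ≤ ‖q0‖ + ‖q1‖ * ‖s‖ + ‖q2‖ * ‖s‖ ^ 2 := by
      refine (norm_add_le _ _).trans (add_le_add ((norm_add_le _ _).trans ?_) ?_)
      · rw [norm_mul]
      · rw [norm_mul, norm_pow]
    have h2 : ‖q1‖ * ‖s‖ ≤ ‖q1‖ * 4 := mul_le_mul_of_nonneg_left hs (norm_nonneg _)
    have h3 : ‖q2‖ * ‖s‖ ^ 2 ≤ ‖q2‖ * 16 := by
      refine mul_le_mul_of_nonneg_left ?_ (norm_nonneg _)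
      nlinarith [norm_nonneg s]
    nlinarith [norm_nonneg q0, norm_nonneg q1, norm_nonneg q2]
  have hA1 : 1 / A ≤ 1 := by
    rw [div_le_one hA0]; linarith
  have hAp : 0 < 1 / A := by positivity
  constructor
  · by_contra hlt
    rw [not_le] at hlt
    have : ‖ρ‖ ^ 2 < 1 / A := by nlinarith [norm_nonneg ρ]
    linarith
  · by_contra hlt
    rw [not_le] at hlt
    have : 16 * A < ‖ρ‖ ^ 2 := by nlinarith [norm_nonneg ρ]
    linarith

/-- V6 with explicit constants -/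
theorem k3b_cs_core (k : ℕ) (A η : ℝ) (hA : 2 ≤ A) (hη : 0 < η) (q0 q1 q2 e0 σ e1 a : ℂ) (h0 : ‖e0‖ ≤ 3) (hσ : ‖σ‖ ≤ 3) (h1 : ‖e1‖ ≤ 3)
    (hq : ‖q0‖ + ‖q1‖ + ‖q2‖ ≤ A) (ha : k3bQ q0 q1 q2 a = 0) (hE : q1 + 2 * q2 * a ≠ 0)
    (hlow : ∀ s ∈ k3bTube e0 σ e1 (1 / A), 1 / A ≤ ‖k3bQ q0 q1 q2 s‖) (r : ℂ → ℂ) (hr : K3bBr q0 q1 q2 (k3bTube e0 σ e1 (1 / A)) r)
    (g0 g1 : ℂ[X]) (hg0 : g0.natDegree ≤ k) (hg1 : g1.natDegree ≤ k) (x : Fin (2 * k + 3) → ℂ) (hx : ∀ i, ‖x i - e0‖ ≤ 1 / (2 * A))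
    (hsep : ∀ i l, i ≠ l → η ≤ ‖x i - x l‖) (M : ℝ) (hM : ∀ i, ‖g0.eval (x i) + g1.eval (x i) * r (x i)‖ ≤ M)
    (s : ℂ) (hs : ‖s - e1‖ ≤ 1 / (2 * A)) :
    ‖g0.eval s + g1.eval s * r s‖ ≤ (((2 * k + 2 : ℕ) : ℝ) + 1) * (104 * A ^ 2 * (1 + 16 * A) * (2 + 16 * A) / η) ^ (2 * k + 2)
      * ((1 + 16 * A) ^ (k + 1) * M) := by
  have hA0 : 0 < A := by linarith
  obtain ⟨E, hEdef⟩ : ∃ E, E = q1 + 2 * q2 * a := ⟨_, rfl⟩
  rw [← hEdef] at hE
  have hEn : 0 < ‖E‖ := norm_pos_iff.2 hE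
  have hopen : IsOpen (k3bTube e0 σ e1 (1 / A)) := Metric.isOpen_thickening
  have hAp : 0 < 1 / A := by positivity
  have hAp2 : 0 < 1 / (2 * A) := by positivity
  have hne : ∀ y ∈ k3bTube e0 σ e1 (1 / A), k3bQ q0 q1 q2 y ≠ 0 := by
    intro y hy h
    have := hlow y hy
    rw [h, norm_zero] at this
    linarith
  have hat : a ∉ k3bTube e0 σ e1 (1 / A) := fun h => hne a h ha
  have hnx : ∀ i, Metric.infDist (x i) (k3bPath e0 σ e1) ≤ 1 / (2 * A) := fun i =>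
    (Metric.infDist_le_dist_of_mem (show e0 ∈ k3bPath e0 σ e1 from Or.inl (left_mem_segment ℝ e0 σ))).trans
      (by rw [dist_eq_norm]; exact hx i)
  have hns : Metric.infDist s (k3bPath e0 σ e1) ≤ 1 / (2 * A) :=
    (Metric.infDist_le_dist_of_mem (show e1 ∈ k3bPath e0 σ e1 from Or.inr (right_mem_segment ℝ σ e1))).trans
      (by rw [dist_eq_norm]; exact hs)
  have P : ∀ y, Metric.infDist y (k3bPath e0 σ e1) ≤ 1 / (2 * A) →
      y ∈ k3bTube e0 σ e1 (1 / A) ∧ ‖y‖ ≤ 4 ∧ 1 / (2 * A) ≤ ‖y - a‖ ∧ 1 / A ≤ ‖r y‖ ∧ ‖r y‖ ≤ 16 * A := by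
    intro y hy
    obtain ⟨m1, m2⟩ := k3b_cs_near hA h0 hσ h1 hy
    obtain ⟨m3, m4⟩ := k3b_cs_r hA hq m2 (hlow y m1) (hr.2 y m1)
    exact ⟨m1, m2, k3b_cs_far hA hat hy, m3, m4⟩
  have hya : ∀ y, Metric.infDist y (k3bPath e0 σ e1) ≤ 1 / (2 * A) → y ≠ a := by
    intro y hy h
    have := (P y hy).2.2.1
    rw [h, sub_self, norm_zero] at this
    linarith
  obtain ⟨H, hHdeg, hH⟩ := k3b_unif k q0 q1 q2 a ha g0 g1 hg0 hg1
  rw [← hEdef] at hH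
  obtain ⟨v, hv⟩ : ∃ v : ℂ → ℂ, v = fun y => r y / (y - a) := ⟨_, rfl⟩
  have hvy : ∀ y, v y = r y / (y - a) := fun y => by rw [hv]
  -- the distance from `v s` to the nodes
  have hdist : ∀ l, ‖v s - v (x l)‖ ≤ ‖E‖ * A * (1 + 16 * A) / (2 * ‖x l - a‖) * 13 := by
    intro l
    have hdl : 0 < ‖x l - a‖ := lt_of_lt_of_le hAp2 (P _ (hnx l)).2.2.1
    have hlt : 1 / (2 * A) < 1 / A := by
      rw [div_lt_div_iff₀ (by positivity) hA0]
      linarith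
    have hmv := k3b_poly_mvt e0 σ e1 (1 / A) (1 / (2 * A)) hAp2.le hlt v (fun y => -E / (2 * r y * (y - a)))
      (‖E‖ * A * (1 + 16 * A) / (2 * ‖x l - a‖)) ?_ ?_ (x l) s (hx l) hs
    · refine hmv.trans (mul_le_mul_of_nonneg_left ?_ (by positivity))
      have u1 : 2 * (1 / (2 * A)) = 1 / A := by field_simp
      have u2 : 1 / A ≤ 1 := by rw [div_le_one hA0]; linarith
      have u3 : ‖σ - e0‖ ≤ 6 := (norm_sub_le _ _).trans (by linarith)
      have u4 : ‖e1 - σ‖ ≤ 6 := (norm_sub_le _ _).trans (by linarith)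
      linarith
    · intro y hy
      have := k3b_unif_deriv q0 q1 q2 a ha _ hopen r hr y hy (hne y hy)
      rw [← hEdef] at this
      rw [hv]
      exact this
    · intro y hy
      obtain ⟨m1, m2, m3, m4, m5⟩ := P y hy
      have hdy : 0 < ‖y - a‖ := lt_of_lt_of_le hAp2 m3
      have hry : 0 < ‖r y‖ := lt_of_lt_of_le hAp m4
      have hrat := k3b_cs_ratio hA (P _ (hnx l)).2.1 m2 m3
      have hAr : 1 ≤ A * ‖r y‖ := by
        have := mul_le_mul_of_nonneg_left m4 hA0.le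
        rwa [mul_one_div, div_self hA0.ne'] at this
      simp only [norm_div, norm_neg, norm_mul, Complex.norm_ofNat]
      rw [div_le_div_iff₀ (by positivity) (by positivity)]
      have key : ‖x l - a‖ ≤ (A * ‖r y‖) * ((1 + 16 * A) * ‖y - a‖) := by
        calc ‖x l - a‖ ≤ 1 * ((1 + 16 * A) * ‖y - a‖) := by rw [one_mul]; exact hrat
          _ ≤ _ := mul_le_mul_of_nonneg_right hAr (by positivity)
      have := mul_le_mul_of_nonneg_left key (by positivity : (0 : ℝ) ≤ 2 * ‖E‖)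
      nlinarith
  -- separation of the nodes
  have hsepv : ∀ i l, i ≠ l → ‖E‖ * η ≤ ‖v (x i) - v (x l)‖ * (16 * A * (2 + 16 * A) * ‖x l - a‖) := by
    intro i l hil
    obtain ⟨i1, i2, i3, i4, i5⟩ := P _ (hnx i)
    obtain ⟨l1, l2, l3, l4, l5⟩ := P _ (hnx l)
    have hdi : 0 < ‖x i - a‖ := lt_of_lt_of_le hAp2 i3
    have hdl : 0 < ‖x l - a‖ := lt_of_lt_of_le hAp2 l3
    have hs1 := k3b_unif_sep q0 q1 q2 a ha (x i) (x l) (r (x i)) (r (x l)) (hya _ (hnx i)) (hya _ (hnx l)) (hr.2 _ i1) (hr.2 _ l1)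
    rw [← hEdef, ← hvy, ← hvy] at hs1
    have hs2 := congrArg norm hs1
    rw [norm_mul, norm_div, norm_mul, norm_mul, eq_div_iff (by positivity)] at hs2
    have hplus : ‖v (x i) + v (x l)‖ * (‖x i - a‖ * ‖x l - a‖) ≤ 16 * A * (2 + 16 * A) * ‖x l - a‖ := by
      have t1 : ‖v (x i) + v (x l)‖ ≤ 16 * A / ‖x i - a‖ + 16 * A / ‖x l - a‖ := by
        refine (norm_add_le _ _).trans (add_le_add ?_ ?_)
        · rw [hvy, norm_div]; exact div_le_div_of_nonneg_right i5 hdi.le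
        · rw [hvy, norm_div]; exact div_le_div_of_nonneg_right l5 hdl.le
      have t2 : (16 * A / ‖x i - a‖ + 16 * A / ‖x l - a‖) * (‖x i - a‖ * ‖x l - a‖) = 16 * A * (‖x l - a‖ + ‖x i - a‖) := by
        field_simp
      have t3 := k3b_cs_ratio hA i2 l2 l3
      calc ‖v (x i) + v (x l)‖ * (‖x i - a‖ * ‖x l - a‖)
          ≤ (16 * A / ‖x i - a‖ + 16 * A / ‖x l - a‖) * (‖x i - a‖ * ‖x l - a‖) :=
            mul_le_mul_of_nonneg_right t1 (by positivity)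
        _ = 16 * A * (‖x l - a‖ + ‖x i - a‖) := t2
        _ ≤ 16 * A * (‖x l - a‖ + (1 + 16 * A) * ‖x l - a‖) := by gcongr
        _ = _ := by ring
    have hη' : η ≤ ‖x l - x i‖ := hsep l i (Ne.symm hil)
    calc ‖E‖ * η ≤ ‖E‖ * ‖x l - x i‖ := mul_le_mul_of_nonneg_left hη' hEn.le
      _ = ‖v (x i) - v (x l)‖ * (‖v (x i) + v (x l)‖ * (‖x i - a‖ * ‖x l - a‖)) := by rw [← hs2]; ring
      _ ≤ _ := mul_le_mul_of_nonneg_left hplus (norm_nonneg _)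
  obtain ⟨s1, s2, s3, s4, s5⟩ := P s hns
  have hds : 0 < ‖s - a‖ := lt_of_lt_of_le hAp2 s3
  have hM0 : 0 ≤ M := le_trans (norm_nonneg _) (hM 0)
  -- Lagrange
  have hL := k3b_lagrange (2 * k + 2) H hHdeg (fun i => v (x i)) (v s)
    (104 * A ^ 2 * (1 + 16 * A) * (2 + 16 * A) / η)
    (‖E‖ ^ (k + 1) * ((1 + 16 * A) ^ (k + 1) * M) / ‖s - a‖ ^ (k + 1)) (by positivity) ?_ ?_ ?_
  · have hG := congrArg norm (hH s (r s) (hya s hns) (hr.2 s s1))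
    rw [norm_mul, norm_mul, norm_pow, norm_pow, ← hvy] at hG
    have hEk : 0 < ‖E‖ ^ (k + 1) := by positivity
    have hdk : 0 < ‖s - a‖ ^ (k + 1) := by positivity
    have h2 := mul_le_mul_of_nonneg_right hL hdk.le
    rw [← hG] at h2
    have e3 : (((2 * k + 2 : ℕ) : ℝ) + 1) * (104 * A ^ 2 * (1 + 16 * A) * (2 + 16 * A) / η) ^ (2 * k + 2)
        * (‖E‖ ^ (k + 1) * ((1 + 16 * A) ^ (k + 1) * M) / ‖s - a‖ ^ (k + 1)) * ‖s - a‖ ^ (k + 1)
        = ‖E‖ ^ (k + 1) * ((((2 * k + 2 : ℕ) : ℝ) + 1) * (104 * A ^ 2 * (1 + 16 * A) * (2 + 16 * A) / η) ^ (2 * k + 2)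
          * ((1 + 16 * A) ^ (k + 1) * M)) := by
      field_simp
    rw [e3] at h2
    exact le_of_mul_le_mul_left h2 hEk
  · intro i l hil h
    have := hsepv i l hil
    rw [h, sub_self, norm_zero, zero_mul] at this
    have : 0 < ‖E‖ * η := by positivity
    linarith
  · intro i l hil
    have hdl : 0 < ‖x l - a‖ := lt_of_lt_of_le hAp2 (P _ (hnx l)).2.2.1
    have b1 := hdist l
    have b2 : ‖E‖ ≤ ‖v (x i) - v (x l)‖ * (16 * A * (2 + 16 * A) * ‖x l - a‖) / η := by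
      rw [le_div_iff₀ hη]
      exact hsepv i l hil
    calc ‖v s - v (x l)‖ ≤ ‖E‖ * (A * (1 + 16 * A) / (2 * ‖x l - a‖) * 13) := by
          refine b1.trans (le_of_eq ?_)
          ring
      _ ≤ ‖v (x i) - v (x l)‖ * (16 * A * (2 + 16 * A) * ‖x l - a‖) / η * (A * (1 + 16 * A) / (2 * ‖x l - a‖) * 13) :=
          mul_le_mul_of_nonneg_right b2 (by positivity)
      _ = 104 * A ^ 2 * (1 + 16 * A) * (2 + 16 * A) / η * ‖v (x i) - v (x l)‖ := by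
          field_simp
          ring
  · intro i
    obtain ⟨i1, i2, i3, i4, i5⟩ := P _ (hnx i)
    have hdi : 0 < ‖x i - a‖ := lt_of_lt_of_le hAp2 i3
    have hG := congrArg norm (hH (x i) (r (x i)) (hya _ (hnx i)) (hr.2 _ i1))
    rw [norm_mul, norm_mul, norm_pow, norm_pow, ← hvy] at hG
    have hrat := k3b_cs_ratio hA s2 i2 i3
    rw [le_div_iff₀ (by positivity)]
    calc ‖H.eval (v (x i))‖ * ‖s - a‖ ^ (k + 1)
        ≤ ‖H.eval (v (x i))‖ * ((1 + 16 * A) * ‖x i - a‖) ^ (k + 1) :=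
          mul_le_mul_of_nonneg_left (pow_le_pow_left₀ hds.le hrat _) (norm_nonneg _)
      _ = (‖H.eval (v (x i))‖ * ‖x i - a‖ ^ (k + 1)) * (1 + 16 * A) ^ (k + 1) := by rw [mul_pow]; ring
      _ = ‖E‖ ^ (k + 1) * ‖g0.eval (x i) + g1.eval (x i) * r (x i)‖ * (1 + 16 * A) ^ (k + 1) := by rw [← hG]
      _ ≤ ‖E‖ ^ (k + 1) * M * (1 + 16 * A) ^ (k + 1) := by
          gcongr
          exact hM i
      _ = _ := by ring

/-- **LEAF L-252-S3b-V6: the non-degenerate case** (`Q` has a simple root `a`).  Assembly of V1, V2, `k3b_unif_sep`, V4, V5 as in the header.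
`a ∉ Ω`; every `s'` with `infDist s' path ≤ 1/(2A)` has `1/(2A) ≤ ‖s' - a‖`, `‖s'‖ ≤ 4`, `1/A ≤ ‖r s'‖² ≤ 21 A`. -/
theorem k3b_cont_simple (k : ℕ) : ∃ C : ℝ, 1 ≤ C ∧ ∀ (A η : ℝ), 2 ≤ A → 0 < η → η ≤ 1 → ∀ (q0 q1 q2 e0 σ e1 a : ℂ), ‖e0‖ ≤ 3 → ‖σ‖ ≤ 3 → ‖e1‖ ≤ 3 →
    ‖q0‖ + ‖q1‖ + ‖q2‖ ≤ A → k3bQ q0 q1 q2 a = 0 → q1 + 2 * q2 * a ≠ 0 →
    (∀ s ∈ k3bTube e0 σ e1 (1 / A), 1 / A ≤ ‖k3bQ q0 q1 q2 s‖) → ∀ r : ℂ → ℂ, K3bBr q0 q1 q2 (k3bTube e0 σ e1 (1 / A)) r →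
    ∀ (g0 g1 : ℂ[X]), g0.natDegree ≤ k → g1.natDegree ≤ k → ∀ x : Fin (2 * k + 3) → ℂ, (∀ i, ‖x i - e0‖ ≤ 1 / (2 * A)) →
    (∀ i l, i ≠ l → η ≤ ‖x i - x l‖) → ∀ M : ℝ, (∀ i, ‖g0.eval (x i) + g1.eval (x i) * r (x i)‖ ≤ M) →
    ∀ s : ℂ, ‖s - e1‖ ≤ 1 / (2 * A) → ‖g0.eval s + g1.eval s * r s‖ ≤ C * (A / η) ^ C * M := by
  obtain ⟨C₁, hC₁⟩ : ∃ C₁ : ℝ, C₁ = (((2 * k + 2 : ℕ) : ℝ) + 1) * 30056 ^ (2 * k + 2) * 17 ^ (k + 1) := ⟨_, rfl⟩
  have hC₁1 : 1 ≤ C₁ := by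
    rw [hC₁]
    have a1 : (1 : ℝ) ≤ ((2 * k + 2 : ℕ) : ℝ) + 1 := by
      have : (0 : ℝ) ≤ ((2 * k + 2 : ℕ) : ℝ) := Nat.cast_nonneg _
      linarith
    have a2 : (1 : ℝ) ≤ 30056 ^ (2 * k + 2) := one_le_pow₀ (by norm_num)
    have a3 : (1 : ℝ) ≤ 17 ^ (k + 1) := one_le_pow₀ (by norm_num)
    calc (1 : ℝ) = 1 * 1 * 1 := by norm_num
      _ ≤ _ := mul_le_mul (mul_le_mul a1 a2 (by norm_num) (by linarith)) a3 (by norm_num) (by positivity)
  have hk0 : (0 : ℝ) ≤ ((9 * k + 9 : ℕ) : ℝ) := Nat.cast_nonneg _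
  refine ⟨C₁ + ((9 * k + 9 : ℕ) : ℝ), by linarith, ?_⟩
  intro A η hA hη hη1 q0 q1 q2 e0 σ e1 a h0 hσ h1 hq ha hE hlow r hr g0 g1 hg0 hg1 x hx hsep M hM s hs
  have hcore := k3b_cs_core k A η hA hη q0 q1 q2 e0 σ e1 a h0 hσ h1 hq ha hE hlow r hr g0 g1 hg0 hg1 x hx hsep M hM s hs
  have hA0 : 0 < A := by linarith
  have hM0 : 0 ≤ M := le_trans (norm_nonneg _) (hM 0)
  obtain ⟨t, ht⟩ : ∃ t : ℝ, t = A / η := ⟨_, rfl⟩
  have hAt : A ≤ t := by
    rw [ht, le_div_iff₀ hη]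
    nlinarith
  have ht1 : 1 ≤ t := by linarith
  have ht0 : 0 < t := by linarith
  have hΘ : 104 * A ^ 2 * (1 + 16 * A) * (2 + 16 * A) / η ≤ 30056 * t ^ 4 := by
    have b1 : 104 * A ^ 2 * (1 + 16 * A) * (2 + 16 * A) ≤ 30056 * A ^ 3 * A := by
      have c1 : (1 + 16 * A) * (2 + 16 * A) ≤ 289 * A ^ 2 := by nlinarith
      have c2 : 104 * A ^ 2 * ((1 + 16 * A) * (2 + 16 * A)) ≤ 104 * A ^ 2 * (289 * A ^ 2) :=
        mul_le_mul_of_nonneg_left c1 (by positivity)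
      nlinarith
    calc 104 * A ^ 2 * (1 + 16 * A) * (2 + 16 * A) / η ≤ 30056 * A ^ 3 * A / η :=
          div_le_div_of_nonneg_right b1 hη.le
      _ = 30056 * A ^ 3 * t := by rw [ht]; ring
      _ ≤ 30056 * t ^ 3 * t := by
          have : A ^ 3 ≤ t ^ 3 := pow_le_pow_left₀ hA0.le hAt 3
          nlinarith
      _ = _ := by ring
  have h17 : 1 + 16 * A ≤ 17 * t := by linarith
  have hpow : t ^ (9 * k + 9) ≤ t ^ (C₁ + ((9 * k + 9 : ℕ) : ℝ)) := by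
    rw [← Real.rpow_natCast t (9 * k + 9)]
    exact Real.rpow_le_rpow_of_exponent_le ht1 (by linarith)
  rw [← ht]
  calc ‖g0.eval s + g1.eval s * r s‖
      ≤ (((2 * k + 2 : ℕ) : ℝ) + 1) * (104 * A ^ 2 * (1 + 16 * A) * (2 + 16 * A) / η) ^ (2 * k + 2)
        * ((1 + 16 * A) ^ (k + 1) * M) := hcore
    _ ≤ (((2 * k + 2 : ℕ) : ℝ) + 1) * (30056 * t ^ 4) ^ (2 * k + 2) * ((17 * t) ^ (k + 1) * M) := by
        gcongr
    _ = C₁ * t ^ (9 * k + 9) * M := by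
        rw [hC₁, mul_pow, mul_pow, ← pow_mul]
        have : t ^ (9 * k + 9) = t ^ (4 * (2 * k + 2)) * t ^ (k + 1) := by
          rw [← pow_add]; congr 1; ring
        rw [this]
        ring
    _ ≤ (C₁ + ((9 * k + 9 : ℕ) : ℝ)) * t ^ (C₁ + ((9 * k + 9 : ℕ) : ℝ)) * M := by
        refine mul_le_mul_of_nonneg_right ?_ hM0
        exact mul_le_mul (by linarith) hpow (by positivity) (by linarith)

/-- a function with vanishing derivative in the tube is constant on the two end discs -/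
theorem k3b_degen_const (e0 σ e1 : ℂ) (ρ ρ' : ℝ) (hρ' : 0 ≤ ρ') (hρ : ρ' < ρ) (f : ℂ → ℂ)
    (hf : ∀ s ∈ k3bTube e0 σ e1 ρ, HasDerivAt f 0 s) (s : ℂ) (hs : ‖s - e0‖ ≤ ρ' ∨ ‖s - e1‖ ≤ ρ') : f s = f e0 := by
  have key : ∀ x y : ℂ, ‖x - e0‖ ≤ ρ' → ‖y - e1‖ ≤ ρ' → f y = f x := by
    intro x y hx hy
    have h := k3b_poly_mvt e0 σ e1 ρ ρ' hρ' hρ f (fun _ => 0) 0 hf (fun _ _ => by simp) x y hx hy
    rw [zero_mul] at h
    exact sub_eq_zero.1 (norm_le_zero_iff.1 h)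
  have h00 : ‖e0 - e0‖ ≤ ρ' := by simpa using hρ'
  have h11 : ‖e1 - e1‖ ≤ ρ' := by simpa using hρ'
  rcases hs with hs | hs
  · rw [← key s e1 hs h11, key e0 e1 h00 h11]
  · exact key e0 s h00 hs

/-- the two end discs lie in the tube -/
theorem k3b_degen_mem (e0 σ e1 : ℂ) (ρ ρ' : ℝ) (hρ : ρ' < ρ) (s : ℂ) (hs : ‖s - e0‖ ≤ ρ' ∨ ‖s - e1‖ ≤ ρ') :
    s ∈ k3bTube e0 σ e1 ρ := by
  unfold k3bTube
  rw [Metric.mem_thickening_iff]
  rcases hs with hs | hs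
  · exact ⟨e0, Or.inl (left_mem_segment ℝ e0 σ), by rw [dist_eq_norm]; linarith⟩
  · exact ⟨e1, Or.inr (right_mem_segment ℝ σ e1), by rw [dist_eq_norm]; linarith⟩

/-- **LEAF L-252-S3b-V7: the degenerate cases**: there are `ρ0 ρ1 : ℂ` with `r s' = ρ0 + ρ1 s'` at all points `s'` within `1/(2A)` of one of the two end points.
(i) `q1 = q2 = 0`: `r' = 0` (V3), V5 with `B = 0`: `r` is constant.  (ii) `Q a = 0`, `E = 0`: `v' = 0` (V4), V5: `v = v0` constant, `r s' = v0 (s' - a)`.   For `s'` near `e0` use V5 with the path `e0 → e0 → e0` (its tube lies in the tube).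
(A quadratic with `q1 ≠ 0` or `q2 ≠ 0` has a root: `IsAlgClosed.exists_root` or the explicit formula.) -/
theorem k3b_cont_degen (A : ℝ) (hA : 2 ≤ A) (q0 q1 q2 e0 σ e1 : ℂ) (hdeg : ∀ a, k3bQ q0 q1 q2 a = 0 → q1 + 2 * q2 * a = 0)
    (hlow : ∀ s ∈ k3bTube e0 σ e1 (1 / A), 1 / A ≤ ‖k3bQ q0 q1 q2 s‖) (r : ℂ → ℂ) (hr : K3bBr q0 q1 q2 (k3bTube e0 σ e1 (1 / A)) r) :
    ∃ ρ0 ρ1 : ℂ, ∀ s, (‖s - e0‖ ≤ 1 / (2 * A) ∨ ‖s - e1‖ ≤ 1 / (2 * A)) → r s = ρ0 + ρ1 * s := by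
  have hA0 : 0 < A := by linarith
  have hρ' : (0 : ℝ) ≤ 1 / (2 * A) := by positivity
  have hρ : 1 / (2 * A) < 1 / A := by
    rw [div_lt_div_iff₀ (by positivity) hA0]
    linarith
  have hopen : IsOpen (k3bTube e0 σ e1 (1 / A)) := Metric.isOpen_thickening
  have hne : ∀ s ∈ k3bTube e0 σ e1 (1 / A), k3bQ q0 q1 q2 s ≠ 0 := by
    intro s hs h0
    have := hlow s hs
    rw [h0, norm_zero] at this
    have : 0 < 1 / A := by positivity
    linarith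
  by_cases hq2 : q2 = 0
  · have hq1 : q1 = 0 := by
      by_contra hq1
      have hroot : k3bQ q0 q1 q2 (-q0 / q1) = 0 := by
        rw [hq2]; unfold k3bQ; field_simp; ring
      have := hdeg _ hroot
      rw [hq2] at this
      apply hq1
      simpa using this
    refine ⟨r e0, 0, fun s hs => ?_⟩
    rw [zero_mul, add_zero]
    refine k3b_degen_const e0 σ e1 (1 / A) (1 / (2 * A)) hρ' hρ r (fun x hx => ?_) s hs
    have h3 := k3b_br_deriv q0 q1 q2 _ hopen r hr x hx (hne x hx)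
    rw [hq1, hq2] at h3
    simpa using h3
  · obtain ⟨d, hd⟩ : ∃ d : ℂ, d ^ 2 = q1 ^ 2 - 4 * q0 * q2 :=
      IsAlgClosed.exists_pow_nat_eq _ (by norm_num)
    set a : ℂ := (-q1 + d) / (2 * q2) with ha
    have hroot : k3bQ q0 q1 q2 a = 0 := by
      rw [ha]; unfold k3bQ; field_simp
      linear_combination (1 : ℂ) * hd
    have hE := hdeg a hroot
    refine ⟨-(r e0 / (e0 - a)) * a, r e0 / (e0 - a), fun s hs => ?_⟩
    have hc := k3b_degen_const e0 σ e1 (1 / A) (1 / (2 * A)) hρ' hρ (fun x => r x / (x - a)) (fun x hx => ?_) s hs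
    · have hmem := k3b_degen_mem e0 σ e1 (1 / A) (1 / (2 * A)) hρ s hs
      have hsa : s - a ≠ 0 := by
        intro h
        rw [sub_eq_zero] at h
        exact hne s hmem (h ▸ hroot)
      have hc' : r s / (s - a) = r e0 / (e0 - a) := hc
      rw [← hc']
      field_simp
      ring
    · have h4 := k3b_unif_deriv q0 q1 q2 a hroot _ hopen r hr x hx (hne x hx)
      rw [hE] at h4
      simpa using h4

/-- **THE POLYNOMIAL COST OF CONTINUATION, values at nodes → end disc** (replaces 03 L3.2).  `e0 = σ = e1` is allowed (then `Ω` is a disc: "nodes control the disc", e.g. real nodes control the complex disc).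
**LEAF L-252-S3b-V8**: case split: (∃ simple root) → V6;  otherwise V7 and V1 for the polynomial `g0 + g1 (C ρ0 + C ρ1 X)` of degree `≤ k + 1 ≤ 2k + 2` with the nodes `x i` (`Θ = 8 / η`). -/
theorem k3b_cont (k : ℕ) : ∃ C : ℝ, 1 ≤ C ∧ ∀ (A η : ℝ), 2 ≤ A → 0 < η → η ≤ 1 → ∀ (q0 q1 q2 e0 σ e1 : ℂ), ‖e0‖ ≤ 3 → ‖σ‖ ≤ 3 → ‖e1‖ ≤ 3 →
    ‖q0‖ + ‖q1‖ + ‖q2‖ ≤ A →
    (∀ s ∈ k3bTube e0 σ e1 (1 / A), 1 / A ≤ ‖k3bQ q0 q1 q2 s‖) → ∀ r : ℂ → ℂ, K3bBr q0 q1 q2 (k3bTube e0 σ e1 (1 / A)) r →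
    ∀ (g0 g1 : ℂ[X]), g0.natDegree ≤ k → g1.natDegree ≤ k → ∀ x : Fin (2 * k + 3) → ℂ, (∀ i, ‖x i - e0‖ ≤ 1 / (2 * A)) →
    (∀ i l, i ≠ l → η ≤ ‖x i - x l‖) → ∀ M : ℝ, (∀ i, ‖g0.eval (x i) + g1.eval (x i) * r (x i)‖ ≤ M) →
    ∀ s : ℂ, ‖s - e1‖ ≤ 1 / (2 * A) → ‖g0.eval s + g1.eval s * r s‖ ≤ C * (A / η) ^ C * M := by
  obtain ⟨C6, hC6, h6⟩ := k3b_cont_simple k
  refine ⟨max C6 (6 * k + 6), le_trans hC6 (le_max_left _ _), ?_⟩
  intro A η hA hη hη1 q0 q1 q2 e0 σ e1 he0 hσ he1 hq hlow r hr g0 g1 hg0 hg1 x hx hsep M hM s hs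
  set C : ℝ := max C6 (6 * k + 6) with hC
  have hA0 : (0 : ℝ) < A := by linarith
  have hM0 : 0 ≤ M := le_trans (norm_nonneg _) (hM 0)
  have hAη : 1 ≤ A / η := by
    rw [le_div_iff₀ hη]
    linarith
  have hAη0 : 0 < A / η := by linarith
  by_cases hsimple : ∃ a, k3bQ q0 q1 q2 a = 0 ∧ q1 + 2 * q2 * a ≠ 0
  · obtain ⟨a, ha, hE⟩ := hsimple
    refine le_trans (h6 A η hA hη hη1 q0 q1 q2 e0 σ e1 a he0 hσ he1 hq ha hE hlow r hr g0 g1 hg0 hg1 x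
      hx hsep M hM s hs) ?_
    refine mul_le_mul_of_nonneg_right ?_ hM0
    exact mul_le_mul (le_max_left _ _) (Real.rpow_le_rpow_of_exponent_le hAη (le_max_left _ _))
      (Real.rpow_nonneg hAη0.le _) (by linarith [le_max_left C6 (6 * (k : ℝ) + 6)])
  · push Not at hsimple
    obtain ⟨ρ0, ρ1, hρ⟩ := k3b_cont_degen A hA q0 q1 q2 e0 σ e1 hsimple hlow r hr
    set P : ℂ[X] := g0 + g1 * (Polynomial.C ρ0 + Polynomial.C ρ1 * Polynomial.X) with hP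
    have hPe : ∀ z, (‖z - e0‖ ≤ 1 / (2 * A) ∨ ‖z - e1‖ ≤ 1 / (2 * A)) →
        P.eval z = g0.eval z + g1.eval z * r z := by
      intro z hz
      rw [hP, hρ z hz]
      simp
    have hlin : (Polynomial.C ρ0 + Polynomial.C ρ1 * Polynomial.X : ℂ[X]).natDegree ≤ 1 := by
      rw [add_comm]
      exact Polynomial.natDegree_linear_le
    have hPd : P.natDegree ≤ 2 * k + 2 := by
      rw [hP]
      refine le_trans (Polynomial.natDegree_add_le _ _) (max_le (by omega) ?_)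
      refine le_trans Polynomial.natDegree_mul_le ?_
      omega
    have h2A : 1 / (2 * A) ≤ 1 / 4 := by
      rw [div_le_div_iff₀ (by positivity) (by norm_num)]
      linarith
    have hxn : ∀ i, ‖x i‖ ≤ 4 := by
      intro i
      have : ‖x i‖ ≤ ‖x i - e0‖ + ‖e0‖ := by
        have := norm_add_le (x i - e0) e0
        simpa using this
      have := hx i
      linarith
    have hsn : ‖s‖ ≤ 4 := by
      have : ‖s‖ ≤ ‖s - e1‖ + ‖e1‖ := by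
        have := norm_add_le (s - e1) e1
        simpa using this
      linarith
    have hL := k3b_lagrange (2 * k + 2) P hPd x s (8 / η) M (by positivity)
      (fun i l hil h => by
        have := hsep i l hil
        rw [h, sub_self, norm_zero] at this
        linarith)
      (fun i l hil => by
        have h1 : ‖s - x l‖ ≤ 8 := by
          have := norm_sub_le s (x l)
          have := hxn l
          linarith
        have h2 : 8 ≤ 8 / η * ‖x i - x l‖ := by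
          rw [div_mul_eq_mul_div, le_div_iff₀ hη]
          have := hsep i l hil
          linarith
        linarith)
      (fun i => by rw [hPe _ (Or.inl (hx i))]; exact hM i)
    rw [hPe s (Or.inr hs)] at hL
    refine le_trans hL ?_
    refine mul_le_mul_of_nonneg_right ?_ hM0
    have hc1 : (((2 * k + 2 : ℕ) : ℝ) + 1) ≤ C := by
      refine le_trans ?_ (le_max_right _ _)
      push_cast
      have : (0 : ℝ) ≤ k := Nat.cast_nonneg _
      linarith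
    have h8 : 8 / η ≤ (A / η) ^ 3 := by
      rw [div_pow, div_le_div_iff₀ hη (by positivity)]
      have h1 : (8 : ℝ) ≤ A ^ 3 := by
        have := pow_le_pow_left₀ (by norm_num : (0 : ℝ) ≤ 2) hA 3
        norm_num at this
        exact this
      have h2 : η ^ 3 ≤ η := by
        have : η ^ 3 ≤ η ^ 1 := pow_le_pow_of_le_one hη.le hη1 (by norm_num)
        simpa using this
      exact mul_le_mul h1 h2 (by positivity) (by positivity)
    have hc2 : (8 / η) ^ (2 * k + 2) ≤ (A / η) ^ C := by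
      calc (8 / η) ^ (2 * k + 2) ≤ ((A / η) ^ 3) ^ (2 * k + 2) :=
            pow_le_pow_left₀ (by positivity) h8 _
        _ = (A / η) ^ (((6 * k + 6 : ℕ)) : ℝ) := by
            rw [Real.rpow_natCast, ← pow_mul]
            congr 1
            ring
        _ ≤ (A / η) ^ C := by
            refine Real.rpow_le_rpow_of_exponent_le hAη ?_
            refine le_trans (le_of_eq ?_) (le_max_right _ _)
            push_cast
            ring
    exact mul_le_mul hc1 hc2 (by positivity) (by linarith [le_max_left C6 (6 * (k : ℝ) + 6)])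

/-! ## 3. Tubes (03 l.1340-1378) -/

theorem k3b_ql_factor (s ζ : ℂ) (ρ : ℝ) (hρ : 0 < ρ) (hρ1 : ρ ≤ 1) (hs : ‖s‖ ≤ 3) (h : ρ ≤ ‖s - ζ‖) :
    ‖ζ‖ * (ρ / 6) ≤ ‖s - ζ‖ := by
  by_cases h6 : ‖ζ‖ ≤ 6
  · refine le_trans ?_ h
    nlinarith [norm_nonneg ζ]
  · rw [not_le] at h6
    have h1 : ‖ζ‖ - ‖s‖ ≤ ‖s - ζ‖ := by
      rw [norm_sub_rev]
      exact norm_sub_norm_le _ _
    nlinarith [norm_nonneg ζ]

/-- the volume of a rectangle in `ℂ` -/
theorem k3b_sc_rect (a b c d : ℝ) :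
    volume {w : ℂ | w.re ∈ Set.Icc a b ∧ w.im ∈ Set.Icc c d} = ENNReal.ofReal (b - a) * ENNReal.ofReal (d - c) := by
  have h : {w : ℂ | w.re ∈ Set.Icc a b ∧ w.im ∈ Set.Icc c d} = Complex.measurableEquivRealProd ⁻¹' (Set.Icc a b ×ˢ Set.Icc c d) := by
    ext w
    simp only [Set.mem_ofPred_eq, Set.mem_preimage, Complex.measurableEquivRealProd_apply, Set.mem_prod]
  rw [h, Complex.volume_preserving_equiv_real_prod.measure_preimage
    (measurableSet_Icc.prod measurableSet_Icc).nullMeasurableSet, Measure.volume_eq_prod, Measure.prod_prod,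
    Real.volume_Icc, Real.volume_Icc]

/-- the geometry: in the rotated frame the end point lies in a thin rectangle -/
theorem k3b_sc_geo (w : ℂ) (lam d ρ R : ℝ) (hρ : 0 < ρ) (hd : 2 * ρ ≤ d) (hl0 : 0 ≤ lam) (hw : ‖w‖ ≤ R)
    (h : ‖(lam : ℂ) * w - (d : ℂ)‖ ≤ ρ) : w.re ∈ Set.Icc 0 R ∧ w.im ∈ Set.Icc (-(2 * ρ * R / d)) (2 * ρ * R / d) := by
  have hd0 : 0 < d := by linarith
  have h1 : |lam * w.re - d| ≤ ρ := by
    have := (Complex.abs_re_le_norm ((lam : ℂ) * w - (d : ℂ))).trans h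
    simpa using this
  have h2 : |lam * w.im| ≤ ρ := by
    have := (Complex.abs_im_le_norm ((lam : ℂ) * w - (d : ℂ))).trans h
    simpa using this
  have h3 : w.re ≤ R := (Complex.re_le_norm w).trans hw
  obtain ⟨h1a, h1b⟩ := abs_le.1 h1
  have h4 : d / 2 ≤ lam * w.re := by linarith
  have hlpos : 0 < lam := by
    rcases hl0.lt_or_eq with h | h
    · exact h
    · rw [← h] at h4; linarith
  have hre : 0 < w.re := by
    by_contra hneg
    rw [not_lt] at hneg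
    nlinarith
  have h5 : d / 2 ≤ lam * R := h4.trans (mul_le_mul_of_nonneg_left h3 hl0)
  have h6 : |w.im| ≤ 2 * ρ * R / d := by
    rw [abs_mul, abs_of_pos hlpos] at h2
    rw [le_div_iff₀ hd0]
    have := abs_nonneg w.im
    nlinarith
  exact ⟨⟨hre.le, h3⟩, abs_le.1 h6⟩

/-- **LEAF L-252-S3b-T1** (a segment from `e` to a random `σ` meets a small disc with small probability).  Put `u = (ζ - e)/d`, `d = ‖ζ - e‖`, coordinates `σ - e = (x + i y) u`.  If `s = e + λ (σ - e)` is in the disc then `|y_s| ≤ ρ`, `x_s ≥ d - ρ ≥ d/2`,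
so `λ > 0`, `0 < x_σ ≤ R`, `|y_σ| ≤ (2ρ/d) x_σ ≤ 2ρR/d`: the set lies in a rotated rectangle `R × 4ρR/d`.  Lebesgue measure on `ℂ` is invariant under `σ ↦ e + u σ` (`Complex.volume_preserving_equiv_real_prod`, a linear isometry preserves `volume`;
or `MeasureTheory.Measure.addHaar_image_linearMap` with determinant `‖u‖² = 1`). -/
theorem k3b_seg_cone (e ζ : ℂ) (ρ R : ℝ) (hρ : 0 < ρ) (hR : 0 < R) (hd : 2 * ρ ≤ ‖ζ - e‖) :
    volume {σ : ℂ | ‖σ - e‖ ≤ R ∧ ∃ s ∈ segment ℝ e σ, ‖s - ζ‖ ≤ ρ} ≤ ENNReal.ofReal (4 * R ^ 2 * ρ / ‖ζ - e‖) := by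
  obtain ⟨d, hdd⟩ : ∃ d : ℝ, d = ‖ζ - e‖ := ⟨_, rfl⟩
  rw [← hdd] at hd ⊢
  have hd0 : 0 < d := by linarith
  obtain ⟨c₀, hc₀⟩ : ∃ c₀ : ℂ, c₀ = (starRingEnd ℂ) (ζ - e) / (d : ℂ) := ⟨_, rfl⟩
  have hdC : (d : ℂ) ≠ 0 := by exact_mod_cast hd0.ne'
  have hn : ‖c₀‖ = 1 := by
    rw [hc₀, norm_div, Complex.norm_conj, Complex.norm_real, Real.norm_eq_abs, abs_of_pos hd0, ← hdd, div_self hd0.ne']
  have hcz : c₀ * (ζ - e) = (d : ℂ) := by
    rw [hc₀, div_mul_eq_mul_div, Complex.conj_mul', ← hdd]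
    field_simp
  let c : Circle := ⟨c₀, mem_sphere_zero_iff_norm.2 hn⟩
  have hcc : (c : ℂ) = c₀ := rfl
  have hT : MeasurePreserving (fun σ : ℂ => rotation c (σ - e)) volume volume :=
    (rotation c).measurePreserving.comp (measurePreserving_sub_right volume e)
  have hRect : MeasurableSet {w : ℂ | w.re ∈ Set.Icc 0 R ∧ w.im ∈ Set.Icc (-(2 * ρ * R / d)) (2 * ρ * R / d)} :=
    (measurableSet_Icc.preimage Complex.measurable_re).inter (measurableSet_Icc.preimage Complex.measurable_im)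
  have hsub : {σ : ℂ | ‖σ - e‖ ≤ R ∧ ∃ s ∈ segment ℝ e σ, ‖s - ζ‖ ≤ ρ} ⊆
      (fun σ : ℂ => rotation c (σ - e)) ⁻¹' {w : ℂ | w.re ∈ Set.Icc 0 R ∧ w.im ∈ Set.Icc (-(2 * ρ * R / d)) (2 * ρ * R / d)} := by
    rintro σ ⟨hσ, s, hs, hsζ⟩
    rw [segment_eq_image'] at hs
    obtain ⟨lam, ⟨hl0, hl1⟩, rfl⟩ := hs
    rw [Set.mem_preimage, rotation_apply, hcc]
    refine k3b_sc_geo (c₀ * (σ - e)) lam d ρ R hρ hd hl0 (by rw [norm_mul, hn, one_mul]; exact hσ) ?_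
    have e1 : (lam : ℂ) * (c₀ * (σ - e)) - (d : ℂ) = c₀ * (e + lam • (σ - e) - ζ) := by
      rw [← hcz, Complex.real_smul]
      ring
    rw [e1, norm_mul, hn, one_mul]
    exact hsζ
  calc volume {σ : ℂ | ‖σ - e‖ ≤ R ∧ ∃ s ∈ segment ℝ e σ, ‖s - ζ‖ ≤ ρ}
      ≤ volume ((fun σ : ℂ => rotation c (σ - e)) ⁻¹' {w : ℂ | w.re ∈ Set.Icc 0 R ∧ w.im ∈ Set.Icc (-(2 * ρ * R / d)) (2 * ρ * R / d)}) :=
        measure_mono hsub
    _ = volume {w : ℂ | w.re ∈ Set.Icc 0 R ∧ w.im ∈ Set.Icc (-(2 * ρ * R / d)) (2 * ρ * R / d)} :=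
        hT.measure_preimage hRect.nullMeasurableSet
    _ = ENNReal.ofReal (R - 0) * ENNReal.ofReal (2 * ρ * R / d - -(2 * ρ * R / d)) := k3b_sc_rect _ _ _ _
    _ = ENNReal.ofReal (4 * R ^ 2 * ρ / d) := by
        rw [← ENNReal.ofReal_mul (by linarith)]
        congr 1
        field_simp
        ring

/-- **LEAF L-252-S3b-T2** ("factor the polynomial and compare each factor with its value at zero").  `c ≠ 0`: `p = c (s - ζ₁)(s - ζ₂)`, `a = c ζ₁ ζ₂`; each ratio `‖s - ζ‖/‖ζ‖` is `≥ ρ/6` (`‖ζ‖ ≤ 6`) or `≥ 1/2` (`‖ζ‖ > 6`, `‖s‖ ≤ 3`).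
`c = 0 ≠ b`: one factor.  `b = c = 0`: equality up to `(ρ/6)² ≤ 1`.  `a = 0`: trivial. -/
theorem k3b_quad_lower (a b c s : ℂ) (ρ : ℝ) (hρ : 0 < ρ) (hρ1 : ρ ≤ 1) (hs : ‖s‖ ≤ 3) (h : ∀ ζ : ℂ, k3bQ a b c ζ = 0 → ρ ≤ ‖s - ζ‖) :
    ‖a‖ * (ρ / 6) ^ 2 ≤ ‖k3bQ a b c s‖ := by
  have hρ6 : ρ / 6 ≤ 1 := by linarith
  have hρ60 : 0 ≤ ρ / 6 := by positivity
  by_cases hc : c = 0
  · by_cases hb : b = 0
    · subst hc hb
      have : k3bQ a 0 0 s = a := by simp [k3bQ]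
      rw [this]
      have : (ρ / 6) ^ 2 ≤ 1 := pow_le_one₀ hρ60 hρ6
      nlinarith [norm_nonneg a]
    · subst hc
      set ζ : ℂ := -a / b with hζ
      have hroot : k3bQ a b 0 ζ = 0 := by
        rw [hζ]; unfold k3bQ; field_simp; ring
      have hf := k3b_ql_factor s ζ ρ hρ hρ1 hs (h ζ hroot)
      have e1 : k3bQ a b 0 s = b * (s - ζ) := by
        rw [hζ]; unfold k3bQ; field_simp; ring
      have e2 : a = -(b * ζ) := by
        rw [hζ]; field_simp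
      rw [e1, norm_mul]
      have e3 : ‖a‖ = ‖b‖ * ‖ζ‖ := by
        conv_lhs => rw [e2]
        rw [norm_neg, norm_mul]
      rw [e3]
      have h1 : ‖ζ‖ * (ρ / 6) * (ρ / 6) ≤ ‖s - ζ‖ * 1 :=
        mul_le_mul hf hρ6 hρ60 (norm_nonneg _)
      calc ‖b‖ * ‖ζ‖ * (ρ / 6) ^ 2 = ‖b‖ * (‖ζ‖ * (ρ / 6) * (ρ / 6)) := by ring
        _ ≤ ‖b‖ * (‖s - ζ‖ * 1) := mul_le_mul_of_nonneg_left h1 (norm_nonneg _)
        _ = ‖b‖ * ‖s - ζ‖ := by ring
  · obtain ⟨d, hd⟩ : ∃ d : ℂ, d ^ 2 = b ^ 2 - 4 * a * c :=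
      IsAlgClosed.exists_pow_nat_eq _ (by norm_num)
    set ζ₁ : ℂ := (-b + d) / (2 * c) with h1
    set ζ₂ : ℂ := (-b - d) / (2 * c) with h2
    have hfac : ∀ x : ℂ, k3bQ a b c x = c * (x - ζ₁) * (x - ζ₂) := by
      intro x
      rw [h1, h2]
      unfold k3bQ
      field_simp
      linear_combination (1 : ℂ) * hd
    have r1 : k3bQ a b c ζ₁ = 0 := by rw [hfac]; simp
    have r2 : k3bQ a b c ζ₂ = 0 := by rw [hfac]; simp
    have f1 := k3b_ql_factor s ζ₁ ρ hρ hρ1 hs (h ζ₁ r1)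
    have f2 := k3b_ql_factor s ζ₂ ρ hρ hρ1 hs (h ζ₂ r2)
    have ea : a = c * ζ₁ * ζ₂ := by
      have := hfac 0
      simp [k3bQ] at this
      rw [this]
    have e3 : ‖a‖ = ‖c‖ * ‖ζ₁‖ * ‖ζ₂‖ := by
      conv_lhs => rw [ea]
      rw [norm_mul, norm_mul]
    rw [hfac, norm_mul, norm_mul, e3]
    have h3 : (‖ζ₁‖ * (ρ / 6)) * (‖ζ₂‖ * (ρ / 6)) ≤ ‖s - ζ₁‖ * ‖s - ζ₂‖ :=
      mul_le_mul f1 f2 (by positivity) (norm_nonneg _)
    calc ‖c‖ * ‖ζ₁‖ * ‖ζ₂‖ * (ρ / 6) ^ 2 = ‖c‖ * ((‖ζ₁‖ * (ρ / 6)) * (‖ζ₂‖ * (ρ / 6))) := by ring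
      _ ≤ ‖c‖ * (‖s - ζ₁‖ * ‖s - ζ₂‖) := mul_le_mul_of_nonneg_left h3 (norm_nonneg _)
      _ = ‖c‖ * ‖s - ζ₁‖ * ‖s - ζ₂‖ := by ring

/-- roots are far from a point where the polynomial is not small -/
theorem k3b_root_far (a b c ζ : ℂ) (K : ℝ) (hK : 1 ≤ K) (hbc : ‖b‖ + ‖c‖ ≤ K) (ha : 1 / K ≤ ‖a‖) (hζ : k3bQ a b c ζ = 0) : 1 / K ^ 2 ≤ ‖ζ‖ := by
  have hK0 : 0 < K := by linarith
  by_cases h1 : 1 ≤ ‖ζ‖
  · refine le_trans ?_ h1
    rw [div_le_one (by positivity)]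
    nlinarith
  · rw [not_le] at h1
    have e : a = -(b * ζ + c * ζ ^ 2) := by
      unfold k3bQ at hζ
      linear_combination hζ
    have h2 : ‖a‖ ≤ K * ‖ζ‖ := by
      rw [e, norm_neg]
      calc ‖b * ζ + c * ζ ^ 2‖ ≤ ‖b‖ * ‖ζ‖ + ‖c‖ * ‖ζ‖ ^ 2 := by
            refine (norm_add_le _ _).trans ?_
            rw [norm_mul, norm_mul, norm_pow]
        _ ≤ ‖b‖ * ‖ζ‖ + ‖c‖ * ‖ζ‖ := by
            have : ‖ζ‖ ^ 2 ≤ ‖ζ‖ := by nlinarith [norm_nonneg ζ]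
            nlinarith [norm_nonneg c]
        _ = (‖b‖ + ‖c‖) * ‖ζ‖ := by ring
        _ ≤ K * ‖ζ‖ := by nlinarith [norm_nonneg ζ]
    have h3 : 1 / K ≤ K * ‖ζ‖ := ha.trans h2
    rw [div_le_iff₀ (by positivity)]
    rw [div_le_iff₀ hK0] at h3
    nlinarith

/-- a non-zero quadratic has at most two roots -/
theorem k3b_roots_fin45 (a b c : ℂ) (ha : a ≠ 0) : ∃ S : Finset ℂ, S.card ≤ 2 ∧ ∀ ζ, k3bQ a b c ζ = 0 → ζ ∈ S := by
  set p : ℂ[X] := C a + C b * X + C c * X ^ 2 with hp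
  have hp0 : p ≠ 0 := by
    intro h
    have := congrArg (fun q => q.coeff 0) h
    simp [hp] at this
    exact ha this
  have hdeg : p.natDegree ≤ 2 := by rw [hp]; compute_degree
  refine ⟨p.roots.toFinset, ?_, ?_⟩
  · exact (Multiset.toFinset_card_le _).trans ((Polynomial.card_roots' p).trans hdeg)
  · intro ζ hζ
    rw [Multiset.mem_toFinset, Polynomial.mem_roots hp0, Polynomial.IsRoot.def]
    simp only [hp, eval_add, eval_mul, eval_C, eval_X, eval_pow]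
    exact hζ

/-- **LEAF L-252-S3b-T3: a random detour avoids the zeros** (03 l.1356-1375).  The roots `ζ` (at most two: `Polynomial.card_roots'` or the explicit factorisation) satisfy `‖ζ‖ ≥ 1/K²`, `‖ζ - 1‖ ≥ 1/(3K²)` (`k3b_root_far` for `p` and for `x ↦ p (1 + x)`);
bad `σ` ⊆ four sets of T1 with radius `2ρ`, `R = 3`; if all roots are `≥ 2ρ` away from the path, T2 applies at every `s'` within `ρ` of the path (`‖s'‖ ≤ 3`). -/
theorem k3b_tube_prob : ∃ C : ℝ, 1 ≤ C ∧ ∀ (K ρ : ℝ), 1 ≤ K → 0 < ρ → C * K ^ 2 * ρ ≤ 1 → ∀ a b c : ℂ, ‖a‖ + ‖b‖ + ‖c‖ ≤ K → 1 / K ≤ ‖a‖ → 1 / K ≤ ‖a + b + c‖ →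
    volume {σ : ℂ | ‖σ‖ ≤ 2 ∧ ∃ s' ∈ k3bTube 0 σ 1 ρ, ‖k3bQ a b c s'‖ < (ρ / 6) ^ 2 / K} ≤ ENNReal.ofReal (C * K ^ 2 * ρ) := by
  classical
  refine ⟨1440, by norm_num, ?_⟩
  intro K ρ hK hρ hC a b c habc ha h1
  have hK0 : 0 < K := by linarith
  have hK2 : 1 ≤ K ^ 2 := one_le_pow₀ hK
  have hρ1 : ρ ≤ 1 := by nlinarith
  have ha0 : a ≠ 0 := by
    intro h
    rw [h, norm_zero] at ha
    have : 0 < 1 / K := by positivity
    linarith
  obtain ⟨S, hS2, hS⟩ := k3b_roots_fin45 a b c ha0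
  have na := norm_nonneg a
  have nb := norm_nonneg b
  have nc := norm_nonneg c
  have far0 : ∀ ζ, k3bQ a b c ζ = 0 → 1 / K ^ 2 ≤ ‖ζ - 0‖ := by
    intro ζ hζ
    rw [sub_zero]
    exact k3b_root_far a b c ζ K hK (by linarith) ha hζ
  have far1 : ∀ ζ, k3bQ a b c ζ = 0 → 1 / (9 * K ^ 2) ≤ ‖ζ - 1‖ := by
    intro ζ hζ
    have h3 : k3bQ (a + b + c) (b + 2 * c) c (ζ - 1) = 0 := by
      rw [← hζ]
      unfold k3bQ
      ring
    have h4 : ‖b + 2 * c‖ + ‖c‖ ≤ 3 * K := by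
      have : ‖b + 2 * c‖ ≤ ‖b‖ + 2 * ‖c‖ := by
        refine (norm_add_le _ _).trans ?_
        rw [norm_mul]
        simp
      linarith
    have h5 : 1 / (3 * K) ≤ ‖a + b + c‖ := by
      refine le_trans ?_ h1
      exact one_div_le_one_div_of_le hK0 (by linarith)
    have := k3b_root_far (a + b + c) (b + 2 * c) c (ζ - 1) (3 * K) (by linarith) h4 h5 h3
    have e : (3 * K) ^ 2 = 9 * K ^ 2 := by ring
    rwa [e] at this
  have hsub : {σ : ℂ | ‖σ‖ ≤ 2 ∧ ∃ s' ∈ k3bTube 0 σ 1 ρ, ‖k3bQ a b c s'‖ < (ρ / 6) ^ 2 / K} ⊆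
      ⋃ ζ ∈ S.filter (fun ζ => k3bQ a b c ζ = 0), ({σ : ℂ | ‖σ - 0‖ ≤ 3 ∧ ∃ s ∈ segment ℝ 0 σ, ‖s - ζ‖ ≤ 2 * ρ} ∪ {σ : ℂ | ‖σ - 1‖ ≤ 3 ∧ ∃ s ∈ segment ℝ 1 σ, ‖s - ζ‖ ≤ 2 * ρ}) := by
    rintro σ ⟨hσ, s', hs', hlt⟩
    obtain ⟨p, hp, hdist⟩ := Metric.mem_thickening_iff.1 hs'
    have hc : Convex ℝ (Metric.closedBall (0 : ℂ) 2) := convex_closedBall 0 2
    have m0 : (0 : ℂ) ∈ Metric.closedBall (0 : ℂ) 2 := by simp
    have mσ : σ ∈ Metric.closedBall (0 : ℂ) 2 := by simpa using hσ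
    have m1 : (1 : ℂ) ∈ Metric.closedBall (0 : ℂ) 2 := by simp
    have hp2 : ‖p‖ ≤ 2 := by
      rcases hp with hp | hp
      · simpa using hc.segment_subset m0 mσ hp
      · simpa using hc.segment_subset mσ m1 hp
    rw [dist_eq_norm] at hdist
    have hs3 : ‖s'‖ ≤ 3 := by
      have : ‖s'‖ ≤ ‖s' - p‖ + ‖p‖ := by
        have := norm_add_le (s' - p) p
        rwa [sub_add_cancel] at this
      linarith
    have hex : ∃ ζ, k3bQ a b c ζ = 0 ∧ ‖s' - ζ‖ < ρ := by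
      by_contra hno
      push Not at hno
      have h2 := k3b_quad_lower a b c s' ρ hρ hρ1 hs3 hno
      have h3 : (ρ / 6) ^ 2 / K ≤ ‖a‖ * (ρ / 6) ^ 2 := by
        rw [div_eq_mul_one_div, mul_comm]
        exact mul_le_mul_of_nonneg_right ha (by positivity)
      linarith
    obtain ⟨ζ, hζ, hζρ⟩ := hex
    have hpζ : ‖p - ζ‖ ≤ 2 * ρ := by
      have e : p - ζ = (s' - ζ) - (s' - p) := by ring
      rw [e]
      exact (norm_sub_le _ _).trans (by linarith)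
    refine Set.mem_iUnion₂.2 ⟨ζ, Finset.mem_filter.2 ⟨hS ζ hζ, hζ⟩, ?_⟩
    rcases hp with hp | hp
    · exact Or.inl ⟨by rw [sub_zero]; linarith, p, hp, hpζ⟩
    · refine Or.inr ⟨?_, p, by rwa [segment_symm], hpζ⟩
      refine (norm_sub_le _ _).trans ?_
      rw [norm_one]
      linarith
  have hb0 : ∀ ζ, k3bQ a b c ζ = 0 → volume {σ : ℂ | ‖σ - 0‖ ≤ 3 ∧ ∃ s ∈ segment ℝ 0 σ, ‖s - ζ‖ ≤ 2 * ρ} ≤ ENNReal.ofReal (72 * K ^ 2 * ρ) := by
    intro ζ hζ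
    have hf := far0 ζ hζ
    have hpos : 0 < ‖ζ - 0‖ := lt_of_lt_of_le (by positivity) hf
    have hK3 : 1 ≤ K ^ 2 * ‖ζ - 0‖ := by
      rw [div_le_iff₀ (by positivity)] at hf
      linarith
    refine (k3b_seg_cone 0 ζ (2 * ρ) 3 (by positivity) (by norm_num) ?_).trans (ENNReal.ofReal_le_ofReal ?_)
    · nlinarith
    · rw [div_le_iff₀ hpos]
      nlinarith
  have hb1 : ∀ ζ, k3bQ a b c ζ = 0 → volume {σ : ℂ | ‖σ - 1‖ ≤ 3 ∧ ∃ s ∈ segment ℝ 1 σ, ‖s - ζ‖ ≤ 2 * ρ} ≤ ENNReal.ofReal (648 * K ^ 2 * ρ) := by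
    intro ζ hζ
    have hf := far1 ζ hζ
    have hpos : 0 < ‖ζ - 1‖ := lt_of_lt_of_le (by positivity) hf
    have hK3 : 1 ≤ 9 * K ^ 2 * ‖ζ - 1‖ := by
      rw [div_le_iff₀ (by positivity)] at hf
      linarith
    refine (k3b_seg_cone 1 ζ (2 * ρ) 3 (by positivity) (by norm_num) ?_).trans (ENNReal.ofReal_le_ofReal ?_)
    · nlinarith
    · rw [div_le_iff₀ hpos]
      nlinarith
  refine (measure_mono hsub).trans ((measure_biUnion_finset_le _ _).trans ?_)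
  calc ∑ ζ ∈ S.filter (fun ζ => k3bQ a b c ζ = 0), volume ({σ : ℂ | ‖σ - 0‖ ≤ 3 ∧ ∃ s ∈ segment ℝ 0 σ, ‖s - ζ‖ ≤ 2 * ρ} ∪ {σ : ℂ | ‖σ - 1‖ ≤ 3 ∧ ∃ s ∈ segment ℝ 1 σ, ‖s - ζ‖ ≤ 2 * ρ})
      ≤ ∑ _ζ ∈ S.filter (fun ζ => k3bQ a b c ζ = 0), ENNReal.ofReal (720 * K ^ 2 * ρ) := by
        refine Finset.sum_le_sum fun ζ hζ => ?_
        have hζ0 := (Finset.mem_filter.1 hζ).2
        refine (measure_union_le _ _).trans ((add_le_add (hb0 ζ hζ0) (hb1 ζ hζ0)).trans (le_of_eq ?_))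
        rw [← ENNReal.ofReal_add (by positivity) (by positivity)]
        congr 1
        ring
    _ = ((S.filter (fun ζ => k3bQ a b c ζ = 0)).card : ℝ≥0∞) * ENNReal.ofReal (720 * K ^ 2 * ρ) := by
        rw [Finset.sum_const, nsmul_eq_mul]
    _ ≤ 2 * ENNReal.ofReal (720 * K ^ 2 * ρ) := by
        gcongr
        exact_mod_cast (Finset.card_filter_le _ _).trans hS2
    _ = ENNReal.ofReal (1440 * K ^ 2 * ρ) := by
        rw [show (2 : ℝ≥0∞) = ENNReal.ofReal 2 by simp, ← ENNReal.ofReal_mul (by norm_num)]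
        congr 1
        ring

/-! ## 4. Branches on convex sets and on tubes in several variables -/

/-- clamping the time to `[0,1]` -/
def k3bClamp (t : ℝ) : ℝ := max 0 (min 1 t)

theorem k3b_clamp_cont : Continuous k3bClamp := by
  unfold k3bClamp
  fun_prop

theorem k3b_clamp_mem (t : ℝ) : k3bClamp t ∈ Set.Icc (0 : ℝ) 1 :=
  ⟨le_max_left _ _, max_le zero_le_one (min_le_left _ _)⟩

theorem k3b_clamp_eq {t : ℝ} (ht : t ∈ Set.Icc (0 : ℝ) 1) : k3bClamp t = t := by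
  unfold k3bClamp
  rw [min_eq_right ht.2, max_eq_right ht.1]

/-- the logarithmic derivative along the ray from `zs` to `z` -/
def k3bLd {E : Type} [NormedAddCommGroup E] [NormedSpace ℝ E] (D : E → ℂ) (zs z : E) (t : ℝ) : ℂ :=
  fderiv ℝ D (zs + k3bClamp t • (z - zs)) (z - zs) / D (zs + k3bClamp t • (z - zs))

theorem k3b_ray_mem {E : Type} [NormedAddCommGroup E] [NormedSpace ℝ E] {K : Set E} (hK : Convex ℝ K) {zs z : E} (hzs : zs ∈ K) (hz : z ∈ K) {t : ℝ}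
    (ht : t ∈ Set.Icc (0 : ℝ) 1) : zs + t • (z - zs) ∈ K :=
  hK.add_smul_sub_mem hzs hz ht

theorem k3b_Ld_cont {E : Type} [NormedAddCommGroup E] [NormedSpace ℝ E] (D : E → ℂ) (hD : ContDiff ℝ 1 D) (K : Set E) (hK : Convex ℝ K)
    (hne : ∀ z ∈ K, D z ≠ 0) (zs : E) (hzs : zs ∈ K) : Continuous (Function.uncurry fun (x : K) (t : ℝ) => k3bLd D zs x.1 t) := by
  have hγ : Continuous fun p : K × ℝ => zs + k3bClamp p.2 • ((p.1 : E) - zs) :=
    continuous_const.add ((k3b_clamp_cont.comp continuous_snd).smul ((continuous_subtype_val.comp continuous_fst).sub continuous_const))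
  have h1 : Continuous fun p : K × ℝ => fderiv ℝ D (zs + k3bClamp p.2 • ((p.1 : E) - zs)) ((p.1 : E) - zs) :=
    ((hD.continuous_fderiv (by norm_num)).comp hγ).clm_apply ((continuous_subtype_val.comp continuous_fst).sub continuous_const)
  have h2 : Continuous fun p : K × ℝ => D (zs + k3bClamp p.2 • ((p.1 : E) - zs)) := hD.continuous.comp hγ
  exact h1.div h2 fun p => hne _ (k3b_ray_mem hK hzs p.1.2 (k3b_clamp_mem p.2))

theorem k3b_exp_log {E : Type} [NormedAddCommGroup E] [NormedSpace ℝ E] (D : E → ℂ) (hD : ContDiff ℝ 1 D) (K : Set E) (hK : Convex ℝ K)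
    (hne : ∀ z ∈ K, D z ≠ 0) (zs : E) (hzs : zs ∈ K) (z : E) (hz : z ∈ K) :
    D z = D zs * Complex.exp (∫ t in (0 : ℝ)..1, k3bLd D zs z t) := by
  have hg : Continuous fun t : ℝ => k3bLd D zs z t :=
    (k3b_Ld_cont D hD K hK hne zs hzs).comp (Continuous.prodMk (continuous_const (y := (⟨z, hz⟩ : K))) continuous_id)
  have hΛ : ∀ t : ℝ, HasDerivAt (fun u : ℝ => ∫ x in (0 : ℝ)..u, k3bLd D zs z x) (k3bLd D zs z t) t :=
    fun t => (hg.integral_hasStrictDerivAt 0 t).hasDerivAt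
  have hd : ∀ t : ℝ, HasDerivAt (fun u : ℝ => D (zs + u • (z - zs))) (fderiv ℝ D (zs + t • (z - zs)) (z - zs)) t := by
    intro t
    have h1 : HasDerivAt (fun u : ℝ => zs + u • (z - zs)) (z - zs) t := by
      simpa using ((hasDerivAt_id t).smul_const (z - zs)).const_add zs
    exact ((hD.differentiable (by norm_num)) _).hasFDerivAt.comp_hasDerivAt t h1
  have hφ : ∀ t ∈ Set.Icc (0 : ℝ) 1, HasDerivAt (fun u : ℝ => D (zs + u • (z - zs)) * Complex.exp (-∫ x in (0 : ℝ)..u, k3bLd D zs z x)) 0 t := by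
    intro t ht
    have h1 := (hd t).mul ((hΛ t).neg.cexp)
    have hne' : D (zs + t • (z - zs)) ≠ 0 := hne _ (k3b_ray_mem hK hzs hz ht)
    have e0 : fderiv ℝ D (zs + t • (z - zs)) (z - zs) * Complex.exp (-∫ x in (0 : ℝ)..t, k3bLd D zs z x)
        + D (zs + t • (z - zs)) * (Complex.exp (-∫ x in (0 : ℝ)..t, k3bLd D zs z x) * -k3bLd D zs z t) = 0 := by
      have e1 : k3bLd D zs z t = fderiv ℝ D (zs + t • (z - zs)) (z - zs) / D (zs + t • (z - zs)) := by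
        unfold k3bLd
        rw [k3b_clamp_eq ht]
      rw [e1]
      field_simp
      ring
    exact e0 ▸ h1
  have hconst := constant_of_has_deriv_right_zero (f := fun u : ℝ => D (zs + u • (z - zs)) * Complex.exp (-∫ x in (0 : ℝ)..u, k3bLd D zs z x)) (a := 0) (b := 1)
    (fun t ht => (hφ t ht).continuousAt.continuousWithinAt) (fun t ht => (hφ t ⟨ht.1, ht.2.le⟩).hasDerivWithinAt) 1 ⟨zero_le_one, le_refl _⟩
  simp only [one_smul, zero_smul, add_zero, intervalIntegral.integral_same, neg_zero, Complex.exp_zero, mul_one, add_sub_cancel] at hconst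
  rw [← hconst, mul_assoc, ← Complex.exp_add, neg_add_cancel, Complex.exp_zero, mul_one]

/-- **LEAF L-252-S3b-B1** (continuous square roots on convex sets, by the logarithmic integral along rays).  `L z := ∫ t in 0..1, (fderiv ℝ D (zs + t (z - zs)) (z - zs)) / D (zs + t (z - zs))`, `r z := rs * exp (L z / 2)`.
`exp (L z) = D z / D zs`: `φ t = D (γ t) * exp (- ∫_0^t ..)` has derivative `0` on `[0,1]`.  Continuity of `L` on `K`: `intervalIntegral.continuousOn..`/`continuous_parametric_intervalIntegral_of_continuous` on the subtype `K`, after clamping `t` to `[0,1]` (`Set.projIcc`). -/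
theorem k3b_sqrt_convex {E : Type} [NormedAddCommGroup E] [NormedSpace ℝ E] (D : E → ℂ) (hD : ContDiff ℝ 1 D) (K : Set E) (hK : Convex ℝ K)
    (hne : ∀ z ∈ K, D z ≠ 0) (zs : E) (hzs : zs ∈ K) (rs : ℂ) (hrs : rs ^ 2 = D zs) :
    ∃ r : E → ℂ, ContinuousOn r K ∧ (∀ z ∈ K, r z ^ 2 = D z) ∧ r zs = rs := by
  refine ⟨fun z => rs * Complex.exp ((∫ t in (0 : ℝ)..1, k3bLd D zs z t) / 2), ?_, ?_, ?_⟩
  · rw [continuousOn_iff_continuous_domRestrict]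
    have h1 : Continuous fun x : K => ∫ t in (0 : ℝ)..1, k3bLd D zs x.1 t :=
      intervalIntegral.continuous_parametric_intervalIntegral_of_continuous' (k3b_Ld_cont D hD K hK hne zs hzs) 0 1
    exact continuous_const.mul (Complex.continuous_exp.comp (h1.div_const 2))
  · intro z hz
    show (rs * Complex.exp ((∫ t in (0 : ℝ)..1, k3bLd D zs z t) / 2)) ^ 2 = D z
    rw [mul_pow, hrs, ← Complex.exp_nat_mul, k3b_exp_log D hD K hK hne zs hzs z hz]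
    congr 2
    push_cast
    ring
  · show rs * Complex.exp ((∫ t in (0 : ℝ)..1, k3bLd D zs zs t) / 2) = rs
    have : ∀ t : ℝ, k3bLd D zs zs t = 0 := by
      intro t
      unfold k3bLd
      rw [sub_self, map_zero, zero_div]
    simp only [this, intervalIntegral.integral_zero, zero_div, Complex.exp_zero, mul_one]

/-- **LEAF L-252-S3b-B2** (uniqueness).  `r / r'` is continuous on `K` with values in `{1, -1}`: `IsPreconnected.constant` / `IsPreconnected.eqOn_const_of_mapsTo` for the discrete set `{1, -1}`; or: `{r = r'}` and `{r = -r'}` are relatively closed, disjoint, cover `K`. -/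
theorem k3b_sqrt_unique {E : Type} [TopologicalSpace E] (K : Set E) (hK : IsPreconnected K) (r r' : E → ℂ) (hr : ContinuousOn r K) (hr' : ContinuousOn r' K)
    (hsq : ∀ z ∈ K, r z ^ 2 = r' z ^ 2) (hne : ∀ z ∈ K, r z ≠ 0) (zs : E) (hzs : zs ∈ K) (h : r zs = r' zs) : Set.EqOn r r' K := by
  have hne' : ∀ z ∈ K, r' z ≠ 0 := by
    intro z hz h0
    have := hsq z hz
    rw [h0] at this
    exact hne z hz (by simpa using this)
  have hc : ContinuousOn (fun z => r z / r' z) K := hr.div hr' hne'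
  have hT : IsDiscrete ({1, -1} : Set ℂ) := (Set.toFinite _).isDiscrete
  have hm : Set.MapsTo (fun z => r z / r' z) K ({1, -1} : Set ℂ) := by
    intro z hz
    have h1 : (r z / r' z) ^ 2 = 1 := by
      rw [div_pow, hsq z hz, div_self (pow_ne_zero 2 (hne' z hz))]
    rcases sq_eq_one_iff.mp h1 with h2 | h2
    · exact Or.inl h2
    · exact Or.inr h2
  intro z hz
  have h1 : r z / r' z = r zs / r' zs := hK.constant_of_mapsTo hT hc hm hz hzs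
  rw [h, div_self (hne' zs hzs), div_eq_one_iff_eq (hne' z hz)] at h1
  exact h1

/-- **LEAF L-252-S3b-B3** (two convex open pieces).  B1 on `K₁` from `zs`; B1 on `K₂` from a common point `zm` with the value `r₁ zm`; B2 on `K₁ ∩ K₂` (convex, hence preconnected); glue with `if z ∈ K₁`; continuity on the union of two open sets (`ContinuousOn.union_of_isOpen` or `continuousOn_open_iff`, locally the glued function equals `r₁` or `r₂`). -/
theorem k3b_sqrt_two {E : Type} [NormedAddCommGroup E] [NormedSpace ℝ E] (D : E → ℂ) (hD : ContDiff ℝ 1 D) (K₁ K₂ : Set E) (h₁ : Convex ℝ K₁) (h₂ : Convex ℝ K₂)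
    (o₁ : IsOpen K₁) (o₂ : IsOpen K₂) (hm : (K₁ ∩ K₂).Nonempty) (hne : ∀ z ∈ K₁ ∪ K₂, D z ≠ 0) (zs : E) (hzs : zs ∈ K₁) (rs : ℂ) (hrs : rs ^ 2 = D zs) :
    ∃ r : E → ℂ, ContinuousOn r (K₁ ∪ K₂) ∧ (∀ z ∈ K₁ ∪ K₂, r z ^ 2 = D z) ∧ r zs = rs := by
  obtain ⟨zm, hm1, hm2⟩ := hm
  obtain ⟨r₁, c₁, s₁, e₁⟩ := k3b_sqrt_convex D hD K₁ h₁ (fun z hz => hne z (Or.inl hz)) zs hzs rs hrs
  obtain ⟨r₂, c₂, s₂, e₂⟩ := k3b_sqrt_convex D hD K₂ h₂ (fun z hz => hne z (Or.inr hz)) zm hm2 (r₁ zm) (s₁ zm hm1)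
  have heq : Set.EqOn r₁ r₂ (K₁ ∩ K₂) := by
    refine k3b_sqrt_unique (K₁ ∩ K₂) (h₁.inter h₂).isPreconnected r₁ r₂ (c₁.mono Set.inter_subset_left) (c₂.mono Set.inter_subset_right) ?_ ?_ zm ⟨hm1, hm2⟩ e₂.symm
    · intro z hz
      rw [s₁ z hz.1, s₂ z hz.2]
    · intro z hz h0
      have := s₁ z hz.1
      rw [h0] at this
      exact hne z (Or.inl hz.1) (by simpa using this.symm)
  classical
  have g₁ : ∀ z ∈ K₁, (if z ∈ K₁ then r₁ z else r₂ z) = r₁ z := fun z hz => if_pos hz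
  have g₂ : ∀ z ∈ K₂, (if z ∈ K₁ then r₁ z else r₂ z) = r₂ z := by
    intro z hz
    by_cases h : z ∈ K₁
    · rw [if_pos h]
      exact heq ⟨h, hz⟩
    · rw [if_neg h]
  refine ⟨fun z => if z ∈ K₁ then r₁ z else r₂ z, ?_, ?_, ?_⟩
  · rintro z (hz | hz)
    · refine ContinuousAt.continuousWithinAt ?_
      refine ((c₁.continuousAt (o₁.mem_nhds hz))).congr ?_
      filter_upwards [o₁.mem_nhds hz] with y hy
      exact (g₁ y hy).symm
    · refine ContinuousAt.continuousWithinAt ?_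
      refine ((c₂.continuousAt (o₂.mem_nhds hz))).congr ?_
      filter_upwards [o₂.mem_nhds hz] with y hy
      exact (g₂ y hy).symm
  · rintro z (hz | hz)
    · show (if z ∈ K₁ then r₁ z else r₂ z) ^ 2 = D z
      rw [g₁ z hz, s₁ z hz]
    · show (if z ∈ K₁ then r₁ z else r₂ z) ^ 2 = D z
      rw [g₂ z hz, s₂ z hz]
  · show (if zs ∈ K₁ then r₁ zs else r₂ zs) = rs
    rw [g₁ zs hzs, e₁]

end

end Claimed.Agent.R252
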