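import Claimed.Agent.R252.S3b.ExtGlueB

/-!
# ROW 252 (S0492), unit S3b, post BP-252-S3-EXTGLUE (helper15), file C: THE GLUE  `K3bHubStmt v → ` statement of `kp4_term_ext` (L3.5, 03 l.846).      No `sorry`.

* `k3g_sl_seq`    all subpower hypotheses of `K3bIn` hold eventually with slack `N^τ`;
* `k3g_read`      reading back: the thickness `a'_k` has an exponent `L' ∈ [L - C e, L - e]`, the output systems form a known atlas at depth `L'`;
* `k3g_term_ext`  **the statement of `kp4_term_ext` from the one-scale hub.**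
-/

set_option autoImplicit false

namespace Claimed.Agent.R252

open MeasureTheory Filter Topology
open Claimed.Agent.R255 (uf)
open scoped ENNReal BigOperators

noncomputable section

variable {v : KbVer}

theorem k3g_sl_seq (E : KbEx v) (hE : E.Ok) (Y : E.Sys) (h l φ : ℝ) (y : E.IsSys Y E.L h) (t : E.IsTrue Y φ) (s : E.IsSat Y φ)
    (kn : E.IsKnown Y E.L) (ax : ∀ τ : ℝ, 0 < τ → ∀ᶠ k in uf, ∀ c, (Y k).q ≤ E.R.N k ^ τ * kbMn ((Y k).ch c).D) (n : E.Narrow Y l)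
    (τ : ℝ) (hτ : 0 < τ) :
    ∀ᶠ k in uf, K3gSl (E.P k) (Y k) (E.R.N k ^ (-E.L)) (E.R.N k ^ (-φ)) (k3gG v (E.R.N k ^ l)) (E.R.N k ^ τ) := by
  obtain ⟨M, hM⟩ := y.1
  obtain ⟨MP, hMP⟩ := hE.2.1
  have h7 : 0 < τ / 7 := by positivity
  filter_upwards [hM, hMP, hE.2.2 τ hτ, y.2.1 τ hτ, t τ hτ, s τ hτ, kn τ hτ, y.2.1 (τ / 7) h7, ax (τ / 7) h7, n (τ / 7) h7,
    k3g_two_le E.R h7 32] with k a1 a2 a3 a4 a5 a6 a7 b1 b2 b3 b4
  have hN0 := kb_L3_pos E.R k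
  set N := E.R.N k with hN
  set K₀ := N ^ (τ / 7) with hK₀
  have hK1 : 1 ≤ K₀ := by linarith
  have hK0 : 0 < K₀ := by linarith
  have hG0 : 0 < N ^ l := Real.rpow_pos_of_pos hN0 _
  have hJ := k3g_J_one (Y k) a1.1 hK1 hG0 b1.1 b2 (fun c => ⟨by
      have c1 := (b3 c).1
      calc N ^ l = K₀ * N ^ (-(-l) - τ / 7) := by
            rw [hK₀, ← Real.rpow_add hN0]
            congr 1
            ring
        _ ≤ _ := mul_le_mul_of_nonneg_left c1 hK0.le, by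
      have c2 := (b3 c).2
      calc _ ≤ N ^ (-(-l) + τ / 7) := c2
        _ = K₀ * N ^ l := by
            rw [hK₀, ← Real.rpow_add hN0]
            congr 1
            ring⟩)
  have hKK : K₀ ≤ 2 * K₀ ^ 2 := by nlinarith
  have hax := k3g_axes (Y k) a1.1 (K := 2 * K₀ ^ 2) (by nlinarith) (k3g_G_pos v hG0).le
    (k2s_geo_mono (Y k) a2.1 b1.1 hKK (Real.rpow_pos_of_pos hN0 _).le)
    (fun c => (b2 c).trans (mul_le_mul_of_nonneg_right hKK (k3g_mn_nonneg _))) hJ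
  have hfin : 4 * (2 * K₀ ^ 2) ^ 3 ≤ N ^ τ := by
    have e1 : N ^ τ = K₀ ^ 7 := by
      rw [hK₀, ← Real.rpow_natCast, ← Real.rpow_mul hN0.le]
      congr 1
      push_cast
      ring
    rw [e1]
    have : 0 < K₀ ^ 6 := by positivity
    nlinarith
  exact ⟨a3, a4.1, a4.2, a5, a6, a7, k3g_axes_mono (Y k) (k3g_G_pos v hG0).le hfin hax⟩

theorem k3g_read (E : KbEx v) (hE : E.Ok) (h' e C M' : ℝ) (he : 0 < e) (heC : e * C < E.L) (Y' : E.Sys) (a' K : ℕ → ℝ)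
    (hK : KbSubP E.R K) (hq : KbExp E.R (fun k => (Y' k).q) h')
    (hlo : ∀ᶠ k in uf, E.R.N k ^ (-(E.L - e)) ≤ 2 * a' k) (hhi : ∀ᶠ k in uf, a' k ≤ E.R.N k ^ (-(E.L - e * C)))
    (hwf : ∀ᶠ k in uf, (Y' k).WF ∧ (Y' k).Tmp (E.R.N k ^ M'))
    (hgeo : ∀ᶠ k in uf, (Y' k).Geo (K k) (a' k) ∧ (Y' k).Big (K k) ∧ (Y' k).Known ((E.P k).hid (E.R.N k ^ (-E.L))) (K k)) :
    ∃ L' : ℝ, 0 < L' ∧ L' < E.L ∧ E.L - L' ≤ C * e ∧ E.IsAtlas Y' L' h' := by
  obtain ⟨MP, hMP⟩ := hE.2.1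
  have hL := hE.1
  have hpoly : ∀ᶠ k in uf, E.R.N k ^ (-E.L) ≤ a' k ∧ a' k ≤ E.R.N k ^ E.L := by
    filter_upwards [hlo, hhi, k3g_two_le E.R he 2] with k a1 a2 a3
    have hN0 := kb_L3_pos E.R k
    constructor
    · have e1 : E.R.N k ^ (-(E.L - e)) = E.R.N k ^ (-E.L) * E.R.N k ^ e := by
        rw [← Real.rpow_add hN0]
        congr 1
        ring
      have hp := kb_L3_rpow_pos E.R k (-E.L)
      rw [e1] at a1
      nlinarith
    · exact a2.trans ((kb_L3_rpow_le_iff E.R k).2 (by linarith))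
  obtain ⟨hexp, -⟩ := kb_exp_exists E.R hpoly
  set L' := kbExpo E.R a' with hL'
  have hpos : ∀ᶠ k in uf, 0 < a' k := kb_L3_exp_pos E.R hexp
  have u1 : L' ≤ E.L - e := by
    refine kb_exp_le E.R (k3g_exp_rpow E.R (E.L - e)) hexp ?_
    intro τ hτ
    filter_upwards [hlo, hpos, k3g_two_le E.R hτ 2] with k a1 a2 a3
    exact a1.trans (mul_le_mul_of_nonneg_right a3 a2.le)
  have u2 : E.L - e * C ≤ L' := by
    refine kb_exp_le E.R hexp (k3g_exp_rpow E.R (E.L - e * C)) ?_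
    intro τ hτ
    filter_upwards [hhi] with k a1
    exact a1.trans (le_mul_of_one_le_left (kb_L3_rpow_pos E.R k _).le (kb_L3_one_le_rpow E.R k hτ.le))
  refine ⟨L', by linarith, by linarith, by linarith, ⟨⟨M', hwf⟩, fun τ hτ => ?_, hq⟩, fun τ hτ => ?_⟩
  · filter_upwards [hMP, hgeo, hexp (τ / 2) (by positivity), hK (τ / 2) (by positivity)] with k a0 a1 a2 a3
    have hN0 := kb_L3_pos E.R k
    have hs : 1 ≤ E.R.N k ^ (τ / 2) := kb_L3_one_le_rpow E.R k (by positivity)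
    have g1 : (Y' k).Geo (K k * E.R.N k ^ (τ / 2)) (E.R.N k ^ (-L')) := by
      refine k3g_geo_change a0.1 (Y' k) (by linarith [a3.1]) hs ?_ ?_ a1.1
      · rw [← Real.rpow_add hN0, add_comm]
        exact a2.2
      · have e1 : E.R.N k ^ (-L') = E.R.N k ^ (τ / 2) * E.R.N k ^ (-L' - τ / 2) := by
          rw [← Real.rpow_add hN0]
          congr 1
          ring
        rw [e1]
        exact mul_le_mul_of_nonneg_left a2.1 (by linarith)
    have hKτ : K k ≤ E.R.N k ^ τ := a3.2.trans ((kb_L3_rpow_le_iff E.R k).2 (by linarith))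
    refine ⟨k2s_geo_mono (Y' k) a0.1 g1 ?_ (kb_L3_rpow_pos E.R k _).le, k2s_big_mono (Y' k) a1.2.1 hKτ⟩
    rw [← kb_rpow_half E.R τ k]
    exact mul_le_mul_of_nonneg_right a3.2 (by linarith)
  · filter_upwards [hgeo, hK τ hτ] with k a1 a3
    exact k2s_known_mono (Y' k) a1.2.2 a3.2

set_option maxHeartbeats 1000000 in
/-- **L3.5 terminal time extension from the one-scale hub** (the statement of `kp4_term_ext`, `S4/Rate.lean`). -/
theorem k3g_term_ext (hub : K3bHubStmt v) (d₀ S η : ℝ) (hd : d₀ < 1) (hS : 0 < S) (hη : 0 < η) :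
    ∃ C c : ℝ, 0 < C ∧ 0 < c ∧ ∀ (E : KbEx v) (d : ℝ) (f : ℝ → ℝ → ℝ), d ≤ d₀ → E.Cap d S η f →
      ∀ (Y : E.Sys) (h : ℝ), 0 < h → E.IsTrueSys f Y E.L h → ∀ e : ℝ, 0 < e → e < h → e < c * E.L →
        ∃ (Y' : E.Sys) (L' : ℝ), 0 < L' ∧ L' < E.L ∧ E.L - L' ≤ C * e ∧ E.IsAtlas Y' L' (h - e) := by
  obtain ⟨C, R, hC1, hR1, H⟩ := hub d₀ S hd hS
  have hC0 : 0 < C := by linarith
  have hR0 : 0 < R := by linarith
  refine ⟨C, min (η / R) (1 / C), hC0, lt_min (by positivity) (by positivity), ?_⟩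
  intro E d f hdd hCap Y h hh hY e he heh hec
  have hE := hCap.ok
  have hL := hE.1
  have heR : e * R ≤ η * E.L := by
    have h1 : e < η / R * E.L := hec.trans_le (mul_le_mul_of_nonneg_right (min_le_left _ _) hL.le)
    have h2 : e * R < η / R * E.L * R := mul_lt_mul_of_pos_right h1 hR0
    have h3 : η / R * E.L * R = η * E.L := by field_simp
    linarith
  have heC : e * C < E.L := by
    have h1 : e < 1 / C * E.L := hec.trans_le (mul_le_mul_of_nonneg_right (min_le_right _ _) hL.le)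
    have h2 : e * C < 1 / C * E.L * C := mul_lt_mul_of_pos_right h1 hC0
    have h3 : 1 / C * E.L * C = E.L := by field_simp
    linarith
  have hd0 : 0 ≤ d := by
    have p := kb_profile E hE f hCap.hom
    have h1 := p.r_mono 0 E.L 0 le_rfl hL.le le_rfl le_rfl
    have h2 := hCap.endp 0 ⟨le_rfl, hL.le⟩
    by_contra hc
    have hc' : d < 0 := not_le.1 hc
    nlinarith
  obtain ⟨Y₃, l, y3, t3, s3, k3, ax3, n3⟩ := k3g_prep E d S η hS hη f hCap Y h hY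
  obtain ⟨τs, -, -, hK0, hsl⟩ := kb_slow E.R
    (fun k τ => K3gSl (E.P k) (Y₃ k) (E.R.N k ^ (-E.L)) (E.R.N k ^ (-(f E.L 0))) (k3gG v (E.R.N k ^ l)) (E.R.N k ^ τ))
    (k3g_sl_seq E hE Y₃ h l (f E.L 0) y3 t3 s3 k3 ax3 n3)
  obtain ⟨MP, hMP⟩ := hE.2.1
  obtain ⟨MY, hMY⟩ := y3.1
  set M := max MP MY with hM
  obtain ⟨Γ, hΓL, hΓ0, hΓ, hΓs⟩ := k3g_grid E.L (e / 2) hL (by positivity)
  obtain ⟨c₁, hc₁, hcap⟩ := k3g_pow_finset E.R Γ
    (fun r => E.massOf fun k => (E.P k).above (E.hid r k) (E.R.N k ^ (-(f r 0) + e / 2)))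
    (fun r hr => (hCap.hom.pure r (hΓ r hr)).1 (e / 2) (by positivity))
  set τ' := min (e / (2 * S)) (e * R / 2) with hτ'
  have hτ0 : 0 < τ' := lt_min (by positivity) (by positivity)
  have hτ1 : S * τ' ≤ e / 2 := by
    have h1 : τ' ≤ e / (2 * S) := min_le_left _ _
    calc S * τ' ≤ S * (e / (2 * S)) := mul_le_mul_of_nonneg_left h1 hS.le
      _ = e / 2 := by field_simp
  have hτ2 : τ' ≤ e * R / 2 := min_le_right _ _
  set u := e * R - τ' with hu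
  have heR0 : 0 < e * R := by positivity
  have hu0 : 0 < u := by linarith
  have huL : u ≤ η * E.L := by linarith
  obtain ⟨c₂, hc₂, hang⟩ := (hCap.hom.joint E.L ⟨hL.le, le_rfl⟩ u hu0.le).1 (e / 4) (by positivity)
  have hfu : f E.L 0 + S * u ≤ f E.L u := hCap.ang u hu0 huL
  set c₀ := min c₁ c₂ with hc₀
  have hc0 : 0 < c₀ := lt_min hc₁ hc₂
  set K : ℕ → ℝ := fun k => max (E.R.N k ^ τs k) (max ((Γ.card : ℝ) + 1) ((|M| + 1) * (1 + Real.log (E.R.N k)))) with hKdef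
  have hK : KbSubP E.R K :=
    kb_subp_max E.R hK0 (kb_subp_max E.R (kb_subp_const E.R (by
      have : (0 : ℝ) ≤ Γ.card := Nat.cast_nonneg _
      linarith)) (kb_subp_mul E.R (kb_subp_const E.R (by
      have := abs_nonneg M
      linarith)) (kb_subp_log E.R)))
  have hKC := kb_subp_pow E.R hK hC1
  have main : ∀ᶠ k in uf, ∃ (Y' : KbSys (E.P k)) (a' : ℝ), Y'.n = (Y₃ k).n - k3gM (E.R.N k) e ∧ k3gM (E.R.N k) e ≤ (Y₃ k).n ∧
      E.R.N k ^ (-E.L) * 2 ^ k3gM (E.R.N k) e ≤ a' ∧ a' ≤ E.R.N k ^ (-E.L) * ((2 : ℝ) ^ k3gM (E.R.N k) e) ^ C ∧ Y'.WF ∧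
      Y'.Geo (C * K k ^ C) a' ∧ Y'.Big (C * K k ^ C) ∧ Y'.Known ((E.P k).hid (E.R.N k ^ (-E.L))) (C * K k ^ C) ∧
      Y'.Tmp ((E.R.N k ^ M) ^ C) := by
    filter_upwards [hsl, hMP, hMY, hcap, hang, hK 1 one_pos, hKC (e / 2) (by positivity), hKC c₀ hc0,
      y3.2.2 (h - e) (by linarith), k3g_two_le E.R (show 0 < e / 2 by positivity) 2,
      k3g_two_le E.R (show 0 < e / 4 by positivity) 2, k3g_two_le E.R hτ0 (2 ^ R)] with k a1 a2 a3 a4 a5 a6 a7 a8 a9 b1 b2 b3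
    have hN : 1 < E.R.N k := kb_L3_one_lt E.R k
    have hN0 : 0 < E.R.N k := kb_L3_pos E.R k
    set N := E.R.N k with hNdef
    set m := k3gM N e with hm
    set Eg : ℝ := 2 ^ m with hEg
    have hE0 : 0 < Eg := by positivity
    have hEle : Eg ≤ N ^ e := k3g_E_le hN he.le
    have hEge : N ^ e ≤ 2 * Eg := k3g_E_ge hN e
    have hE2 : N ^ (e / 2) ≤ Eg := k3g_num_half hN b1 hEge
    have hmn : m ≤ (Y₃ k).n := by
      refine k3g_num_lvl hN he.le ?_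
      have : (Y₃ k).q ≤ N ^ (-h + (h - e)) := a9.2
      have e1 : -h + (h - e) = -e := by ring
      rw [e1] at this
      exact this
    have hK0k : N ^ τs k ≤ K k := le_max_left _ _
    have hK1k : (Γ.card : ℝ) ≤ K k := by
      have : (Γ.card : ℝ) + 1 ≤ K k := (le_max_left _ _).trans (le_max_right _ _)
      linarith
    have hK2k : (|M| + 1) * (1 + Real.log N) ≤ K k := (le_max_right _ _).trans (le_max_right _ _)
    have hg0 : 0 < k3gG v (N ^ l) := k3g_G_pos v (Real.rpow_pos_of_pos hN0 _)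
    have hin := k3g_in (N := N) (L := E.L) (e := e) (S := S) (R := R) (d := d) (M := M) (K := K k) (c₀ := c₀)
      (g := k3gG v (N ^ l)) (u := u) (Eg := Eg) (f := f) (Γ := Γ) hN a2.1
      (k2n_s2_pb_tmp_mono a2.1 (Real.rpow_le_rpow_of_exponent_le hN.le (le_max_left _ _)) a2.2) a3.1
      (k2s_tmp_mono (Y₃ k) a3.2 (Real.rpow_le_rpow_of_exponent_le hN.le (le_max_right _ _)))
      (k3g_sl_mono a2.1 (Real.rpow_pos_of_pos hN0 _).le (Real.rpow_pos_of_pos hN0 _).le hg0.le hK0k a1)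
      hg0 (k3g_G_le v _) (fun hv => if_pos hv) hΓL hΓ0 hΓs hK1k a6.1
      (fun r hr => hCap.endp r (hΓ r hr))
      (fun r hr => (a4 r hr).trans (Real.rpow_le_rpow_of_exponent_le hN.le (neg_le_neg (min_le_left _ _))))
      (a5.trans (Real.rpow_le_rpow_of_exponent_le hN.le (neg_le_neg (min_le_right _ _))))
      hE0 hE2 (k3g_num_b hN hR0.le hE0 hEge b3)
      (k3g_num_hi hN (mul_pos hS hR0).le hE0 hEge hEle b2 (by
        have : S * u = e * (S * R) - S * τ' := by rw [hu]; ring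
        linarith))
    obtain ⟨Y', a', o1, o2, o3, o4, o5, o6, o7, o8⟩ := H (E.P k) (Y₃ k) _ _ _ ((Y₃ k).n - m) hin hd0 hdd a6.1 (Nat.sub_le _ _)
      (by
        show Eg = 2 ^ ((Y₃ k).n - ((Y₃ k).n - m))
        rw [Nat.sub_sub_self hmn])
      (a7.2.trans hE2)
      (by
        show Real.log (N ^ M) ≤ K k
        rw [Real.log_rpow hN0]
        refine le_trans ?_ hK2k
        have hl : 0 ≤ Real.log N := Real.log_nonneg hN.le
        have h1 : M ≤ |M| := le_abs_self M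
        have h2 := abs_nonneg M
        nlinarith)
      (by
        show C * K k ^ C * N ^ (-c₀) ≤ 1
        calc C * K k ^ C * N ^ (-c₀) ≤ N ^ c₀ * N ^ (-c₀) := mul_le_mul_of_nonneg_right a8.2 (Real.rpow_pos_of_pos hN0 _).le
          _ = 1 := by rw [← Real.rpow_add hN0, add_neg_cancel, Real.rpow_zero])
      (Real.rpow_pos_of_pos hN0 _)
      (by
        show N ^ (-E.L) * Eg ^ C ≤ 1
        calc N ^ (-E.L) * Eg ^ C ≤ N ^ (-E.L) * (N ^ e) ^ C :=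
              mul_le_mul_of_nonneg_left (Real.rpow_le_rpow hE0.le hEle hC0.le) (Real.rpow_pos_of_pos hN0 _).le
          _ = N ^ (-E.L + e * C) := by rw [← Real.rpow_mul hN0.le, ← Real.rpow_add hN0]
          _ ≤ N ^ (0 : ℝ) := Real.rpow_le_rpow_of_exponent_le hN.le (by linarith)
          _ = 1 := Real.rpow_zero _)
    exact ⟨Y', a', o1, hmn, o2, o3, o4, o5, o6, o7, o8⟩
  have hch : ∀ k, ∃ Ya : KbSys (E.P k) × ℝ, (∃ (Y' : KbSys (E.P k)) (a' : ℝ), Y'.n = (Y₃ k).n - k3gM (E.R.N k) e ∧ k3gM (E.R.N k) e ≤ (Y₃ k).n ∧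
      E.R.N k ^ (-E.L) * 2 ^ k3gM (E.R.N k) e ≤ a' ∧ a' ≤ E.R.N k ^ (-E.L) * ((2 : ℝ) ^ k3gM (E.R.N k) e) ^ C ∧ Y'.WF ∧
      Y'.Geo (C * K k ^ C) a' ∧ Y'.Big (C * K k ^ C) ∧ Y'.Known ((E.P k).hid (E.R.N k ^ (-E.L))) (C * K k ^ C) ∧
      Y'.Tmp ((E.R.N k ^ M) ^ C)) → Ya.1.n = (Y₃ k).n - k3gM (E.R.N k) e ∧ k3gM (E.R.N k) e ≤ (Y₃ k).n ∧
      E.R.N k ^ (-E.L) * 2 ^ k3gM (E.R.N k) e ≤ Ya.2 ∧ Ya.2 ≤ E.R.N k ^ (-E.L) * ((2 : ℝ) ^ k3gM (E.R.N k) e) ^ C ∧ Ya.1.WF ∧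
      Ya.1.Geo (C * K k ^ C) Ya.2 ∧ Ya.1.Big (C * K k ^ C) ∧ Ya.1.Known ((E.P k).hid (E.R.N k ^ (-E.L))) (C * K k ^ C) ∧
      Ya.1.Tmp ((E.R.N k ^ M) ^ C) := by
    intro k
    by_cases hk : ∃ (Y' : KbSys (E.P k)) (a' : ℝ), Y'.n = (Y₃ k).n - k3gM (E.R.N k) e ∧ k3gM (E.R.N k) e ≤ (Y₃ k).n ∧
      E.R.N k ^ (-E.L) * 2 ^ k3gM (E.R.N k) e ≤ a' ∧ a' ≤ E.R.N k ^ (-E.L) * ((2 : ℝ) ^ k3gM (E.R.N k) e) ^ C ∧ Y'.WF ∧
      Y'.Geo (C * K k ^ C) a' ∧ Y'.Big (C * K k ^ C) ∧ Y'.Known ((E.P k).hid (E.R.N k ^ (-E.L))) (C * K k ^ C) ∧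
      Y'.Tmp ((E.R.N k ^ M) ^ C)
    · obtain ⟨Y', a', h'⟩ := hk
      exact ⟨(Y', a'), fun _ => h'⟩
    · exact ⟨(Y k, 1), fun h' => absurd h' hk⟩
  choose Ya hYa using hch
  have good := main.mono fun k hk => hYa k hk
  obtain ⟨L', p1, p2, p3, p4⟩ := k3g_read E hE (h - e) e C (M * C) he heC (fun k => (Ya k).1) (fun k => (Ya k).2) (fun k => C * K k ^ C) hKC
    (by
      intro τ hτ
      filter_upwards [good, y3.2.2 (τ / 2) (by positivity), k3g_two_le E.R (half_pos hτ) 2] with k g1 g2 g3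
      have hN : 1 < E.R.N k := kb_L3_one_lt E.R k
      have hN0 : 0 < E.R.N k := kb_L3_pos E.R k
      have hEle := k3g_E_le hN he.le
      have hEge := k3g_E_ge hN e
      have hq3 := k2s_q_pos (Y₃ k)
      have e1 : (Ya k).1.q = (Y₃ k).q * 2 ^ k3gM (E.R.N k) e := by
        unfold KbSys.q
        rw [g1.1, k3g_num_q g1.2.1]
      show E.R.N k ^ (-(h - e) - τ) ≤ (Ya k).1.q ∧ (Ya k).1.q ≤ E.R.N k ^ (-(h - e) + τ)
      rw [e1]
      constructor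
      · have e2 : E.R.N k ^ (-h - τ / 2) * E.R.N k ^ e = E.R.N k ^ (-(h - e) - τ) * E.R.N k ^ (τ / 2) := by
          rw [← Real.rpow_add hN0, ← Real.rpow_add hN0]
          congr 1
          ring
        have hp := kb_L3_rpow_pos E.R k (-(h - e) - τ)
        have h3 : E.R.N k ^ (-h - τ / 2) * E.R.N k ^ e ≤ (Y₃ k).q * (2 * 2 ^ k3gM (E.R.N k) e) :=
          mul_le_mul g2.1 hEge (kb_L3_rpow_pos E.R k _).le hq3.le
        have h4 : E.R.N k ^ (-(h - e) - τ) * 2 ≤ E.R.N k ^ (-(h - e) - τ) * E.R.N k ^ (τ / 2) :=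
          mul_le_mul_of_nonneg_left g3 hp.le
        linarith
      · calc (Y₃ k).q * 2 ^ k3gM (E.R.N k) e ≤ E.R.N k ^ (-h + τ / 2) * E.R.N k ^ e :=
              mul_le_mul g2.2 hEle (by positivity) (kb_L3_rpow_pos E.R k _).le
          _ = E.R.N k ^ (-h + τ / 2 + e) := (Real.rpow_add hN0 _ _).symm
          _ ≤ _ := (kb_L3_rpow_le_iff E.R k).2 (by linarith))
    (by
      filter_upwards [good] with k g1
      have hN : 1 < E.R.N k := kb_L3_one_lt E.R k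
      have hN0 : 0 < E.R.N k := kb_L3_pos E.R k
      have hEge := k3g_E_ge hN e
      calc E.R.N k ^ (-(E.L - e)) = E.R.N k ^ (-E.L) * E.R.N k ^ e := by
            rw [← Real.rpow_add hN0]
            congr 1
            ring
        _ ≤ E.R.N k ^ (-E.L) * (2 * 2 ^ k3gM (E.R.N k) e) := mul_le_mul_of_nonneg_left hEge (kb_L3_rpow_pos E.R k _).le
        _ = 2 * (E.R.N k ^ (-E.L) * 2 ^ k3gM (E.R.N k) e) := by ring
        _ ≤ 2 * (Ya k).2 := mul_le_mul_of_nonneg_left g1.2.2.1 (by norm_num))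
    (by
      filter_upwards [good] with k g1
      have hN : 1 < E.R.N k := kb_L3_one_lt E.R k
      have hN0 : 0 < E.R.N k := kb_L3_pos E.R k
      have hEle := k3g_E_le hN he.le
      calc (Ya k).2 ≤ E.R.N k ^ (-E.L) * ((2 : ℝ) ^ k3gM (E.R.N k) e) ^ C := g1.2.2.2.1
        _ ≤ E.R.N k ^ (-E.L) * (E.R.N k ^ e) ^ C :=
            mul_le_mul_of_nonneg_left (Real.rpow_le_rpow (by positivity) hEle hC0.le) (kb_L3_rpow_pos E.R k _).le
        _ = E.R.N k ^ (-(E.L - e * C)) := by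
            rw [← Real.rpow_mul hN0.le, ← Real.rpow_add hN0]
            congr 1
            ring)
    (by
      filter_upwards [good] with k g1
      refine ⟨g1.2.2.2.2.1, ?_⟩
      have := g1.2.2.2.2.2.2.2.2
      rwa [← Real.rpow_mul (kb_L3_pos E.R k).le] at this)
    (by
      filter_upwards [good] with k g1
      exact ⟨g1.2.2.2.2.2.1, g1.2.2.2.2.2.2.1, g1.2.2.2.2.2.2.2.1⟩)
  exact ⟨fun k => (Ya k).1, L', p1, p2, p3, p4⟩

end

end Claimed.Agent.R252
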