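import Claimed.Agent.R252.Base.Sys
import Claimed.Agent.R252.S3b.Defs

/-!
# ROW 252 (S0492), unit S3b, file 3: THE ONE-SCALE FORM OF L3.5 (terminal time extension, 03 l.846-1776)      CONTRACT (architect helper70)   -- KEEP

`k3b_hub` : a true, saturated, known terminal system `Y` of `P` at the dyadic level `n₀` (time length `q₀ = 2^{-n₀}`), thickness `δ = a_L`, is turned into a KNOWN ATLAS `Y'` at the coarser level `n₁`, `E = 2^{n₀ - n₁}` (`= N^e`),
thickness `a' ∈ [δ E, δ E^C]` (STRICT loss: the consumer needs `L' < L`), whose labels are known by the OLD terminal observation `p_L = P.hid δ`.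
TWO kinds of slack: `K` (subpower: all hypotheses) and `E` (a fixed small power of `N`).  Requirement `C K^C ≤ E` ("for fixed `e`, subpower factors can be absorbed"), and the exceptional masses `ε` of the caps are `≤ 1/(C K^C)` ("power small").
The conclusion has slack `C K^C` only (truly subpower: list knowledge, mass, chart bounds); the loss `E^C` sits in the thickness alone.
Sequence level: `N = N_k`, `K = N^τ'`, `E = N^e`, `δ = N^{-L}`, `ε = N^{-c(τ')}`, grid of depths of spacing `≤ e`, angular depth `u = R e ≤ η L`.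
-/

set_option autoImplicit false

namespace Claimed.Agent.R252

open MeasureTheory
open scoped ENNReal BigOperators

noncomputable section

variable {v : KbVer}

/-- homogenised spatial axes of a system (output of largest-axis fullness, 02 L2.12, + homogenisation of the singular values): radii `q`, `q g`; `nrm c` = the narrow normal.  Version one: `g = 1`. -/
def K3bAxes {P : KbPb v} (Y : KbSys P) (K g : ℝ) : Prop :=
  ∃ nrm : Y.C → KbB v, (∀ c, nrm c ⬝ᵥ nrm c = 1) ∧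
    (∀ c, ∀ l ∈ Y.A c, ∀ t ∈ Y.I c, ‖kbY (P.co (Y.wd c) l) t - (Y.ch c).yc t‖ ≤ K * Y.q ∧
      |nrm c ⬝ᵥ (kbY (P.co (Y.wd c) l) t - (Y.ch c).yc t)| ≤ K * Y.q * g) ∧
    ∀ c, Y.q ^ v.j * g ≤ K * (Y.ch c).J ∧ (Y.ch c).J ≤ K * Y.q ^ v.j * g

/-- the numbers of the one-scale statement -/
structure K3bNum where
  /-- subpower slack -/
  K : ℝ
  /-- the gain of time length, `N^e` -/
  E : ℝ
  /-- terminal thickness `a_L` -/
  δ : ℝ
  /-- typical terminal density `n (L)` -/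
  nL : ℝ
  /-- narrowness factor -/
  g : ℝ
  /-- exponent of the cap class -/
  d : ℝ
  /-- polynomial bound `N^M` -/
  Q : ℝ
  /-- bound of the exceptional masses of the caps -/
  ε : ℝ

/-- **the hypotheses of the one-scale L3.5.**  `S` = angular exponent, `R` = the constant chosen in (3.13); `G` = finite grid of thicknesses `a_r`, `nr a` = typical density of `p_r`. -/
structure K3bIn (P : KbPb v) (Y : KbSys P) (x : K3bNum) (S R : ℝ) (G : Finset ℝ) (nr : ℝ → ℝ) : Prop where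
  pwf : P.WF
  ntv : P.Ntv x.K
  ptmp : P.Tmp x.Q
  ywf : Y.WF
  geo : Y.Geo x.K x.δ
  big : Y.Big x.K
  tru : Y.Tru x.K x.nL
  sat : Y.Sat x.K x.nL
  known : Y.Known (P.hid x.δ) x.K
  ytmp : Y.Tmp x.Q
  axes : K3bAxes Y x.K x.g
  g_pos : 0 < x.g
  g_le : x.g ≤ 1
  g_one : v = KbVer.one → x.g = 1
  nL_pos : 0 < x.nL
  /-- the grid of thicknesses has ratio `≤ E` and contains `δ` and `1` -/
  grid_δ : x.δ ∈ G
  grid_1 : (1 : ℝ) ∈ G
  grid : ∀ M : ℝ, x.δ ≤ M → M ≤ 1 → ∃ a ∈ G, M ≤ a ∧ a ≤ M * x.E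
  grid_card : (G.card : ℝ) ≤ x.K
  nr_δ : nr x.δ = x.nL
  /-- (2.6), the endpoint cap of `C (d)` -/
  capcl : ∀ a ∈ G, nr a ≤ x.K * x.nL * (a / x.δ) ^ x.d
  /-- typical upper bounds of the densities of `p_r` on the grid -/
  cap : ∀ a ∈ G, P.mass (P.above (P.hid a) (x.E * nr a)) ≤ ENNReal.ofReal x.ε
  /-- (2.7), the angular cap at the ONE depth `u = R e` -/
  capang : P.mass (P.above (P.hv x.δ (x.E ^ (-R))) (x.nL * x.E ^ (1 - S * R))) ≤ ENNReal.ofReal x.ε

/-- **L3.5 at one scale.** -/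
def K3bHubStmt (v : KbVer) : Prop :=
  ∀ (d0 S : ℝ), d0 < 1 → 0 < S → ∃ (C R : ℝ), 1 ≤ C ∧ 1 ≤ R ∧
  ∀ (P : KbPb v) (Y : KbSys P) (x : K3bNum) (G : Finset ℝ) (nr : ℝ → ℝ) (n₁ : ℕ),
    K3bIn P Y x S R G nr → 0 ≤ x.d → x.d ≤ d0 → 1 ≤ x.K → n₁ ≤ Y.n → x.E = 2 ^ (Y.n - n₁) →
    C * x.K ^ C ≤ x.E → Real.log x.Q ≤ x.K → C * x.K ^ C * x.ε ≤ 1 → 0 < x.δ → x.δ * x.E ^ C ≤ 1 →
  ∃ (Y' : KbSys P) (a' : ℝ), Y'.n = n₁ ∧ x.δ * x.E ≤ a' ∧ a' ≤ x.δ * x.E ^ C ∧
    Y'.WF ∧ Y'.Geo (C * x.K ^ C) a' ∧ Y'.Big (C * x.K ^ C) ∧ Y'.Known (P.hid x.δ) (C * x.K ^ C) ∧ Y'.Tmp (x.Q ^ C)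

end

end Claimed.Agent.R252
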