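import Claimed.Agent.R252.Base.Hub2
import Claimed.Agent.R252.S3b.HubContract

/-!
# ROW 252 (S0492), unit S3b, post BP-252-S3-EXTGLUE (helper15), file A: ONE-SCALE LEMMAS OF THE GLUE  `K3bHubStmt v → kp4_term_ext`.

* `k3g_mat`        narrow normal of a `1 × 1` or `2 × 2` matrix;      `k3g_axes`  : `K3bAxes` from `Geo`, fullness of the largest axis and homogenised `J`.
* `k3g_geo_change` change of the thickness inside `Geo` by a factor;
* `k3g_above_anti`, `k3g_capang_one` monotonicity of the exceptional masses in threshold and velocity bin;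
* `K3gSl`          all hypotheses with the subpower slack, monotone in the slack.
-/

set_option autoImplicit false

namespace Claimed.Agent.R252

open MeasureTheory Filter Topology
open Claimed.Agent.R255 (uf)
open scoped ENNReal BigOperators

noncomputable section

variable {v : KbVer}

/-! ## the narrow normal -/

theorem k3g_mat_key (p r p' r' : ℝ) (h : |p'| + |r'| ≤ |p| + |r|) (h0 : 0 < |p| + |r|) :
    ∃ n0 n1 : ℝ, n0 * n0 + n1 * n1 = 1 ∧ n0 * p + n1 * r = 0 ∧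
      |n0 * p' + n1 * r'| * (|p| + |r| + |p'| + |r'|) ≤ 4 * |p * r' - r * p'| := by
  have hs : 0 < p ^ 2 + r ^ 2 := by
    by_contra hc
    have h1 : p ^ 2 + r ^ 2 = 0 := le_antisymm (not_lt.1 hc) (by positivity)
    have hp : p = 0 := by nlinarith [sq_nonneg p, sq_nonneg r]
    have hr : r = 0 := by nlinarith [sq_nonneg p, sq_nonneg r]
    simp [hp, hr] at h0
  set ρ := Real.sqrt (p ^ 2 + r ^ 2) with hρ
  have hρ0 : 0 < ρ := Real.sqrt_pos.2 hs
  have hρ2 : ρ * ρ = p ^ 2 + r ^ 2 := Real.mul_self_sqrt hs.le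
  have hp : |p| ≤ ρ := Real.abs_le_sqrt (by nlinarith [sq_nonneg r])
  have hr : |r| ≤ ρ := Real.abs_le_sqrt (by nlinarith [sq_nonneg p])
  refine ⟨-r / ρ, p / ρ, ?_, ?_, ?_⟩
  · field_simp
    nlinarith
  · field_simp
    ring
  · have e : -r / ρ * p' + p / ρ * r' = (p * r' - r * p') / ρ := by
      field_simp
      ring
    rw [e, abs_div, abs_of_pos hρ0, div_mul_eq_mul_div, div_le_iff₀ hρ0]
    have h1 : |p| + |r| + |p'| + |r'| ≤ 4 * ρ := by linarith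
    calc |p * r' - r * p'| * (|p| + |r| + |p'| + |r'|) ≤ |p * r' - r * p'| * (4 * ρ) :=
          mul_le_mul_of_nonneg_left h1 (abs_nonneg _)
      _ = 4 * |p * r' - r * p'| * ρ := by ring

theorem k3g_mat2 (D : Matrix (Fin 2) (Fin 2) ℝ) (hD : 0 < kbMn D) :
    ∃ n : Fin 2 → ℝ, n ⬝ᵥ n = 1 ∧ ∀ z : Fin 2 → ℝ, |n ⬝ᵥ D.mulVec z| * kbMn D ≤ 4 * |D.det| * ‖z‖ := by
  have hM : kbMn D = |D 0 0| + |D 0 1| + |D 1 0| + |D 1 1| := by
    simp [kbMn, Fin.sum_univ_two]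
    ring
  rcases le_total (|D 0 1| + |D 1 1|) (|D 0 0| + |D 1 0|) with h | h
  · obtain ⟨n0, n1, e1, e2, e3⟩ := k3g_mat_key (D 0 0) (D 1 0) (D 0 1) (D 1 1) h (by linarith)
    refine ⟨![n0, n1], by simpa [dotProduct, Fin.sum_univ_two] using e1, fun z => ?_⟩
    have e4 : ![n0, n1] ⬝ᵥ D.mulVec z = z 1 * (n0 * D 0 1 + n1 * D 1 1) := by
      simp only [dotProduct, Matrix.mulVec, Fin.sum_univ_two, Matrix.cons_val_zero, Matrix.cons_val_one]
      linear_combination z 0 * e2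
    have hz : |z 1| ≤ ‖z‖ := norm_le_pi_norm z 1
    rw [e4, abs_mul, Matrix.det_fin_two, hM]
    have e5 : D 0 0 * D 1 1 - D 0 1 * D 1 0 = D 0 0 * D 1 1 - D 1 0 * D 0 1 := by ring
    rw [e5]
    calc |z 1| * |n0 * D 0 1 + n1 * D 1 1| * (|D 0 0| + |D 0 1| + |D 1 0| + |D 1 1|)
        = |z 1| * (|n0 * D 0 1 + n1 * D 1 1| * (|D 0 0| + |D 1 0| + |D 0 1| + |D 1 1|)) := by ring
      _ ≤ ‖z‖ * (4 * |D 0 0 * D 1 1 - D 1 0 * D 0 1|) := mul_le_mul hz e3 (by positivity) (norm_nonneg _)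
      _ = _ := by ring
  · obtain ⟨n0, n1, e1, e2, e3⟩ := k3g_mat_key (D 0 1) (D 1 1) (D 0 0) (D 1 0) h (by linarith)
    refine ⟨![n0, n1], by simpa [dotProduct, Fin.sum_univ_two] using e1, fun z => ?_⟩
    have e4 : ![n0, n1] ⬝ᵥ D.mulVec z = z 0 * (n0 * D 0 0 + n1 * D 1 0) := by
      simp only [dotProduct, Matrix.mulVec, Fin.sum_univ_two, Matrix.cons_val_zero, Matrix.cons_val_one]
      linear_combination z 1 * e2
    have hz : |z 0| ≤ ‖z‖ := norm_le_pi_norm z 0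
    rw [e4, abs_mul, Matrix.det_fin_two, hM]
    have e5 : |D 0 0 * D 1 1 - D 0 1 * D 1 0| = |D 0 1 * D 1 0 - D 1 1 * D 0 0| := by
      rw [← abs_neg]
      congr 1
      ring
    rw [e5]
    calc |z 0| * |n0 * D 0 0 + n1 * D 1 0| * (|D 0 0| + |D 0 1| + |D 1 0| + |D 1 1|)
        = |z 0| * (|n0 * D 0 0 + n1 * D 1 0| * (|D 0 1| + |D 1 1| + |D 0 0| + |D 1 0|)) := by ring
      _ ≤ ‖z‖ * (4 * |D 0 1 * D 1 0 - D 1 1 * D 0 0|) := mul_le_mul hz e3 (by positivity) (norm_nonneg _)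
      _ = _ := by ring

theorem k3g_mat1 (D : Matrix (Fin 1) (Fin 1) ℝ) :
    ∃ n : Fin 1 → ℝ, n ⬝ᵥ n = 1 ∧ ∀ z : Fin 1 → ℝ, |n ⬝ᵥ D.mulVec z| ≤ 4 * |D.det| * ‖z‖ := by
  refine ⟨fun _ => 1, by simp [dotProduct], fun z => ?_⟩
  have hz : |z 0| ≤ ‖z‖ := norm_le_pi_norm z 0
  have e4 : (fun _ : Fin 1 => (1 : ℝ)) ⬝ᵥ D.mulVec z = D 0 0 * z 0 := by
    simp [dotProduct, Matrix.mulVec]
  rw [e4, abs_mul, Matrix.det_fin_one]
  nlinarith [abs_nonneg (D 0 0), abs_nonneg (z 0), mul_le_mul_of_nonneg_left hz (abs_nonneg (D 0 0)),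
    mul_nonneg (abs_nonneg (D 0 0)) (norm_nonneg z)]

/-- the narrow normal of a matrix of size `1` or `2` -/
theorem k3g_mat {m : ℕ} (hm : m = 1 ∨ m = 2) (D : Matrix (Fin m) (Fin m) ℝ) (hD : 0 < kbMn D) :
    ∃ n : Fin m → ℝ, n ⬝ᵥ n = 1 ∧ ∀ z : Fin m → ℝ, |n ⬝ᵥ D.mulVec z| * kbMn D ^ (m - 1) ≤ 4 * |D.det| * ‖z‖ := by
  rcases hm with rfl | rfl
  · simpa using k3g_mat1 D
  · simpa using k3g_mat2 D hD

theorem k3g_j (v : KbVer) : v.j = 1 ∨ v.j = 2 := by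
  cases v
  · exact Or.inl rfl
  · exact Or.inr rfl

/-! ## the axes -/

theorem k3g_mn_nonneg {m : ℕ} (D : Matrix (Fin m) (Fin m) ℝ) : 0 ≤ kbMn D :=
  Finset.sum_nonneg fun _ _ => Finset.sum_nonneg fun _ _ => abs_nonneg _

/-- `K3bAxes` from the chart bounds, fullness of the largest axis and homogenised `J` -/
theorem k3g_axes {P : KbPb v} (Y : KbSys P) (hY : Y.WF) {K a g : ℝ} (hK : 1 ≤ K) (hg : 0 ≤ g) (hG : Y.Geo K a)
    (hax : ∀ c, Y.q ≤ K * kbMn (Y.ch c).D)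
    (hJ : ∀ c, Y.q ^ v.j * g ≤ K * (Y.ch c).J ∧ (Y.ch c).J ≤ K * Y.q ^ v.j * g) : K3bAxes Y (4 * K ^ 3) g := by
  have hq := k2s_q_pos Y
  have hK0 : 0 < K := by linarith
  have hK2 : K ^ 2 ≤ 4 * K ^ 3 := by nlinarith [pow_pos hK0 2]
  have hK1 : K ≤ 4 * K ^ 3 := by nlinarith [pow_pos hK0 2, one_le_pow₀ (n := 2) hK]
  have hD : ∀ c, 0 < kbMn (Y.ch c).D := by
    intro c
    by_contra hc
    have h1 : kbMn (Y.ch c).D ≤ 0 := not_lt.1 hc
    have := hax c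
    nlinarith
  choose nrm h1 h2 using fun c => k3g_mat (k3g_j v) (Y.ch c).D (hD c)
  have hj1 : v.j - 1 + 1 = v.j := by rcases k3g_j v with h | h <;> rw [h]
  have hqj : Y.q ^ v.j = Y.q ^ (v.j - 1) * Y.q := by rw [← pow_succ, hj1]
  have hKi : K ^ (v.j - 1) ≤ K := by
    rcases k3g_j v with h | h <;> rw [h] <;> simp [hK]
  refine ⟨nrm, h1, fun c l hl t ht => ?_, fun c => ⟨?_, ?_⟩⟩
  · set z := (Y.ch c).Di.mulVec (kbY (P.co (Y.wd c) l) t - (Y.ch c).yc t) with hz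
    have hzK : ‖z‖ ≤ K := hG.box c l hl t ht
    have e : kbY (P.co (Y.wd c) l) t - (Y.ch c).yc t = (Y.ch c).D.mulVec z := by
      rw [hz, Matrix.mulVec_mulVec, hY.inv c, Matrix.one_mulVec]
    rw [e]
    constructor
    · calc ‖(Y.ch c).D.mulVec z‖ ≤ kbMn (Y.ch c).D * ‖z‖ := k2s_mulVec_le _ _
        _ ≤ (Y.q * K) * K := mul_le_mul (hG.size c) hzK (norm_nonneg _) (by positivity)
        _ = K ^ 2 * Y.q := by ring
        _ ≤ 4 * K ^ 3 * Y.q := mul_le_mul_of_nonneg_right hK2 hq.le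
    · set X := |nrm c ⬝ᵥ (Y.ch c).D.mulVec z| with hX
      have hX0 : 0 ≤ X := abs_nonneg _
      have a1 : X * kbMn (Y.ch c).D ^ (v.j - 1) ≤ 4 * (Y.ch c).J * ‖z‖ := h2 c z
      have a2 : Y.q ^ (v.j - 1) ≤ K ^ (v.j - 1) * kbMn (Y.ch c).D ^ (v.j - 1) := by
        rw [← mul_pow]
        exact pow_le_pow_left₀ hq.le (hax c) _
      have hJ0 : 0 ≤ (Y.ch c).J := abs_nonneg _
      have a3 : X * Y.q ^ (v.j - 1) ≤ (4 * K ^ 3 * Y.q * g) * Y.q ^ (v.j - 1) := by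
        calc X * Y.q ^ (v.j - 1) ≤ X * (K ^ (v.j - 1) * kbMn (Y.ch c).D ^ (v.j - 1)) := mul_le_mul_of_nonneg_left a2 hX0
          _ = K ^ (v.j - 1) * (X * kbMn (Y.ch c).D ^ (v.j - 1)) := by ring
          _ ≤ K ^ (v.j - 1) * (4 * (Y.ch c).J * ‖z‖) := mul_le_mul_of_nonneg_left a1 (by positivity)
          _ ≤ K ^ (v.j - 1) * (4 * (K * Y.q ^ v.j * g) * K) := by
              refine mul_le_mul_of_nonneg_left ?_ (by positivity)
              exact mul_le_mul (mul_le_mul_of_nonneg_left (hJ c).2 (by norm_num)) hzK (norm_nonneg _)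
                (by positivity)
          _ = K ^ (v.j - 1) * (4 * K ^ 2 * Y.q * g * Y.q ^ (v.j - 1)) := by
              rw [hqj]
              ring
          _ ≤ K * (4 * K ^ 2 * Y.q * g * Y.q ^ (v.j - 1)) :=
              mul_le_mul_of_nonneg_right hKi (by positivity)
          _ = (4 * K ^ 3 * Y.q * g) * Y.q ^ (v.j - 1) := by ring
      exact le_of_mul_le_mul_right a3 (by positivity)
  · exact (hJ c).1.trans (mul_le_mul_of_nonneg_right hK1 (abs_nonneg _))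
  · have h5 : 0 ≤ Y.q ^ v.j * g := by positivity
    calc (Y.ch c).J ≤ K * Y.q ^ v.j * g := (hJ c).2
      _ = K * (Y.q ^ v.j * g) := by ring
      _ ≤ 4 * K ^ 3 * (Y.q ^ v.j * g) := mul_le_mul_of_nonneg_right hK1 h5
      _ = _ := by ring

theorem k3g_axes_mono {P : KbPb v} (Y : KbSys P) {K K' g : ℝ} (hg : 0 ≤ g) (hK : K ≤ K') (h : K3bAxes Y K g) : K3bAxes Y K' g := by
  have hq := k2s_q_pos Y
  obtain ⟨nrm, h1, h2, h3⟩ := h
  refine ⟨nrm, h1, fun c l hl t ht => ⟨?_, ?_⟩, fun c => ⟨?_, ?_⟩⟩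
  · exact (h2 c l hl t ht).1.trans (mul_le_mul_of_nonneg_right hK hq.le)
  · exact (h2 c l hl t ht).2.trans (mul_le_mul_of_nonneg_right (mul_le_mul_of_nonneg_right hK hq.le) hg)
  · exact (h3 c).1.trans (mul_le_mul_of_nonneg_right hK (abs_nonneg _))
  · exact (h3 c).2.trans (mul_le_mul_of_nonneg_right (mul_le_mul_of_nonneg_right hK (by positivity)) hg)

/-! ## change of the thickness -/

theorem k3g_geo_change {P : KbPb v} (hP : P.WF) (Y : KbSys P) {K a a' s : ℝ} (hK : 0 ≤ K) (hs : 1 ≤ s) (h1 : a ≤ s * a') (h2 : a' ≤ s * a)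
    (h : Y.Geo K a) : Y.Geo (K * s) a' := by
  have hq := (k2s_q_pos Y).le
  have hKs : K ≤ K * s := le_mul_of_one_le_right hK hs
  refine ⟨fun c => ?_, fun c l hl t ht => ?_, fun c l hl t ht => ?_, fun c l hl t ht => ?_, fun c x hx => ?_,
    fun c t y w => ?_⟩
  · exact (h.size c).trans (mul_le_mul_of_nonneg_left hKs hq)
  · exact (h.box c l hl t ht).trans hKs
  · calc _ ≤ K * a := h.val c l hl t ht
      _ ≤ K * (s * a') := mul_le_mul_of_nonneg_left h1 hK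
      _ = K * s * a' := by ring
  · exact (h.dw c l hl t ht).trans (mul_le_mul_of_nonneg_right hKs (hP.B_pos _).le)
  · exact (h.dw_low c x hx).trans (mul_le_mul_of_nonneg_right hKs (abs_nonneg _))
  · calc |kbDww (Y.ch c).T t y w| * a' ≤ |kbDww (Y.ch c).T t y w| * (s * a) := mul_le_mul_of_nonneg_left h2 (abs_nonneg _)
      _ = s * (|kbDww (Y.ch c).T t y w| * a) := by ring
      _ ≤ s * (K * P.B (Y.wd c) ^ 2) := mul_le_mul_of_nonneg_left (h.dww c t y w) (by linarith)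
      _ = K * s * P.B (Y.wd c) ^ 2 := by ring

/-! ## exceptional masses -/

theorem k3g_above_anti (P : KbPb v) {D : Type} (ℓ : P.Lab D) {hi hi' : ℝ} (h : hi ≤ hi') : P.mass (P.above ℓ hi') ≤ P.mass (P.above ℓ hi) :=
  k2a_mass_mono fun _ _ hx => lt_of_le_of_lt (ENNReal.ofReal_le_ofReal h) hx

/-- finer velocity bins and a larger threshold make the exceptional set smaller -/
theorem k3g_capang_one {P : KbPb v} (hP : P.WF) {a b b' hi hi' : ℝ} (ha : 0 < a) (hb : 0 < b) (hbb : b ≤ b') (h : hi ≤ hi') :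
    P.mass (P.above (P.hv a b) hi') ≤ P.mass (P.above (P.hv a b') hi) := by
  refine k2a_mass_mono_ae fun γ => ?_
  filter_upwards [k2a_hv_mono hP ha le_rfl hb hbb γ] with x hx hx'
  exact lt_of_le_of_lt (ENNReal.ofReal_le_ofReal h) (lt_of_lt_of_le hx' hx)

theorem k3g_mass_le {P : KbPb v} (hP : P.WF) (A : P.W → Set (P.Lam × ℝ)) {ε : ℝ} (h : (P.mass A).toReal ≤ ε) : P.mass A ≤ ENNReal.ofReal ε :=
  (ENNReal.ofReal_toReal (k2n_s1_mass_ne_top hP A)).symm.le.trans (ENNReal.ofReal_le_ofReal h)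

/-! ## all hypotheses with the subpower slack -/

/-- the hypotheses of `K3bIn` which carry the subpower slack -/
structure K3gSl (P : KbPb v) (Y : KbSys P) (δ nL g K : ℝ) : Prop where
  ntv : P.Ntv K
  geo : Y.Geo K δ
  big : Y.Big K
  tru : Y.Tru K nL
  sat : Y.Sat K nL
  known : Y.Known (P.hid δ) K
  axes : K3bAxes Y K g

theorem k3g_sl_mono {P : KbPb v} (hP : P.WF) {Y : KbSys P} {δ nL g K K' : ℝ} (hδ : 0 ≤ δ) (hn : 0 ≤ nL) (hg : 0 ≤ g) (hK : K ≤ K')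
    (h : K3gSl P Y δ nL g K) : K3gSl P Y δ nL g K' where
  ntv := k2n_s2_ntv_mono hP hK h.ntv
  geo := k2s_geo_mono Y hP h.geo hK hδ
  big := k2s_big_mono Y h.big hK
  tru := k2s_tru_mono Y h.tru hK
  sat := k2s_sat_mono Y h.sat hK hn
  known := k2s_known_mono Y h.known hK
  axes := k3g_axes_mono Y hg hK h.axes

end

end Claimed.Agent.R252
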