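import Claimed.Agent.R252.S3b.ExtGlueA

/-!
# ROW 252 (S0492), unit S3b, post BP-252-S3-EXTGLUE (helper15), file B: NUMERICS, PRUNING, PREPARATION, THE INPUT OF THE HUB.

* `k3gM`, `k3g_E_le`, `k3g_E_ge`, `k3g_num_*`   the dyadic gain `2^m ≤ N^e < 2^(m+1)`;      `k3g_grid`  finite grid of depths;      `k3g_pow_finset`  finitely many power-small sequences.
* `k3g_prune_one`, `k3g_prune`   charts of power-small mass are dropped with slowly decaying tolerance.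
* `k3g_J_one`      the narrowness factor `k3gG`.
* `k3g_prep`       saturation + label knowledge + fullness of the largest axis + common narrowness exponent.
* `k3g_in`         `K3bIn` at one index.
-/

set_option autoImplicit false

namespace Claimed.Agent.R252

open MeasureTheory Filter Topology
open Claimed.Agent.R255 (uf)
open scoped ENNReal BigOperators

noncomputable section

variable {v : KbVer}

/-! ## numerics -/

/-- the number of dyadic levels gained: `2^m ≤ N^e < 2^(m+1)` -/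
def k3gM (N e : ℝ) : ℕ := ⌊e * Real.logb 2 N⌋₊

theorem k3g_rpow_two {N : ℝ} (hN : 1 < N) (e : ℝ) : N ^ e = (2 : ℝ) ^ (e * Real.logb 2 N) := by
  have h0 : 0 < N := by linarith
  rw [mul_comm, Real.rpow_mul (by norm_num), Real.rpow_logb (by norm_num) (by norm_num) h0]

theorem k3g_E_le {N e : ℝ} (hN : 1 < N) (he : 0 ≤ e) : (2 : ℝ) ^ (k3gM N e) ≤ N ^ e := by
  have hl : 0 ≤ Real.logb 2 N := Real.logb_nonneg (by norm_num) hN.le
  rw [k3g_rpow_two hN, ← Real.rpow_natCast]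
  exact Real.rpow_le_rpow_of_exponent_le (by norm_num) (Nat.floor_le (mul_nonneg he hl))

theorem k3g_E_ge {N : ℝ} (hN : 1 < N) (e : ℝ) : N ^ e ≤ 2 * (2 : ℝ) ^ (k3gM N e) := by
  rw [k3g_rpow_two hN, ← pow_succ', ← Real.rpow_natCast]
  refine Real.rpow_le_rpow_of_exponent_le (by norm_num) ?_
  push_cast
  exact (Nat.lt_floor_add_one _).le

theorem k3g_grid (L e : ℝ) (hL : 0 < L) (he : 0 < e) : ∃ Γ : Finset ℝ, L ∈ Γ ∧ (0 : ℝ) ∈ Γ ∧ (∀ r ∈ Γ, 0 ≤ r ∧ r ≤ L) ∧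
    ∀ s : ℝ, 0 ≤ s → s ≤ L → ∃ r ∈ Γ, r ≤ s ∧ s ≤ r + e := by
  classical
  refine ⟨insert L ((Finset.range (⌊L / e⌋₊ + 1)).image fun i : ℕ => (i : ℝ) * e), Finset.mem_insert_self _ _, ?_, ?_, ?_⟩
  · refine Finset.mem_insert_of_mem (Finset.mem_image.2 ⟨0, by simp, by simp⟩)
  · intro r hr
    rcases Finset.mem_insert.1 hr with rfl | hr
    · exact ⟨hL.le, le_rfl⟩
    · obtain ⟨i, hi, rfl⟩ := Finset.mem_image.1 hr
      refine ⟨by positivity, ?_⟩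
      have h1 : (i : ℝ) ≤ L / e := by
        have : i ≤ ⌊L / e⌋₊ := Nat.lt_succ_iff.1 (Finset.mem_range.1 hi)
        exact (Nat.le_floor_iff (by positivity)).1 this
      rwa [le_div_iff₀ he] at h1
  · intro s hs hsL
    refine ⟨(⌊s / e⌋₊ : ℝ) * e, Finset.mem_insert_of_mem (Finset.mem_image.2 ⟨⌊s / e⌋₊, ?_, rfl⟩), ?_, ?_⟩
    · rw [Finset.mem_range, Nat.lt_succ_iff]
      exact Nat.floor_le_floor (div_le_div_of_nonneg_right hsL he.le)
    · have := Nat.floor_le (a := s / e) (by positivity)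
      rwa [le_div_iff₀ he] at this
    · have := (Nat.lt_floor_add_one (s / e)).le
      rw [div_le_iff₀ he] at this
      linarith

theorem k3g_pow_finset (R : KbRes) {ι : Type*} (Γ : Finset ι) (x : ι → ℕ → ℝ) (h : ∀ r ∈ Γ, KbPow R (x r)) :
    ∃ c : ℝ, 0 < c ∧ ∀ᶠ k in uf, ∀ r ∈ Γ, x r k ≤ R.N k ^ (-c) := by
  classical
  induction Γ using Finset.induction_on with
  | empty => exact ⟨1, one_pos, Eventually.of_forall fun k r hr => absurd hr (Finset.notMem_empty r)⟩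
  | insert a s ha ih =>
    obtain ⟨c, hc, h1⟩ := ih fun r hr => h r (Finset.mem_insert_of_mem hr)
    obtain ⟨c', hc', h2⟩ := h a (Finset.mem_insert_self _ _)
    refine ⟨min c c', lt_min hc hc', ?_⟩
    filter_upwards [h1, h2] with k a1 a2 r hr
    rcases Finset.mem_insert.1 hr with rfl | hr
    · exact a2.trans ((kb_L3_rpow_le_iff R k).2 (neg_le_neg (min_le_right _ _)))
    · exact (a1 r hr).trans ((kb_L3_rpow_le_iff R k).2 (neg_le_neg (min_le_left _ _)))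

theorem k3g_exp_rpow (R : KbRes) (s : ℝ) : KbExp R (fun k => R.N k ^ (-s)) s := by
  intro τ hτ
  exact Eventually.of_forall fun k => ⟨(kb_L3_rpow_le_iff R k).2 (by linarith), (kb_L3_rpow_le_iff R k).2 (by linarith)⟩

theorem k3g_two_le (R : KbRes) {τ : ℝ} (hτ : 0 < τ) (C : ℝ) : ∀ᶠ k in uf, C ≤ R.N k ^ τ :=
  (kb_L3_rpow_tendsto R hτ).eventually_ge_atTop C

/-! ## pruning -/

open Classical in
theorem k3g_prune_one {P : KbPb v} (hP : P.WF) (Y : KbSys P) (hY : Y.WF) (p : Y.C → Prop) {K ε : ℝ} (hK : 0 ≤ K) (hB : Y.Big K)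
    (hbad : (∑ c, if p c then P.om (Y.wd c) * Y.mC c else 0).toReal ≤ ε) (hKε : K * ε ≤ 1 / 2) :
    (Y.restr {c | ¬ p c} fun _ => Set.univ).Big (2 * K) := by
  unfold KbSys.Big at hB ⊢
  rw [k2s_restr_mass]
  set bad : ℝ≥0∞ := ∑ c, if p c then P.om (Y.wd c) * Y.mC c else 0 with hbd
  set good : ℝ≥0∞ := ∑ c, if c ∈ {c | ¬ p c} then P.om (Y.wd c) * P.mu (Y.wd c) (Y.S c ∩ Set.univ) else 0 with hgd
  have hsum : Y.mass = bad + good := by
    rw [hbd, hgd, ← Finset.sum_add_distrib]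
    refine Finset.sum_congr rfl fun c _ => ?_
    by_cases hc : p c
    · simp [hc]
    · simp [hc, KbSys.mC]
  have hbt : bad ≠ ⊤ := by
    have : bad ≤ Y.mass := by rw [hsum]; exact le_self_add
    exact (this.trans_lt ((k2s_mass_le_one Y hP hY).trans_lt ENNReal.one_lt_top)).ne
  have hb : bad ≤ ENNReal.ofReal ε := (ENNReal.ofReal_toReal hbt).symm.le.trans (ENNReal.ofReal_le_ofReal hbad)
  have h1 : ENNReal.ofReal K * bad ≤ 1 / 2 := by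
    calc ENNReal.ofReal K * bad ≤ ENNReal.ofReal K * ENNReal.ofReal ε := mul_le_mul' le_rfl hb
      _ = ENNReal.ofReal (K * ε) := (ENNReal.ofReal_mul hK).symm
      _ ≤ ENNReal.ofReal (1 / 2) := ENNReal.ofReal_le_ofReal hKε
      _ = 1 / 2 := by
        rw [ENNReal.ofReal_div_of_pos (by norm_num)]
        simp
  have h2 : (1 / 2 : ℝ≥0∞) + 1 / 2 ≤ 1 / 2 + ENNReal.ofReal K * good := by
    calc (1 / 2 : ℝ≥0∞) + 1 / 2 = 1 := ENNReal.add_halves 1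
      _ ≤ ENNReal.ofReal K * (bad + good) := by rw [← hsum]; exact hB
      _ = ENNReal.ofReal K * bad + ENNReal.ofReal K * good := mul_add _ _ _
      _ ≤ 1 / 2 + ENNReal.ofReal K * good := add_le_add h1 le_rfl
  have h3 : (1 / 2 : ℝ≥0∞) ≤ ENNReal.ofReal K * good := (ENNReal.add_le_add_iff_left (by simp)).1 h2
  calc (1 : ℝ≥0∞) = 2 * (1 / 2) := by
        rw [one_div]
        exact (ENNReal.mul_inv_cancel (by norm_num) (by norm_num)).symm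
    _ ≤ 2 * (ENNReal.ofReal K * good) := mul_le_mul' le_rfl h3
    _ = ENNReal.ofReal (2 * K) * good := by
        rw [ENNReal.ofReal_mul (by norm_num), ← mul_assoc]
        simp
    _ = _ := by
        congr 1
        exact Finset.sum_congr rfl fun c _ => by congr

theorem k3g_prune (E : KbEx v) (hE : E.Ok) (Y : E.Sys) (r h : ℝ) (hY : E.IsSys Y r h) (p : ℝ → ∀ k, (Y k).C → Prop)
    (hp : ∀ α : ℝ, 0 < α → KbPow E.R (E.chMass Y (p α))) :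
    ∃ α : ℕ → ℝ, (∀ k, 0 < α k) ∧ Tendsto α uf (𝓝 0) ∧
      E.IsSys (E.restr Y (fun k => {c | ¬ p (α k) k c}) fun _ _ => Set.univ) r h := by
  obtain ⟨MP, hMP⟩ := hE.2.1
  obtain ⟨M, hM⟩ := hY.1
  have key : ∀ α : ℝ, 0 < α → ∀ᶠ k in uf, ((Y k).restr {c | ¬ p α k c} fun _ => Set.univ).Big (2 * E.R.N k ^ α) := by
    intro α hα
    obtain ⟨c, hc, h1⟩ := hp α hα
    have hm : 0 < min α (c / 2) := lt_min hα (by positivity)
    filter_upwards [hMP, hM, h1, hY.2.1 (min α (c / 2)) hm,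
      kb_L3_rpow_neg_le E.R (t := c / 2) (ε := 1 / 2) (by positivity) (by norm_num)] with k a1 a2 a3 a4 a5
    have b1 : E.R.N k ^ (min α (c / 2)) * E.R.N k ^ (-c) ≤ 1 / 2 := by
      rw [← Real.rpow_add (kb_L3_pos E.R k)]
      refine le_trans ((kb_L3_rpow_le_iff E.R k).2 ?_) a5
      have := min_le_right α (c / 2)
      linarith
    have b2 := k3g_prune_one a1.1 (Y k) a2.1 (p α k) (kb_L3_rpow_pos E.R k _).le a4.2 a3 b1
    exact k2s_big_mono _ b2 (mul_le_mul_of_nonneg_left ((kb_L3_rpow_le_iff E.R k).2 (min_le_left _ _)) (by norm_num))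
  obtain ⟨α, h0, ht, hs, hk⟩ :=
    kb_slow E.R (fun k α => ((Y k).restr {c | ¬ p α k c} fun _ => Set.univ).Big (2 * E.R.N k ^ α)) key
  refine ⟨α, h0, ht, ⟨M, ?_⟩, fun τ hτ => ?_, hY.2.2⟩
  · filter_upwards [hM] with k a
    exact ⟨k2s_restr_wf _ _ _ a.1 (fun _ => MeasurableSet.univ), k2s_restr_tmp _ _ _ a.2⟩
  · filter_upwards [hY.2.1 τ hτ, hk, hs (τ / 2) (by positivity), k3g_two_le E.R (half_pos hτ) 2] with k a1 a2 a3 a4
    refine ⟨k2s_restr_geo _ _ _ a1.1, k2s_big_mono _ a2 ?_⟩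
    rw [← kb_rpow_half E.R τ k]
    exact mul_le_mul a4 a3.2 (kb_L3_rpow_pos E.R k _).le (kb_L3_rpow_pos E.R k _).le

/-! ## homogenised `J` -/

theorem k3g_det_one {m : ℕ} (hm : m = 1) (D : Matrix (Fin m) (Fin m) ℝ) : |D.det| = kbMn D := by
  subst hm
  simp [kbMn]

/-- the narrowness factor -/
def k3gG (v : KbVer) (G : ℝ) : ℝ := if v = KbVer.one then 1 else min 1 G⁻¹

theorem k3g_G_pos (v : KbVer) {G : ℝ} (hG : 0 < G) : 0 < k3gG v G := by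
  unfold k3gG
  split_ifs
  · exact one_pos
  · exact lt_min one_pos (inv_pos.2 hG)

theorem k3g_G_le (v : KbVer) (G : ℝ) : k3gG v G ≤ 1 := by
  unfold k3gG
  split_ifs
  · exact le_rfl
  · exact min_le_left _ _

theorem k3g_J_one {P : KbPb v} (Y : KbSys P) (hY : Y.WF) {K a G : ℝ} (hK : 1 ≤ K) (hG0 : 0 < G) (hG : Y.Geo K a)
    (hax : ∀ c, Y.q ≤ K * kbMn (Y.ch c).D) (hn : ∀ c, G ≤ K * (Y.q ^ 2 / (Y.ch c).J) ∧ Y.q ^ 2 / (Y.ch c).J ≤ K * G) (c : Y.C) :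
    Y.q ^ v.j * k3gG v G ≤ (2 * K ^ 2) * (Y.ch c).J ∧ (Y.ch c).J ≤ (2 * K ^ 2) * Y.q ^ v.j * k3gG v G := by
  have hq := k2s_q_pos Y
  have hK0 : 0 < K := by linarith
  have hJ := k2s_J_pos Y hY c
  have hKK : K ≤ 2 * K ^ 2 := by nlinarith
  have hsz := hG.size c
  cases v with
  | one =>
    have e : (Y.ch c).J = kbMn (Y.ch c).D := k3g_det_one rfl _
    have e1 : k3gG KbVer.one G = 1 := if_pos rfl
    have e2 : Y.q ^ (KbVer.one).j = Y.q := pow_one _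
    rw [e1, e2, e, mul_one, mul_one]
    have h0 := k3g_mn_nonneg (Y.ch c).D
    constructor
    · exact (hax c).trans (mul_le_mul_of_nonneg_right hKK h0)
    · calc kbMn (Y.ch c).D ≤ Y.q * K := hsz
        _ = K * Y.q := mul_comm _ _
        _ ≤ 2 * K ^ 2 * Y.q := mul_le_mul_of_nonneg_right hKK hq.le
  | two =>
    have e1 : k3gG KbVer.two G = min 1 G⁻¹ := if_neg (by simp)
    have e2 : Y.q ^ (KbVer.two).j = Y.q ^ 2 := rfl
    rw [e1, e2]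
    obtain ⟨n1, n2⟩ := hn c
    rw [div_le_iff₀ hJ] at n2
    have n1' : G * (Y.ch c).J ≤ K * Y.q ^ 2 := by
      have : K * (Y.q ^ 2 / (Y.ch c).J) = K * Y.q ^ 2 / (Y.ch c).J := by ring
      rw [this, le_div_iff₀ hJ] at n1
      exact n1
    constructor
    · calc Y.q ^ 2 * min 1 G⁻¹ ≤ Y.q ^ 2 * G⁻¹ := mul_le_mul_of_nonneg_left (min_le_right _ _) (by positivity)
        _ ≤ (K * G * (Y.ch c).J) * G⁻¹ := mul_le_mul_of_nonneg_right n2 (inv_pos.2 hG0).le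
        _ = K * (Y.ch c).J := by field_simp
        _ ≤ 2 * K ^ 2 * (Y.ch c).J := mul_le_mul_of_nonneg_right hKK hJ.le
    · rcases le_total 1 G⁻¹ with h1 | h1
      · rw [min_eq_left h1, mul_one]
        have h2 := kb_J_le (Y.ch c)
        have e3 : kbMn (Y.ch c).D ^ (KbVer.two).j = kbMn (Y.ch c).D ^ 2 := rfl
        rw [e3] at h2
        have h3 : kbMn (Y.ch c).D ^ 2 ≤ (Y.q * K) ^ 2 := pow_le_pow_left₀ (k3g_mn_nonneg _) hsz 2
        calc (Y.ch c).J ≤ 2 * kbMn (Y.ch c).D ^ 2 := h2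
          _ ≤ 2 * (Y.q * K) ^ 2 := by linarith
          _ = 2 * K ^ 2 * Y.q ^ 2 := by ring
      · rw [min_eq_right h1]
        calc (Y.ch c).J = (G * (Y.ch c).J) * G⁻¹ := by field_simp
          _ ≤ (K * Y.q ^ 2) * G⁻¹ := mul_le_mul_of_nonneg_right n1' (inv_pos.2 hG0).le
          _ ≤ (2 * K ^ 2 * Y.q ^ 2) * G⁻¹ :=
              mul_le_mul_of_nonneg_right (mul_le_mul_of_nonneg_right hKK (by positivity)) (inv_pos.2 hG0).le

/-! ## the preparation of the terminal system (03 l.860-900) -/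

theorem k3g_prep (E : KbEx v) (d S η : ℝ) (hS : 0 < S) (hη : 0 < η) (f : ℝ → ℝ → ℝ) (hC : E.Cap d S η f) (Y : E.Sys) (h : ℝ)
    (hY : E.IsTrueSys f Y E.L h) :
    ∃ (Y₃ : E.Sys) (l : ℝ), E.IsSys Y₃ E.L h ∧ E.IsTrue Y₃ (f E.L 0) ∧ E.IsSat Y₃ (f E.L 0) ∧ E.IsKnown Y₃ E.L ∧
      (∀ τ : ℝ, 0 < τ → ∀ᶠ k in uf, ∀ c, (Y₃ k).q ≤ E.R.N k ^ τ * kbMn ((Y₃ k).ch c).D) ∧ E.Narrow Y₃ l := by
  have hE := hC.ok
  obtain ⟨keep1, S1, t1, s1, k1⟩ := kb_sat E hE f hC.hom Y E.L h hE.1 le_rfl hY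
  set Y1 := E.restr Y keep1 S1 with hY1
  obtain ⟨α, h0, ht, y2⟩ := k3g_prune E hE Y1 E.L h t1.1 (fun α k c => kbMn ((Y1 k).ch c).D ≤ E.R.N k ^ (-α) * (Y1 k).q)
    (fun α hα => kb_axis E d S η hS hη f hC Y1 E.L h ⟨t1.1, k1⟩ α hα)
  set keep2 : ∀ k, Set (Y1 k).C := fun k => {c | ¬ kbMn ((Y1 k).ch c).D ≤ E.R.N k ^ (-(α k)) * (Y1 k).q} with hk2
  set Y2 := E.restr Y1 keep2 fun _ _ => Set.univ with hY2
  obtain ⟨r1, r2, r3⟩ := kb_restr_keep E Y1 keep2 (f E.L 0) E.L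
  have ax2 : ∀ τ : ℝ, 0 < τ → ∀ᶠ k in uf, ∀ c, (Y2 k).q ≤ E.R.N k ^ τ * kbMn ((Y2 k).ch c).D := by
    intro τ hτ
    filter_upwards [ht.eventually (eventually_le_nhds hτ)] with k hk c
    have c2 : ¬ kbMn ((Y1 k).ch c.1).D ≤ E.R.N k ^ (-(α k)) * (Y1 k).q := c.2
    have c3 : E.R.N k ^ (-(α k)) * (Y1 k).q ≤ kbMn ((Y1 k).ch c.1).D := (not_le.1 c2).le
    have hq := k2s_q_pos (Y1 k)
    have c4 : E.R.N k ^ (-τ) * (Y1 k).q ≤ kbMn ((Y1 k).ch c.1).D :=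
      (mul_le_mul_of_nonneg_right ((kb_L3_rpow_le_iff E.R k).2 (neg_le_neg hk)) hq.le).trans c3
    show (Y1 k).q ≤ E.R.N k ^ τ * kbMn ((Y1 k).ch c.1).D
    calc (Y1 k).q = E.R.N k ^ τ * (E.R.N k ^ (-τ) * (Y1 k).q) := by
          rw [← mul_assoc, ← Real.rpow_add (kb_L3_pos E.R k), add_neg_cancel, Real.rpow_zero, one_mul]
      _ ≤ _ := mul_le_mul_of_nonneg_left c4 (kb_L3_rpow_pos E.R k _).le
  obtain ⟨keep3, l, y3, n3⟩ := kb_narrow_ex E hE Y2 E.L h y2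
  obtain ⟨u1, u2, u3⟩ := kb_restr_keep E Y2 keep3 (f E.L 0) E.L
  refine ⟨E.restr Y2 keep3 fun _ _ => Set.univ, l, y3, u1 (r1 t1.2), u2 (r2 s1), u3 (r3 k1), fun τ hτ => ?_, n3⟩
  filter_upwards [ax2 τ hτ] with k hk c
  exact hk c.1

/-! ## numerics of `E = 2^m` -/

theorem k3g_num_half {N e Eg : ℝ} (hN : 1 < N) (h2 : 2 ≤ N ^ (e / 2)) (hE : N ^ e ≤ 2 * Eg) : N ^ (e / 2) ≤ Eg := by
  have hN0 : 0 < N := by linarith
  have e1 : N ^ e = N ^ (e / 2) * N ^ (e / 2) := by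
    rw [← Real.rpow_add hN0, add_halves]
  have hp : 0 < N ^ (e / 2) := Real.rpow_pos_of_pos hN0 _
  nlinarith

theorem k3g_num_b {N e R τ Eg : ℝ} (hN : 1 < N) (hR : 0 ≤ R) (hE0 : 0 < Eg) (hE : N ^ e ≤ 2 * Eg) (h2 : (2 : ℝ) ^ R ≤ N ^ τ) :
    Eg ^ (-R) ≤ N ^ (-(e * R - τ)) := by
  have hN0 : 0 < N := by linarith
  have h1 : N ^ (e * R) ≤ N ^ τ * Eg ^ R := by
    calc N ^ (e * R) = (N ^ e) ^ R := Real.rpow_mul hN0.le _ _
      _ ≤ (2 * Eg) ^ R := Real.rpow_le_rpow (Real.rpow_pos_of_pos hN0 _).le hE hR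
      _ = 2 ^ R * Eg ^ R := Real.mul_rpow (by norm_num) hE0.le
      _ ≤ N ^ τ * Eg ^ R := mul_le_mul_of_nonneg_right h2 (Real.rpow_pos_of_pos hE0 _).le
  have h3 : N ^ (e * R - τ) ≤ Eg ^ R := by
    rw [Real.rpow_sub hN0, div_le_iff₀ (Real.rpow_pos_of_pos hN0 _)]
    linarith
  rw [Real.rpow_neg hE0.le, Real.rpow_neg hN0.le]
  exact inv_anti₀ (Real.rpow_pos_of_pos hN0 _) h3

theorem k3g_num_hi {N e s x y Eg : ℝ} (hN : 1 < N) (hs : 0 ≤ s) (hE0 : 0 < Eg) (hE : N ^ e ≤ 2 * Eg) (hE' : Eg ≤ N ^ e)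
    (h2 : 2 ≤ N ^ (e / 4)) (hxy : x + e / 4 ≤ y + e - e * s) : N ^ x ≤ N ^ y * Eg ^ (1 - s) := by
  have hN0 : 0 < N := by linarith
  have h1 : Eg ^ s ≤ N ^ (e * s) := by
    rw [Real.rpow_mul hN0.le]
    exact Real.rpow_le_rpow hE0.le hE' hs
  have hEs : 0 < Eg ^ s := Real.rpow_pos_of_pos hE0 _
  rw [Real.rpow_sub hE0, Real.rpow_one, ← mul_div_assoc, le_div_iff₀ hEs]
  have hx : 0 < N ^ x := Real.rpow_pos_of_pos hN0 _
  have hy : 0 < N ^ y := Real.rpow_pos_of_pos hN0 _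
  have h3 : N ^ x * N ^ (e / 4) * N ^ (e * s) ≤ N ^ y * N ^ e := by
    rw [← Real.rpow_add hN0, ← Real.rpow_add hN0, ← Real.rpow_add hN0]
    exact Real.rpow_le_rpow_of_exponent_le hN.le (by linarith)
  have h4 : N ^ x * 2 * Eg ^ s ≤ N ^ y * (2 * Eg) := by
    calc N ^ x * 2 * Eg ^ s ≤ N ^ x * N ^ (e / 4) * N ^ (e * s) :=
          mul_le_mul (mul_le_mul_of_nonneg_left h2 hx.le) h1 hEs.le (by positivity)
      _ ≤ N ^ y * N ^ e := h3
      _ ≤ N ^ y * (2 * Eg) := mul_le_mul_of_nonneg_left hE hy.le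
  nlinarith

theorem k3g_num_lvl {N e : ℝ} {n : ℕ} (hN : 1 < N) (he : 0 ≤ e) (hq : kbQ n ≤ N ^ (-e)) : k3gM N e ≤ n := by
  have hN0 : 0 < N := by linarith
  have h1 : (2 : ℝ) ^ (k3gM N e) ≤ 2 ^ n := by
    refine (k3g_E_le hN he).trans ?_
    unfold kbQ at hq
    rw [Real.rpow_neg hN0.le, one_div, inv_pow] at hq
    exact (inv_le_inv₀ (by positivity) (Real.rpow_pos_of_pos hN0 _)).1 hq
  exact (pow_le_pow_iff_right₀ (by norm_num : (1 : ℝ) < 2)).1 h1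

theorem k3g_num_q {n m : ℕ} (h : m ≤ n) : kbQ (n - m) = kbQ n * 2 ^ m := by
  unfold kbQ
  obtain ⟨i, rfl⟩ := Nat.exists_eq_add_of_le h
  rw [Nat.add_sub_cancel_left, pow_add, mul_comm ((1 / 2 : ℝ) ^ m), mul_assoc, ← mul_pow]
  norm_num

/-- the hypotheses of the one-scale hub, from the data at one index `k` -/
theorem k3g_in {P : KbPb v} {Y : KbSys P} {N L e S R d M K c₀ g u Eg : ℝ} {f : ℝ → ℝ → ℝ} {Γ : Finset ℝ}
    (hN : 1 < N) (hP : P.WF) (hPt : P.Tmp (N ^ M)) (hYw : Y.WF) (hYt : Y.Tmp (N ^ M))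
    (hsl : K3gSl P Y (N ^ (-L)) (N ^ (-(f L 0))) g K) (hg0 : 0 < g) (hg1 : g ≤ 1) (hgo : v = KbVer.one → g = 1)
    (hΓL : L ∈ Γ) (hΓ0 : (0 : ℝ) ∈ Γ) (hΓs : ∀ s : ℝ, 0 ≤ s → s ≤ L → ∃ r ∈ Γ, r ≤ s ∧ s ≤ r + e / 2)
    (hcard : (Γ.card : ℝ) ≤ K) (hK : 1 ≤ K)
    (hendp : ∀ r ∈ Γ, f L 0 - f r 0 ≤ d * (L - r))
    (hcap : ∀ r ∈ Γ, (P.mass (P.above (P.hid (N ^ (-r))) (N ^ (-(f r 0) + e / 2)))).toReal ≤ N ^ (-c₀))
    (hang : (P.mass (P.above (P.hv (N ^ (-L)) (N ^ (-u))) (N ^ (-(f L u) + e / 4)))).toReal ≤ N ^ (-c₀))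
    (hE0 : 0 < Eg) (hE2 : N ^ (e / 2) ≤ Eg) (hb : Eg ^ (-R) ≤ N ^ (-u)) (hhi : N ^ (-(f L u) + e / 4) ≤ N ^ (-(f L 0)) * Eg ^ (1 - S * R)) :
    K3bIn P Y ⟨K, Eg, N ^ (-L), N ^ (-(f L 0)), g, d, N ^ M, N ^ (-c₀)⟩ S R (Γ.image fun r => N ^ (-r))
      (fun a => N ^ (-(f (-Real.logb N a) 0))) := by
  classical
  have hN0 : 0 < N := by linarith
  have hN1 : N ≠ 1 := hN.ne'
  have hlog : ∀ r : ℝ, -Real.logb N (N ^ (-r)) = r := by
    intro r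
    rw [Real.logb_rpow hN0 hN1, neg_neg]
  refine
    { pwf := hP, ntv := hsl.ntv, ptmp := hPt, ywf := hYw, geo := hsl.geo, big := hsl.big, tru := hsl.tru, sat := hsl.sat,
      known := hsl.known, ytmp := hYt, axes := hsl.axes, g_pos := hg0, g_le := hg1, g_one := hgo,
      nL_pos := Real.rpow_pos_of_pos hN0 _,
      grid_δ := Finset.mem_image.2 ⟨L, hΓL, rfl⟩,
      grid_1 := Finset.mem_image.2 ⟨0, hΓ0, by simp⟩,
      grid := ?_, grid_card := ?_, nr_δ := ?_, capcl := ?_, cap := ?_, capang := ?_ }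
  · intro M' h1 h2
    have h1' : N ^ (-L) ≤ M' := h1
    have hM0 : 0 < M' := lt_of_lt_of_le (Real.rpow_pos_of_pos hN0 _) h1'
    set s := -Real.logb N M' with hs
    have hMs : M' = N ^ (-s) := by rw [hs, neg_neg, Real.rpow_logb hN0 hN1 hM0]
    have hs0 : 0 ≤ s := by
      have : Real.logb N M' ≤ 0 := Real.logb_nonpos hN hM0.le h2
      linarith
    have hsL : s ≤ L := by
      have : -L ≤ Real.logb N M' := (Real.le_logb_iff_rpow_le hN hM0).2 h1'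
      linarith
    obtain ⟨r, hr, hr1, hr2⟩ := hΓs s hs0 hsL
    refine ⟨N ^ (-r), Finset.mem_image.2 ⟨r, hr, rfl⟩, ?_, ?_⟩
    · rw [hMs]
      exact Real.rpow_le_rpow_of_exponent_le hN.le (by linarith)
    · show N ^ (-r) ≤ M' * Eg
      calc N ^ (-r) ≤ N ^ (-s + e / 2) := Real.rpow_le_rpow_of_exponent_le hN.le (by linarith)
        _ = M' * N ^ (e / 2) := by rw [Real.rpow_add hN0, ← hMs]
        _ ≤ M' * Eg := mul_le_mul_of_nonneg_left hE2 hM0.le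
  · exact le_trans (by exact_mod_cast Finset.card_image_le) hcard
  · show N ^ (-(f (-Real.logb N (N ^ (-L))) 0)) = N ^ (-(f L 0))
    rw [hlog]
  · intro a ha
    obtain ⟨r, hr, rfl⟩ := Finset.mem_image.1 ha
    show N ^ (-(f (-Real.logb N (N ^ (-r))) 0)) ≤ K * N ^ (-(f L 0)) * (N ^ (-r) / N ^ (-L)) ^ d
    rw [hlog, ← Real.rpow_sub hN0, ← Real.rpow_mul hN0.le, mul_assoc, ← Real.rpow_add hN0]
    have h1 : N ^ (-(f r 0)) ≤ N ^ (-(f L 0) + (-r - -L) * d) := by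
      refine Real.rpow_le_rpow_of_exponent_le hN.le ?_
      have := hendp r hr
      nlinarith
    exact h1.trans (le_mul_of_one_le_left (Real.rpow_pos_of_pos hN0 _).le hK)
  · intro a ha
    obtain ⟨r, hr, rfl⟩ := Finset.mem_image.1 ha
    show P.mass (P.above (P.hid (N ^ (-r))) (Eg * N ^ (-(f (-Real.logb N (N ^ (-r))) 0)))) ≤ ENNReal.ofReal (N ^ (-c₀))
    rw [hlog]
    refine le_trans (k3g_above_anti P _ ?_) (k3g_mass_le hP _ (hcap r hr))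
    rw [add_comm, Real.rpow_add hN0]
    exact mul_le_mul_of_nonneg_right hE2 (Real.rpow_pos_of_pos hN0 _).le
  · show P.mass (P.above (P.hv (N ^ (-L)) (Eg ^ (-R))) (N ^ (-(f L 0)) * Eg ^ (1 - S * R))) ≤ ENNReal.ofReal (N ^ (-c₀))
    exact le_trans (k3g_capang_one hP (Real.rpow_pos_of_pos hN0 _) (Real.rpow_pos_of_pos hE0 _) hb hhi) (k3g_mass_le hP _ hang)

end

end Claimed.Agent.R252
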