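import Claimed.Agent.R252.S3b.AsmContract

/-!
# ROW 252 (S0492), unit S3b (L3.5), file 10: `K3bCmpStmt v → K3bHubStmt v`      (architect helper70)   -- KEEP
No sorry in this file.   Choice of the exponents: `A₀ = E^{C₀}`, `T = E`, `A = E^a`, `ρ = 1/(12A) ≥ E^{-(a+1)}`, `r = 1/(8A)`, `A₂ = E^{C₁}`, `U = E^{C2}`, `U3 = E^{C3}`, `m = k3e3M C2 C3 E`, `K_t = 2 C₁ K^{C₁} 18^{11^n}`, `Q' = Q^{Cq}`.
-/

set_option autoImplicit false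

namespace Claimed.Agent.R252

open MeasureTheory
open scoped ENNReal BigOperators

noncomputable section

theorem k3b_hn_pow (E p : ℝ) (k : ℕ) (hE : 0 < E) : (E ^ p) ^ k = E ^ (p * k) := by
  rw [← Real.rpow_natCast, ← Real.rpow_mul hE.le]

theorem k3b_hn1 (E C₀ Can a : ℝ) (hE : 1 ≤ E) (hc : Can ≤ E) (ha : (C₀ + 1) * Can + 1 ≤ a) : Can * (E ^ C₀ * E) ^ Can ≤ E ^ a := by
  have hE0 : 0 < E := by linarith
  have e1 : E ^ C₀ * E = E ^ (C₀ + 1) := by rw [Real.rpow_add hE0, Real.rpow_one]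
  rw [e1, ← Real.rpow_mul hE0.le]
  exact k3b_num_E E Can _ a hE hc ha

theorem k3b_hn2 (E C₀ a : ℝ) (hE : 8 ≤ E) (ha : 2 * C₀ + 1 ≤ a) : 8 * (E ^ C₀) ^ 2 ≤ E ^ a := by
  have hE0 : 0 < E := by linarith
  rw [k3b_hn_pow E C₀ 2 hE0]
  exact k3b_num_E E 8 _ a (by linarith) hE (by push_cast; linarith)

theorem k3b_hn40 (E a c : ℝ) (hE : 1 ≤ E) (hc : c ≤ E) : c * E ^ a ≤ E ^ (a + 1) := k3b_num_E E c a (a + 1) hE hc le_rfl

theorem k3b_hn5 (E a C₁ Cex Cpl C2 : ℝ) (hE : 40 ≤ E) (h1 : Cex ≤ E) (h2 : 2 * Cpl ≤ E) (hCex : 1 ≤ Cex) (hCpl : 1 ≤ Cpl) (hC2 : 3 + (a + 1) * (Cex + 2 * Cpl) + 4 * C₁ ≤ C2) :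
    Cex * (40 * E ^ a) ^ Cex * (2 * (Cpl * (40 * E ^ a) ^ Cpl * (E ^ C₁) ^ 2)) ^ 2 ≤ E ^ C2 := by
  have hE0 : 0 < E := by linarith
  have hE1 : 1 ≤ E := by linarith
  have h40 : 40 * E ^ a ≤ E ^ (a + 1) := k3b_hn40 E a 40 hE1 hE
  have h40p : 0 ≤ 40 * E ^ a := by positivity
  have p1 : (40 * E ^ a) ^ Cex ≤ E ^ ((a + 1) * Cex) := by
    rw [Real.rpow_mul hE0.le]
    exact Real.rpow_le_rpow h40p h40 (by linarith)
  have p2 : (40 * E ^ a) ^ Cpl ≤ E ^ ((a + 1) * Cpl) := by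
    rw [Real.rpow_mul hE0.le]
    exact Real.rpow_le_rpow h40p h40 (by linarith)
  have p3 : (E ^ C₁) ^ 2 = E ^ (2 * C₁) := by
    rw [k3b_hn_pow E C₁ 2 hE0]
    congr 1
    push_cast
    ring
  have p4 : 2 * (Cpl * (40 * E ^ a) ^ Cpl * (E ^ C₁) ^ 2) ≤ E ^ (1 + (a + 1) * Cpl + 2 * C₁) := by
    rw [p3]
    calc 2 * (Cpl * (40 * E ^ a) ^ Cpl * E ^ (2 * C₁)) = (2 * Cpl) * ((40 * E ^ a) ^ Cpl * E ^ (2 * C₁)) := by ring
      _ ≤ E * (E ^ ((a + 1) * Cpl) * E ^ (2 * C₁)) := by gcongr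
      _ = E ^ (1 + (a + 1) * Cpl + 2 * C₁) := by rw [Real.rpow_add hE0, Real.rpow_add hE0, Real.rpow_one]; ring
  have p5 : (2 * (Cpl * (40 * E ^ a) ^ Cpl * (E ^ C₁) ^ 2)) ^ 2 ≤ E ^ (2 * (1 + (a + 1) * Cpl + 2 * C₁)) := by
    calc (2 * (Cpl * (40 * E ^ a) ^ Cpl * (E ^ C₁) ^ 2)) ^ 2 ≤ (E ^ (1 + (a + 1) * Cpl + 2 * C₁)) ^ 2 := by
          gcongr
      _ = E ^ (2 * (1 + (a + 1) * Cpl + 2 * C₁)) := by
          rw [k3b_hn_pow E _ 2 hE0]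
          congr 1
          push_cast
          ring
  calc Cex * (40 * E ^ a) ^ Cex * (2 * (Cpl * (40 * E ^ a) ^ Cpl * (E ^ C₁) ^ 2)) ^ 2
      ≤ E * E ^ ((a + 1) * Cex) * E ^ (2 * (1 + (a + 1) * Cpl + 2 * C₁)) := by gcongr
    _ = E ^ (3 + (a + 1) * (Cex + 2 * Cpl) + 4 * C₁) := by
        have e : E * E ^ ((a + 1) * Cex) * E ^ (2 * (1 + (a + 1) * Cpl + 2 * C₁)) = E ^ (1 + (a + 1) * Cex + 2 * (1 + (a + 1) * Cpl + 2 * C₁)) := by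
          rw [Real.rpow_add hE0, Real.rpow_add hE0, Real.rpow_one]
        rw [e]
        congr 1
        ring
    _ ≤ E ^ C2 := Real.rpow_le_rpow_of_exponent_le hE1 hC2

theorem k3b_hn7 (E K' Cd C₀ a C3 nR : ℝ) (hE : 1 ≤ E) (hn : 1 ≤ nR) (h : 4 * Cd * K' ≤ E) (hC3 : C3 = a + 2 * nR * (C₀ + 1)) :
    4 * K' * (Cd * E ^ C₀ * (E ^ a / E ^ C3) ^ (1 / (2 * nR))) ≤ 1 := by
  have hE0 : 0 < E := by linarith
  have e1 : E ^ a / E ^ C3 = E ^ (a - C3) := by rw [Real.rpow_sub hE0]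
  have e2 : (E ^ (a - C3)) ^ (1 / (2 * nR)) = E ^ (-(C₀ + 1)) := by
    rw [← Real.rpow_mul hE0.le]
    congr 1
    rw [hC3]
    field_simp
    ring
  rw [e1, e2]
  have e3 : E ^ C₀ * E ^ (-(C₀ + 1)) = E⁻¹ := by
    rw [← Real.rpow_add hE0, ← Real.rpow_neg_one]
    congr 1
    ring
  calc 4 * K' * (Cd * E ^ C₀ * E ^ (-(C₀ + 1))) = (4 * Cd * K') * (E ^ C₀ * E ^ (-(C₀ + 1))) := by ring
    _ = (4 * Cd * K') * E⁻¹ := by rw [e3]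
    _ ≤ E * E⁻¹ := by gcongr
    _ = 1 := mul_inv_cancel₀ hE0.ne'

theorem k3b_hnQ (E Q a Cq : ℝ) (n : ℕ) (hE : 60 ≤ E) (hEQ : E ≤ Q) (ha : 0 ≤ a) (hCq : 2 + (a + 1) * n ≤ Cq) : 2 * Q * (60 * E ^ a) ^ n ≤ Q ^ Cq := by
  have hE0 : 0 < E := by linarith
  have hQ0 : 0 < Q := by linarith
  have hQ1 : 1 ≤ Q := by linarith
  have h1 : 60 * E ^ a ≤ Q ^ (a + 1) := (k3b_hn40 E a 60 (by linarith) hE).trans (Real.rpow_le_rpow hE0.le hEQ (by linarith))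
  calc 2 * Q * (60 * E ^ a) ^ n ≤ Q * Q * (Q ^ (a + 1)) ^ n := by
        gcongr
        linarith
    _ = Q ^ (2 + (a + 1) * n) := by
        rw [k3b_hn_pow Q _ n hQ0, Real.rpow_add hQ0, Real.rpow_two]
        ring
    _ ≤ Q ^ Cq := Real.rpow_le_rpow_of_exponent_le hQ1 hCq

theorem k3b_hnK (Ch cn C₁ K C : ℝ) (hK : 1 ≤ K) (hCh : 1 ≤ Ch) (hcn : 0 ≤ cn) (h1 : Ch * cn ^ Ch ≤ C) (h2 : C₁ * Ch ≤ C) : Ch * (cn * K ^ C₁) ^ Ch ≤ C * K ^ C := by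
  have hK0 : 0 < K := by linarith
  rw [Real.mul_rpow hcn (by positivity), ← Real.rpow_mul hK0.le, ← mul_assoc]
  exact k3b_num_le _ _ C K (by positivity) h1 h2 hK

/-- `E ≤ Q` -/
theorem k3b_hnEQ {v : KbVer} {P : KbPb v} (Y : KbSys P) (Q E : ℝ) (n₁ : ℕ) (hT : Y.Tmp Q) (hE : E = 2 ^ (Y.n - n₁)) : E ≤ Q := by
  have h1 := hT.q_low
  have hq : Y.q = (1 / 2 : ℝ) ^ Y.n := rfl
  have h2 : (2 : ℝ) ^ Y.n * Y.q = 1 := by
    rw [hq, ← mul_pow]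
    norm_num
  have h3 : (0 : ℝ) < 2 ^ Y.n := by positivity
  have hq0 : 0 < Y.q := by rw [hq]; positivity
  have h4 : (2 : ℝ) ^ Y.n ≤ Q := by
    by_contra hcon
    have : Q * Y.q < 2 ^ Y.n * Y.q := mul_lt_mul_of_pos_right (not_le.mp hcon) hq0
    linarith
  rw [hE]
  exact (pow_le_pow_right₀ (by norm_num) (Nat.sub_le _ _)).trans h4

set_option maxHeartbeats 1000000 in
/-- **L3.5 at one scale from the exit of part 1.** -/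
theorem k3b_hub_of_cmp (v : KbVer) (hcmp : K3bCmpStmt v) : K3bHubStmt v := by
  intro d0 S hd0 hS
  obtain ⟨C₀, R, hC₀, hR, H⟩ := hcmp d0 S hd0 hS
  obtain ⟨Can, Cpl, Cex, Cd, hCan, hCpl, hCex, hCd, Hcore⟩ := k3b_asm_core v
  obtain ⟨a, ha⟩ : ∃ a : ℝ, a = (C₀ + 1) * Can + 2 * C₀ + 2 := ⟨_, rfl⟩
  have hprod : 0 ≤ (C₀ + 1) * Can := by positivity
  have ha1 : 1 ≤ a := by linarith
  obtain ⟨C₁, hC₁, H1⟩ := H (a + 1) (by linarith)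
  obtain ⟨nR, hnR⟩ : ∃ nR : ℝ, nR = (v.j : ℝ) + 1 := ⟨_, rfl⟩
  have hnR1 : 1 ≤ nR := by
    rw [hnR]
    have : (0 : ℝ) ≤ v.j := Nat.cast_nonneg _
    linarith
  obtain ⟨C2, hC2⟩ : ∃ C2 : ℝ, C2 = 3 + (a + 1) * (Cex + 2 * Cpl) + 4 * C₁ := ⟨_, rfl⟩
  obtain ⟨C3, hC3⟩ : ∃ C3 : ℝ, C3 = a + 2 * nR * (C₀ + 1) := ⟨_, rfl⟩
  have hC2' : 1 ≤ C2 := by
    have : 0 ≤ (a + 1) * (Cex + 2 * Cpl) := by positivity
    linarith
  have hC3' : 0 ≤ C3 := by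
    have : 0 ≤ 2 * nR * (C₀ + 1) := by positivity
    linarith
  obtain ⟨Ch, hCh, Hh⟩ := k3e3_hub_tab (v := v) C2 C3 hC2' hC3'
  obtain ⟨c18, hc18⟩ : ∃ c18 : ℝ, c18 = 18 ^ (11 ^ (v.j + 1)) := ⟨_, rfl⟩
  have h18 : (1 : ℝ) ≤ c18 := by rw [hc18]; exact one_le_pow₀ (by norm_num)
  obtain ⟨cn, hcn⟩ : ∃ cn : ℝ, cn = 2 * C₁ * c18 := ⟨_, rfl⟩
  have hcn1 : 1 ≤ cn := by rw [hcn]; nlinarith
  obtain ⟨Cq, hCq⟩ : ∃ Cq : ℝ, Cq = C₁ + 2 + (a + 1) * nR := ⟨_, rfl⟩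
  have hCq0 : 0 ≤ (a + 1) * nR := by positivity
  obtain ⟨C, hC⟩ : ∃ C : ℝ, C = C₁ + 60 + Can + Cex + 2 * Cpl + 4 * Can * C₁ + 4 * Cd * C₁ + Ch * cn ^ Ch + C₁ * Ch + Ch + Cq * Ch := ⟨_, rfl⟩
  have t1 : 0 ≤ 4 * Can * C₁ := by positivity
  have t2 : 0 ≤ 4 * Cd * C₁ := by positivity
  have t3 : 0 ≤ Ch * cn ^ Ch := by positivity
  have t4 : 0 ≤ C₁ * Ch := by positivity
  have t5 : 0 ≤ Cq * Ch := by
    have : 0 ≤ Cq := by linarith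
    positivity
  refine ⟨C, R, by linarith, hR, ?_⟩
  intro P Y x G nr n₁ hin hd hd' hK hn hE hCE hlogQ hε hδ hδE
  obtain ⟨E, hEd⟩ : ∃ E : ℝ, E = x.E := ⟨_, rfl⟩
  obtain ⟨K, hKd⟩ : ∃ K : ℝ, K = x.K := ⟨_, rfl⟩
  obtain ⟨Q, hQd⟩ : ∃ Q : ℝ, Q = x.Q := ⟨_, rfl⟩
  obtain ⟨δ, hδd⟩ : ∃ δ : ℝ, δ = x.δ := ⟨_, rfl⟩
  rw [← hEd, ← hKd] at hCE
  rw [← hKd] at hK
  rw [← hδd] at hδ
  have hK0 : 0 < K := by linarith
  have hC0 : 0 ≤ C := by linarith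
  have hKC : 1 ≤ K ^ C := Real.one_le_rpow hK hC0
  have hCE' : C ≤ E := le_trans (le_mul_of_one_le_right hC0 hKC) hCE
  have hE60 : 60 ≤ E := by linarith
  have hE1 : 1 ≤ E := by linarith
  have hE0 : 0 < E := by linarith
  have hP := hin.pwf
  have hY := hin.ywf
  have hEQ : E ≤ Q := by
    rw [hQd]
    exact k3b_hnEQ Y x.Q E n₁ hin.ytmp (by rw [hEd]; exact hE)
  have hQ1 : 1 ≤ Q := by linarith
  have hQ0 : 0 < Q := by linarith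
  -- the subpower slack of part 1
  obtain ⟨K', hK'⟩ : ∃ K' : ℝ, K' = C₁ * K ^ C₁ := ⟨_, rfl⟩
  have hKC1 : 1 ≤ K ^ C₁ := Real.one_le_rpow hK (by linarith)
  have hK'1 : 1 ≤ K' := by rw [hK']; exact one_le_mul_of_one_le_of_one_le hC₁ hKC1
  have hK'C : K' ≤ C * K ^ C := by rw [hK']; exact k3b_num_le C₁ C₁ C K (by linarith) (by linarith) (by linarith) hK
  have hKK' : K ≤ K' := by
    rw [hK']
    have : K ≤ K ^ C₁ := by
      have := Real.rpow_le_rpow_of_exponent_le hK hC₁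
      rwa [Real.rpow_one] at this
    exact this.trans (le_mul_of_one_le_left (by linarith) hC₁)
  -- numbers
  obtain ⟨A, hA⟩ : ∃ A : ℝ, A = E ^ a := ⟨_, rfl⟩
  have hA0 : 0 < A := by rw [hA]; positivity
  have N2 : 8 * (E ^ C₀) ^ 2 ≤ A := by rw [hA]; exact k3b_hn2 E C₀ a (by linarith) (by linarith)
  have N1 : Can * (E ^ C₀ * E) ^ Can ≤ A := by rw [hA]; exact k3b_hn1 E C₀ Can a hE1 (by linarith) (by linarith)
  have N3 : E ^ (-(a + 1)) ≤ 1 / (12 * A) := by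
    rw [Real.rpow_neg hE0.le, ← one_div]
    refine one_div_le_one_div_of_le (by positivity) ?_
    rw [hA]
    exact k3b_hn40 E a 12 hE1 (by linarith)
  have N4 : 1 / (12 * A) ≤ 1 / (8 * A) := one_div_le_one_div_of_le (by positivity) (by linarith)
  have N4' : 64 * (E ^ C₀) ^ 2 * (1 / (8 * A)) ≤ 1 := by
    rw [mul_one_div, div_le_one (by positivity)]
    linarith
  have hε' : C₁ * x.K ^ C₁ * x.ε ≤ 1 := by
    rw [← hKd, ← hK']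
    by_cases h0 : 0 ≤ x.ε
    · refine le_trans (mul_le_mul_of_nonneg_right hK'C h0) ?_
      rw [hKd]
      exact hε
    · have : K' * x.ε ≤ 0 := mul_nonpos_of_nonneg_of_nonpos (by linarith) (not_le.mp h0).le
      linarith
  have hδE' : x.δ * x.E ^ C₁ ≤ 1 := by
    refine le_trans ?_ hδE
    rw [← hδd, ← hEd]
    exact mul_le_mul_of_nonneg_left (Real.rpow_le_rpow_of_exponent_le hE1 (by linarith)) hδ.le
  obtain ⟨X, hXn, hX⟩ := H1 P Y x G nr n₁ hin hd hd' (by rw [← hKd]; exact hK) hn hE (by rw [← hKd, ← hEd, ← hK']; exact hK'C.trans hCE) hlogQ hε' (by rw [← hδd]; exact hδ) hδE'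
    (1 / (8 * A)) (1 / (12 * A)) (by rw [← hEd]; exact N3) N4 (by rw [← hEd]; exact N4')
  rw [← hKd, ← hEd, ← hK', ← hδd, ← hQd] at hX
  have hA₀2 : 2 ≤ E ^ C₀ := by
    have := Real.rpow_le_rpow_of_exponent_le hE1 hC₀
    rw [Real.rpow_one] at this
    linarith
  have hA₂1 : 1 ≤ E ^ C₁ := Real.one_le_rpow hE1 (by linarith)
  have N5 : Cex * (40 * A) ^ Cex * (2 * (Cpl * (40 * A) ^ Cpl * (E ^ C₁) ^ 2)) ^ 2 ≤ E ^ C2 := by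
    rw [hA]
    exact k3b_hn5 E a C₁ Cex Cpl C2 (by linarith) (by linarith) (by linarith) hCex hCpl (le_of_eq hC2.symm)
  have hU31 : 1 ≤ E ^ C3 := Real.one_le_rpow hE1 hC3'
  have N6 : 4 * K' * (Can / E) ≤ 1 := by
    have h1 : 4 * Can * K' ≤ E := by
      refine le_trans ?_ hCE
      rw [hK', ← mul_assoc]
      exact k3b_num_le _ C₁ C K (by positivity) (by linarith) (by linarith) hK
    rw [← mul_div_assoc, div_le_one hE0]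
    linarith
  have N7 : 4 * K' * (Cd * E ^ C₀ * (A / E ^ C3) ^ (1 / (2 * ((v.j : ℝ) + 1)))) ≤ 1 := by
    rw [hA, ← hnR]
    refine k3b_hn7 E K' Cd C₀ a C3 nR hE1 hnR1 ?_ hC3
    refine le_trans ?_ hCE
    rw [hK', ← mul_assoc]
    exact k3b_num_le _ C₁ C K (by positivity) (by linarith) (by linarith) hK
  obtain ⟨W, hWok, hWK, hWU, hWU3, hWm, hWδ, hWn, hWT⟩ := Hcore P Y X K' (E ^ C₀) (E ^ C₁) (Q ^ C₁) E A δ (E ^ C2) (E ^ C3) (k3e3M C2 C3 E) hP hY hX hK'1 hA₀2 hA₂1 hE1 hδ N1 N2 N5 hU31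
    (k3e3_m_U3 C2 C3 E (by linarith) (by linarith)) (k3e3_m_U C2 C3 E (by linarith) hC3') N6 N7
  -- the slack of the table
  rw [← hc18] at hWK
  have hWK' : W.K = cn * K ^ C₁ := by
    rw [hWK, hK', hcn]
    ring
  have hK'W : K' ≤ W.K := by
    rw [hWK]
    have : K' * 1 ≤ (2 * K') * c18 := mul_le_mul (by linarith) h18 (by norm_num) (by linarith)
    linarith
  have hslack : Ch * W.K ^ Ch ≤ C * K ^ C := by
    rw [hWK']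
    exact k3b_hnK Ch cn C₁ K C hK hCh (by linarith) (by linarith) (by linarith)
  have hTmp : W.sys0.Tmp (Q ^ Cq) := by
    refine hWT Q (Q ^ Cq) (by rw [hQd]; exact hin.ytmp) (Real.rpow_le_rpow_of_exponent_le hQ1 (by linarith)) ?_ ?_
    · have := Real.rpow_le_rpow_of_exponent_le hQ1 (show (1 : ℝ) ≤ Cq by linarith)
      rwa [Real.rpow_one] at this
    · rw [hA]
      refine k3b_hnQ E Q a Cq (v.j + 1) hE60 hEQ (by linarith) ?_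
      rw [hCq, hnR]
      push_cast
      linarith
  have hlogE : Real.log E ≤ W.K := by
    have h1 : Real.log E ≤ Real.log Q := Real.log_le_log hE0 hEQ
    rw [← hQd, ← hKd] at hlogQ
    linarith
  have hEQ' : E ≤ Q ^ Cq := by
    have := Real.rpow_le_rpow_of_exponent_le hQ1 (show (1 : ℝ) ≤ Cq by linarith)
    rw [Real.rpow_one] at this
    linarith
  have hKn : Y.Known (P.hid x.δ) W.K := k2s_known_mono Y hin.known (by rw [← hKd]; linarith)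
  obtain ⟨Y', a', h1, h2, h3, h4, h5, h6, h7, h8⟩ := Hh P Y W E (Q ^ Cq) ℤ (P.hid x.δ) hP hY hWok hWU hWU3 hWm hKn hTmp (hslack.trans hCE) hlogE hEQ'
  rw [hWδ] at h2 h3
  have ha'0 : 0 ≤ a' := le_trans (by positivity) h2
  refine ⟨Y', a', by rw [h1, hWn, hXn], by rw [← hδd, ← hEd]; exact h2, ?_, h4, ?_, ?_, ?_, ?_⟩
  · rw [← hδd, ← hEd]
    exact h3.trans (mul_le_mul_of_nonneg_left (Real.rpow_le_rpow_of_exponent_le hE1 (by linarith)) hδ.le)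
  · rw [← hKd]
    exact k2s_geo_mono Y' hP h5 hslack ha'0
  · rw [← hKd]
    exact k2s_big_mono Y' h6 hslack
  · rw [← hKd]
    exact k2s_known_mono Y' h7 hslack
  · rw [← hQd]
    refine k2s_tmp_mono Y' h8 ?_
    rw [← Real.rpow_mul hQ0.le]
    exact Real.rpow_le_rpow_of_exponent_le hQ1 (by linarith)

end

end Claimed.Agent.R252
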